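import Vale.Agent.P156.FE.Spec

/-! # FE8, FE9: interface of the error block

Two stars.  On a part of `ZZs n d 2` which is invariant under permutations of the leads and on
which everything is bounded by `B`, the averages of the squared off-diagonal lead entries and of
the squared differences between the lead matrix and the lead matrices of the single stars. -/

open MeasureTheory Filter Topology Matrix Finset

namespace Vale.Agent.P156.FE

noncomputable section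

/-- Everything is bounded by `B`. -/
structure Bdd {n d K : ℕ} (ω : SimpleGraph (Fin n) × StarPos n d K) (z : ℂ) (B : ℝ) : Prop where
  lead : ∀ p r, ‖leadMat ω z p r‖ ≤ B
  star : ∀ x y, ‖starMat ω z x y‖ ≤ B
  cinv : ∀ i j, ‖(centreMat ω z)⁻¹ i j‖ ≤ B
  sinv : ∀ j, ‖(starMat ω z (j, none) (j, none))⁻¹‖ ≤ B
  sub : ∀ j p r, ‖leadMat (sub1 ω j) z p r‖ ≤ B
  subinv : ∀ j p, ‖(leadMat (sub1 ω j) z p p)⁻¹‖ ≤ B

/-- The squared errors. -/
def EE {n d : ℕ} (ω : SimpleGraph (Fin n) × StarPos n d 2) (z : ℂ) : ℝ :=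
  (∑ j : Fin 2, ∑ p : Fin d, ∑ r : Fin d,
    ‖leadMat ω z (j, p) (j, r) - leadMat (sub1 ω j) z (0, p) (0, r)‖ ^ 2) +
  ∑ a, ∑ b, if a = b then 0 else ‖leadMat ω z a b‖ ^ 2

open Classical in
/-- **FE8a** (from `SpecDec`, `SpecWard`, `SpecSW`): average of the squared errors. -/
def SpecErr (d : ℕ) : Prop :=
  ∃ C : ℝ, ∃ κ : ℕ, 1 ≤ C ∧ ∀ n : ℕ, 0 < n → ∀ E η : ℝ, 0 < η → η ≤ 1 →
    ∀ (z' : ℂ) (g : Matrix (Fin 2 × Fin d) (Fin 2 × Fin d) ℂ → Prop),
    (∀ (σ : Equiv.Perm (Fin 2 × Fin d)) (M : Matrix (Fin 2 × Fin d) (Fin 2 × Fin d) ℂ),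
      g (M.submatrix σ σ) ↔ g M) →
    ∀ B b : ℝ, 1 ≤ B → 0 ≤ b →
    (∀ ω ∈ ZZs n d 2, g (leadMat ω z') → Bdd ω (zz E η) B) →
    ∀ w w' : SimpleGraph (Fin n) → ℝ, Wt n d b w w' →
    avg (WW n d 2) (fun ω => w ω.1 *
      if ω ∈ ZZs n d 2 ∧ g (leadMat ω z') then EE ω (zz E η) else 0) ≤
      C * B ^ κ * (MW n d w / (n * η) + b * XW n d w' (zz E η))

end

end Vale.Agent.P156.FE
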