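import Vale.Agent.P156.H653.Iso
import Mathlib.Analysis.SpecialFunctions.Gaussian.FourierTransform
import Mathlib.MeasureTheory.Measure.Haar.InnerProductSpace
import Mathlib.LinearAlgebra.Matrix.SchurComplement
import Mathlib.MeasureTheory.Integral.Pi

/-!
# P156, block D5: volume factors of the isotropic coordinates
-/

open MeasureTheory ProbabilityTheory
open Vale.Agent.P156.H849 Vale.Agent.P156.H653
open scoped BigOperators ENNReal NNReal

noncomputable section

namespace Vale.Agent.P156.H894

variable {q k : ℕ}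

/-- `ofLp` preserves volume on `PiLp 2 (Fin q → Ek k)`. -/
theorem map_ofLp_pi (q k : ℕ) :
    (volume : Measure (PiLp 2 (fun _ : Fin q => Ek k))).map
      (PiLp.continuousLinearEquiv 2 ℝ (fun _ : Fin q => Ek k)) = volume := by
  set L := PiLp.continuousLinearEquiv 2 ℝ (fun _ : Fin q => Ek k) with hL
  set μ : Measure (Fin q → Ek k) := (volume : Measure (PiLp 2 (fun _ : Fin q => Ek k))).map L with hμ
  have hHaar : μ.IsAddHaarMeasure := L.isAddHaarMeasure_map volume
  have hs : μ = (Measure.addHaarScalarFactor μ volume) • (volume : Measure (Fin q → Ek k)) :=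
    Measure.isAddLeftInvariant_eq_smul μ volume
  set c := Measure.addHaarScalarFactor μ (volume : Measure (Fin q → Ek k)) with hc
  -- integrate the Gaussian
  let f : (Fin q → Ek k) → ℝ := fun g => ∏ j, Real.exp (-(1 : ℝ) * ‖g j‖ ^ 2)
  have h1 : ∫ g, f g ∂μ = (Real.pi / 1) ^ ((Module.finrank ℝ (PiLp 2 (fun _ : Fin q => Ek k)) : ℝ) / 2) := by
    rw [hμ, integral_map L.continuous.aemeasurable (by fun_prop)]
    rw [← GaussianFourier.integral_rexp_neg_mul_sq_norm (V := PiLp 2 (fun _ : Fin q => Ek k))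
      (by norm_num : (0 : ℝ) < 1)]
    refine integral_congr_ae (Filter.Eventually.of_forall fun x => ?_)
    simp only [f]
    rw [← Real.exp_sum, PiLp.norm_sq_eq_of_L2, Finset.mul_sum]
    rfl
  have h2 : ∫ g, f g ∂(volume : Measure (Fin q → Ek k)) = ((Real.pi / 1) ^ ((k : ℝ) / 2)) ^ q := by
    rw [integral_fintype_prod_volume_eq_prod (fun _ => fun x : Ek k => Real.exp (-(1 : ℝ) * ‖x‖ ^ 2))]
    rw [Finset.prod_congr rfl (fun j _ =>
      GaussianFourier.integral_rexp_neg_mul_sq_norm (V := Ek k) (by norm_num : (0 : ℝ) < 1))]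
    simp
  have h3 : ∫ g, f g ∂μ = (c : ℝ) * ∫ g, f g := by
    conv_lhs => rw [hs]
    rw [integral_smul_nnreal_measure]
    rfl
  have hdim : Module.finrank ℝ (PiLp 2 (fun _ : Fin q => Ek k)) = q * k := by
    rw [L.toLinearEquiv.finrank_eq, Module.finrank_pi_fintype]
    simp
  have h4 : ((Real.pi / 1) ^ ((k : ℝ) / 2)) ^ q =
      (Real.pi / 1) ^ ((Module.finrank ℝ (PiLp 2 (fun _ : Fin q => Ek k)) : ℝ) / 2) := by
    rw [hdim, ← Real.rpow_natCast, ← Real.rpow_mul (by positivity)]
    congr 1
    push_cast; ring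
  rw [h1, h2, h4] at h3
  have hpos : (0 : ℝ) < (Real.pi / 1) ^ ((Module.finrank ℝ (PiLp 2 (fun _ : Fin q => Ek k)) : ℝ) / 2) := by
    positivity
  have hc1 : (c : ℝ) = 1 := by
    have := mul_right_cancel₀ hpos.ne' (h3.symm.trans (one_mul _).symm)
    exact this
  have hc2 : c = 1 := by exact_mod_cast hc1
  rw [hs, hc2, one_smul]

/-- The linear map `g ↦ (s (α g_j + β Σ g))_j`. -/
def simpMap (q k : ℕ) (s a b : ℝ) : (Fin q → Ek k) →ₗ[ℝ] (Fin q → Ek k) :=
  LinearMap.pi fun j => s • (a • LinearMap.proj j + b • ∑ i, LinearMap.proj i)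

theorem simpMap_apply (s a b : ℝ) (g : Fin q → Ek k) (j : Fin q) :
    simpMap q k s a b g j = s • (a • g j + b • ∑ i, g i) := by
  simp [simpMap]

/-- The matrix `s (α 1 + β J)`. -/
def simpMat (q : ℕ) (s a b : ℝ) : Matrix (Fin q) (Fin q) ℝ :=
  fun i j => s * ((if i = j then a else 0) + b)

theorem det_simpMat (hq : 1 ≤ q) (s a b : ℝ) (ha : a ≠ 0) :
    (simpMat q s a b).det = s ^ q * a ^ (q - 1) * (a + q * b) := by
  have h1 : simpMat q s a b = (s * a) • ((1 : Matrix (Fin q) (Fin q) ℝ) +
      Matrix.replicateCol Unit (fun _ : Fin q => b / a) *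
        Matrix.replicateRow Unit (fun _ : Fin q => (1 : ℝ))) := by
    ext i j
    simp only [simpMat, Matrix.smul_apply, Matrix.add_apply, Matrix.one_apply,
      Matrix.mul_apply, Matrix.replicateCol_apply, Matrix.replicateRow_apply, smul_eq_mul,
      Finset.univ_unique, Finset.sum_const, Finset.card_singleton, one_smul, mul_one]
    split_ifs
    · field_simp
    · field_simp; ring
  rw [h1, Matrix.det_smul, Matrix.det_one_add_replicateCol_mul_replicateRow]
  simp only [dotProduct, one_mul, Finset.sum_const, Finset.card_univ, Fintype.card_fin,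
    nsmul_eq_mul]
  obtain ⟨n, rfl⟩ : ∃ n, q = n + 1 := ⟨q - 1, by omega⟩
  rw [Nat.add_sub_cancel, mul_pow]
  push_cast
  field_simp
  ring

/-- Exchange of the two indices. -/
def swapEquiv (q k : ℕ) : (Fin q → Ek k) ≃ₗ[ℝ] (Fin k → Fin q → ℝ) where
  toFun g a j := g j a
  invFun h j := WithLp.toLp 2 fun a => h a j
  left_inv g := by ext j a; rfl
  right_inv h := by ext a j; rfl
  map_add' g h := by ext a j; rfl
  map_smul' c g := by ext a j; rfl

theorem det_simpMap (hq : 1 ≤ q) (s a b : ℝ) (ha : a ≠ 0) :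
    LinearMap.det (simpMap q k s a b) = (s ^ q * a ^ (q - 1) * (a + q * b)) ^ k := by
  have h1 : LinearMap.det (simpMap q k s a b) =
      LinearMap.det ((swapEquiv q k : (Fin q → Ek k) →ₗ[ℝ] (Fin k → Fin q → ℝ)) ∘ₗ
        simpMap q k s a b ∘ₗ ((swapEquiv q k).symm : (Fin k → Fin q → ℝ) →ₗ[ℝ] (Fin q → Ek k))) :=
    (LinearMap.det_conj _ _).symm
  have h2 : ((swapEquiv q k : (Fin q → Ek k) →ₗ[ℝ] (Fin k → Fin q → ℝ)) ∘ₗ
        simpMap q k s a b ∘ₗ ((swapEquiv q k).symm : (Fin k → Fin q → ℝ) →ₗ[ℝ] (Fin q → Ek k))) =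
      LinearMap.pi (fun a' : Fin k => (Matrix.toLin' (simpMat q s a b)).comp
        (LinearMap.proj a')) := by
    refine LinearMap.ext fun h => ?_
    funext a' j
    have e1 : (((swapEquiv q k : (Fin q → Ek k) →ₗ[ℝ] (Fin k → Fin q → ℝ)) ∘ₗ
        simpMap q k s a b ∘ₗ ((swapEquiv q k).symm : (Fin k → Fin q → ℝ) →ₗ[ℝ] (Fin q → Ek k))) h)
        a' j = (simpMap q k s a b ((swapEquiv q k).symm h) j) a' := rfl
    rw [e1, simpMap_apply]
    have e2 : ∀ i, ((swapEquiv q k).symm h i) a' = h a' i := fun i => rfl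
    simp only [PiLp.smul_apply, PiLp.add_apply, smul_eq_mul, WithLp.ofLp_sum, Finset.sum_apply, e2,
      LinearMap.pi_apply, LinearMap.comp_apply, LinearMap.proj_apply, Matrix.toLin'_apply,
      Matrix.mulVec, dotProduct, simpMat]
    simp only [mul_assoc, ← Finset.mul_sum, add_mul, ite_mul, zero_mul, Finset.sum_add_distrib,
      Finset.sum_ite_eq, Finset.mem_univ, if_true]
  rw [h1, h2, LinearMap.det_pi]
  simp [det_simpMat hq s a b ha]

/-- The shear by `c x_0`. -/
theorem shear_mp {F : Type*} [MeasureSpace F] [AddGroup F] [MeasurableAdd₂ F]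
    [SigmaFinite (volume : Measure F)] [(volume : Measure F).IsAddLeftInvariant]
    (h : Ek k → F) (hh : Measurable h) :
    MeasurePreserving (fun p : Ek k × F => (p.1, h p.1 + p.2)) volume volume := by
  refine MeasurePreserving.skew_product (f := id) (g := fun a y => h a + y)
    (MeasurePreserving.id volume) ?_ ?_
  · exact (hh.comp measurable_fst).add measurable_snd
  · exact Filter.Eventually.of_forall fun a => map_add_left_eq_self _ _

theorem al_pos (hq : 1 ≤ q) : 0 < al q := by
  unfold al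
  have : (0 : ℝ) < q := by exact_mod_cast hq
  positivity

theorem sg_pos {lam : ℝ} (hc : cc q lam ^ 2 < 1) : 0 < sg q lam := by
  unfold sg
  exact Real.sqrt_pos.2 (by linarith)

/-- **Volume factor of the star coordinates.** -/
theorem map_redStar_isoStar (hq : 1 ≤ q) {lam : ℝ} (hc : cc q lam ^ 2 < 1) :
    (volume : Measure (VS q k)).map (fun x => redStar (isoStar q k lam x)) =
      ENNReal.ofReal (detS q k lam)⁻¹ • (volume : Measure (StarSp q k)) := by
  have hsg := sg_pos hc
  have hal := al_pos hq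
  have hq0 : (0 : ℝ) < q := by exact_mod_cast hq
  set L := PiLp.continuousLinearEquiv 2 ℝ (fun _ : Fin q => Ek k) with hL
  set M := simpMap q k (sg q lam) (al q) (be q) with hM
  -- the composite
  have hcomp : (fun x : VS q k => redStar (isoStar q k lam x)) =
      (fun p : Ek k × (Fin q → Ek k) => (p.1, (fun _ => cc q lam • p.1) + p.2)) ∘
        (Prod.map (id : Ek k → Ek k) (M : (Fin q → Ek k) → (Fin q → Ek k))) ∘
        (Prod.map (id : Ek k → Ek k) (L : PiLp 2 (fun _ : Fin q => Ek k) → (Fin q → Ek k))) ∘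
        (WithLp.ofLp : VS q k → Ek k × PiLp 2 (fun _ : Fin q => Ek k)) := by
    funext x
    refine Prod.ext rfl ?_
    funext j
    change cc q lam • x.fst + sg q lam • pil j.castSucc x =
      cc q lam • x.fst + simpMap q k (sg q lam) (al q) (be q) (L x.snd) j
    rw [simpMap_apply]
    have hLx : ∀ i, L x.snd i = x.snd i := fun i => rfl
    simp only [pil, simplex_castSucc, add_smul, Finset.sum_add_distrib, ite_smul, zero_smul,
      Finset.sum_ite_eq', Finset.mem_univ, if_true, ← Finset.smul_sum, hLx]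
  have hMc : Continuous M := M.continuous_of_finiteDimensional
  have hm1 : Measurable (WithLp.ofLp : VS q k → Ek k × PiLp 2 (fun _ : Fin q => Ek k)) :=
    (WithLp.volume_preserving_ofLp _ _).measurable
  have hm2 : Measurable (Prod.map (id : Ek k → Ek k)
      (L : PiLp 2 (fun _ : Fin q => Ek k) → (Fin q → Ek k))) :=
    measurable_id.prodMap L.continuous.measurable
  have hm3 : Measurable (Prod.map (id : Ek k → Ek k) (M : (Fin q → Ek k) → (Fin q → Ek k))) :=
    measurable_id.prodMap hMc.measurable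
  have hsh := shear_mp (k := k) (F := Fin q → Ek k) (fun x => fun _ => cc q lam • x)
    (by fun_prop)
  rw [hcomp, ← Measure.map_map hsh.measurable (hm3.comp (hm2.comp hm1)),
    ← Measure.map_map hm3 (hm2.comp hm1), ← Measure.map_map hm2 hm1,
    (WithLp.volume_preserving_ofLp _ _).map_eq]
  have e1 : (volume : Measure (Ek k × PiLp 2 (fun _ : Fin q => Ek k))).map
      (Prod.map (id : Ek k → Ek k) (L : PiLp 2 (fun _ : Fin q => Ek k) → (Fin q → Ek k))) =
      (volume : Measure (Ek k × (Fin q → Ek k))) := by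
    rw [Measure.volume_eq_prod, ← Measure.map_prod_map _ _ measurable_id L.continuous.measurable,
      Measure.map_id, map_ofLp_pi, Measure.volume_eq_prod]
  have hdet : LinearMap.det M = detS q k lam := by
    rw [hM, det_simpMap hq _ _ _ hal.ne', al_add q hq, detS]
    congr 1
    ring
  have hdpos : 0 < detS q k lam := by
    unfold detS
    positivity
  have e2 : (volume : Measure (Fin q → Ek k)).map M =
      ENNReal.ofReal (detS q k lam)⁻¹ • volume := by
    rw [Measure.map_linearMap_addHaar_eq_smul_addHaar volume (by rw [hdet]; exact hdpos.ne'),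
      hdet, abs_of_pos (inv_pos.2 hdpos)]
  have e3 : (volume : Measure (Ek k × (Fin q → Ek k))).map
      (Prod.map (id : Ek k → Ek k) (M : (Fin q → Ek k) → (Fin q → Ek k))) =
      ENNReal.ofReal (detS q k lam)⁻¹ • (volume : Measure (Ek k × (Fin q → Ek k))) := by
    rw [Measure.volume_eq_prod, ← Measure.map_prod_map _ _ measurable_id hMc.measurable,
      Measure.map_id, e2, Measure.prod_smul_right]
  rw [e1, e3, Measure.map_smul, hsh.map_eq]

/-- **Volume factor of the edge coordinates.** -/
theorem map_isoEdge {lam : ℝ} (hc : cc q lam ^ 2 < 1) :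
    (volume : Measure (VE k)).map (isoEdge q k lam) =
      ENNReal.ofReal ((sg q lam) ^ k)⁻¹ • (volume : Measure (Ek k × Ek k)) := by
  have hsg := sg_pos hc
  set M : Ek k →ₗ[ℝ] Ek k := sg q lam • LinearMap.id with hM
  have hcomp : (isoEdge q k lam : VE k → Ek k × Ek k) =
      (fun p : Ek k × Ek k => (p.1, cc q lam • p.1 + p.2)) ∘
        (Prod.map (id : Ek k → Ek k) (M : Ek k → Ek k)) ∘
        (WithLp.ofLp : VE k → Ek k × Ek k) := by
    funext x
    rfl
  have hMc : Continuous M := M.continuous_of_finiteDimensional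
  have hm1 : Measurable (WithLp.ofLp : VE k → Ek k × Ek k) :=
    (WithLp.volume_preserving_ofLp _ _).measurable
  have hm3 : Measurable (Prod.map (id : Ek k → Ek k) (M : Ek k → Ek k)) :=
    measurable_id.prodMap hMc.measurable
  have hsh := shear_mp (k := k) (F := Ek k) (fun x => cc q lam • x) (by fun_prop)
  rw [hcomp, ← Measure.map_map hsh.measurable (hm3.comp hm1), ← Measure.map_map hm3 hm1,
    (WithLp.volume_preserving_ofLp _ _).map_eq]
  have hdet : LinearMap.det M = sg q lam ^ k := by
    rw [hM, LinearMap.det_smul, LinearMap.det_id, mul_one, finrank_euclideanSpace_fin]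
  have hdpos : 0 < sg q lam ^ k := by positivity
  have e2 : (volume : Measure (Ek k)).map M = ENNReal.ofReal (sg q lam ^ k)⁻¹ • volume := by
    rw [Measure.map_linearMap_addHaar_eq_smul_addHaar volume (by rw [hdet]; exact hdpos.ne'),
      hdet, abs_of_pos (inv_pos.2 hdpos)]
  have e3 : (volume : Measure (Ek k × Ek k)).map
      (Prod.map (id : Ek k → Ek k) (M : Ek k → Ek k)) =
      ENNReal.ofReal (sg q lam ^ k)⁻¹ • (volume : Measure (Ek k × Ek k)) := by
    rw [Measure.volume_eq_prod, ← Measure.map_prod_map _ _ measurable_id hMc.measurable,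
      Measure.map_id, e2, Measure.prod_smul_right]
  rw [e3, Measure.map_smul, hsh.map_eq]

/-- **D5.** -/
theorem log_detS (hq : 2 ≤ q) {lam : ℝ} (hc : cc q lam ^ 2 < 1) :
    Real.log (detS q k lam) - (((q : ℝ) + 1) / 2) * Real.log (sg q lam ^ k) =
      -(k * Uval q lam) := by
  have hsg := sg_pos hc
  have hal := al_pos (by omega : 1 ≤ q)
  have hq0 : (0 : ℝ) < q := by exact_mod_cast (by omega : 0 < q)
  have hq1 : (0 : ℝ) < (q : ℝ) + 1 := by positivity
  have h1 : 0 < ((q : ℝ) + 1) ^ 2 - lam ^ 2 := by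
    rw [cc, div_pow, div_lt_one (by positivity)] at hc
    linarith
  have hlsg : Real.log (sg q lam) = (1 / 2) * (Real.log (((q : ℝ) + 1) ^ 2 - lam ^ 2) -
      2 * Real.log ((q : ℝ) + 1)) := by
    unfold sg
    rw [Real.log_sqrt (by linarith)]
    have : 1 - cc q lam ^ 2 = (((q : ℝ) + 1) ^ 2 - lam ^ 2) / ((q : ℝ) + 1) ^ 2 := by
      rw [cc]; field_simp
    rw [this, Real.log_div h1.ne' (by positivity), Real.log_pow]
    push_cast; ring
  have hlal : Real.log (al q) = (1 / 2) * (Real.log ((q : ℝ) + 1) - Real.log q) := by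
    unfold al
    rw [Real.log_sqrt (by positivity), Real.log_div hq1.ne' hq0.ne']
    ring
  have hlsq : Real.log (Real.sqrt q) = Real.log q / 2 := Real.log_sqrt hq0.le
  have hsq : 0 < Real.sqrt q := Real.sqrt_pos.2 hq0
  have hcast : ((q - 1 : ℕ) : ℝ) = (q : ℝ) - 1 := by
    rw [Nat.cast_sub (by omega)]; simp
  rw [detS, Real.log_pow, Real.log_pow, Real.log_div (by positivity) hsq.ne',
    Real.log_mul (by positivity) (by positivity), Real.log_pow, Real.log_pow, hlsg, hlal, hlsq,
    hcast, Uval]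
  ring

end Vale.Agent.P156.H894
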