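import Vale.Agent.P156.H894.FE8X
import Vale.Agent.P156.H913.FE1
import Vale.Agent.P156.H574.FE2
import Vale.Agent.P156.H574.FE3
import Vale.Agent.P156.H520.FE6c
import Vale.Agent.P156.B.FE8a

/-! # FE8: the one-step inequality (final form) -/

open MeasureTheory Filter Topology Matrix Finset

namespace Vale.Agent.P156.FE

/-- **FE8.** -/
theorem specOS {d : ℕ} {a b : ℝ} (hB : Bulk d a b) : SpecOS d a b := by
  have hd : 1 ≤ d := by
    have := hB.1
    omega
  have hM := H913.specM hB
  have hComp := H520.specComp hB.1 hM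
  exact specOS_of hB.1 hM (H913.specT hB) (H574.specGrow hd hM hComp) hComp
    (B.specErr hd (H574.specDec d) (H520.specWard d)) (pieceX hd) (pieceY d)

theorem specOS1 {d : ℕ} {a b : ℝ} (hB : Bulk d a b) : SpecOS1 d a b :=
  specOS1_of_specOS (specOS hB)

end Vale.Agent.P156.FE
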