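import Mathlib

/-!
# P156, block D6, equality case (algebraic core)

The functional equation coming from equality in the score inequality forces the log density of the
star law to be a quadratic form.  No second derivatives are needed.
-/

namespace Vale.Agent.P156.H894

open scoped BigOperators

section cauchy

variable {V F : Type*} [NormedAddCommGroup V] [NormedSpace ℝ V]
  [NormedAddCommGroup F] [NormedSpace ℝ F]

/-- `∑ g (y_j) = lam g(x)` on `∑ y_j = lam x`, with `d ≥ 3` variables, forces `g` linear. -/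
theorem linear_of_sum {d : ℕ} (hd : 3 ≤ d) {lam : ℝ} (hlam : lam ≠ d) (g : V → F)
    (hg : Continuous g)
    (h : ∀ y : Fin d → V, ∑ j, y j = 0 → ∑ j, g (y j) = lam • g 0) :
    ∃ B : V →L[ℝ] F, ∀ x, g x = B x := by
  obtain ⟨n, rfl⟩ : ∃ n, d = n + 3 := ⟨d - 3, by omega⟩
  have h0 : g 0 = 0 := by
    have := h (fun _ => 0) (by simp)
    simp only [Finset.sum_const, Finset.card_univ, Fintype.card_fin] at this
    rw [← Nat.cast_smul_eq_nsmul ℝ, ← sub_eq_zero, ← sub_smul] at this
    rcases smul_eq_zero.mp this with h1 | h1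
    · exact absurd (sub_eq_zero.mp h1).symm hlam
    · exact h1
  have h3 : ∀ a b c : V, a + b + c = 0 → g a + g b + g c = 0 := by
    intro a b c habc
    have := h (Fin.cons a (Fin.cons b (Fin.cons c (fun _ => 0)))) (by
      simp only [Fin.sum_univ_succ, Fin.cons_zero, Fin.cons_succ, Finset.sum_const_zero, add_zero]
      rw [← habc]; abel)
    simp only [Fin.sum_univ_succ, Fin.cons_zero, Fin.cons_succ, h0, Finset.sum_const_zero,
      add_zero, smul_zero] at this
    rw [← this]; abel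
  have hneg : ∀ a, g (-a) = - g a := by
    intro a
    have := h3 a (-a) 0 (by abel)
    rw [h0, add_zero] at this
    exact (neg_eq_of_add_eq_zero_right this).symm
  have hadd : ∀ a b, g (a + b) = g a + g b := by
    intro a b
    have := h3 a b (-(a + b)) (by abel)
    rw [hneg] at this
    exact (add_neg_eq_zero.mp this).symm
  let G : V →+ F := ⟨⟨g, h0⟩, hadd⟩
  exact ⟨G.toRealLinearMap hg, fun x => rfl⟩

end cauchy

section star

variable {V T : Type*} [NormedAddCommGroup V] [NormedSpace ℝ V]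
  [NormedAddCommGroup T] [NormedSpace ℝ T]

/-- Abstract star geometry: `T` = configurations on the star with `∑ z_l = lam z_o`. -/
structure StarGeom (V T : Type*) [NormedAddCommGroup V] [NormedSpace ℝ V]
    [NormedAddCommGroup T] [NormedSpace ℝ T] (d : ℕ) (lam : ℝ) where
  /-- value at the centre -/
  po : T →L[ℝ] V
  /-- value at the leaf `l` -/
  pl : Fin d → (T →L[ℝ] V)
  /-- the direction `w_o ⊗ e` -/
  wo : V →L[ℝ] T
  /-- the direction `u_l ⊗ e` -/
  ul : Fin d → (V →L[ℝ] T)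
  sum_ul : ∀ e, ∑ l, ul l e = 0
  decomp : ∀ z, z = wo (po z) + (1 / (d : ℝ)) • ∑ l, ul l (pl l z - (lam / d) • po z)
  surj : ∀ (x : V) (y : Fin d → V), ∑ l, y l = lam • x → ∃ z, po z = x ∧ ∀ l, pl l z = y l

/-- **Equality case, gradient form.** -/
theorem eq_grad {d : ℕ} (hd : 3 ≤ d) {lam : ℝ} (hlam : |lam| < d) (S : StarGeom V T d lam)
    (G1 G2 : V → V → (V →L[ℝ] ℝ)) (hc1 : Continuous fun x => G1 x 0)
    (hc2 : Continuous fun x => G2 x 0)
    (hsymm : ∀ x y, G1 x y = G2 y x)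
    (D : T → (T →L[ℝ] ℝ))
    (h1 : ∀ z l e, D z (S.ul l e) = ((d : ℝ) - 1) * G2 (S.po z) (S.pl l z) e)
    (h2 : ∀ z l e, D z (S.wo e) = G1 (S.po z) (S.pl l z) e + lam / d * G2 (S.po z) (S.pl l z) e) :
    ∃ B : V →L[ℝ] (V →L[ℝ] ℝ),
      (∀ z e, D z (S.wo e) = B (S.po z) e) ∧
      (∀ z l e, D z (S.ul l e) =
        ((d : ℝ) - 1) / (1 - (lam / d) ^ 2) * B (S.pl l z - (lam / d) • S.po z) e) ∧
      (∀ x y e, G1 x y e = (B x e - lam / d * B y e) / (1 - (lam / d) ^ 2)) ∧
      (∀ x y e, G2 x y e = (B y e - lam / d * B x e) / (1 - (lam / d) ^ 2)) := by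
  have hd0 : (0 : ℝ) < d := by positivity
  have hq : ((d : ℝ) - 1) ≠ 0 := by
    have : (3 : ℝ) ≤ d := by exact_mod_cast hd
    linarith
  set κ : ℝ := lam / d with hκ
  have hκ1 : |κ| < 1 := by
    rw [hκ, abs_div, abs_of_pos hd0, div_lt_one hd0]; exact hlam
  have hκ2 : 1 - κ ^ 2 ≠ 0 := by
    have : κ ^ 2 < 1 := by
      rw [← sq_abs]; exact pow_lt_one₀ (abs_nonneg _) hκ1 two_ne_zero
    linarith
  -- the function `g`
  let g : V → (V →L[ℝ] ℝ) := fun x => G1 x 0 + κ • G2 x 0
  have hgc : Continuous g := hc1.add (hc2.const_smul κ)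
  have hfree : ∀ x y y', G1 x y + κ • G2 x y = G1 x y' + κ • G2 x y' := by
    intro x y y'
    obtain ⟨n, rfl⟩ : ∃ n, d = n + 3 := ⟨d - 3, by omega⟩
    obtain ⟨z, hz1, hz2⟩ := S.surj x
      (Fin.cons y (Fin.cons y' (Fin.cons (lam • x - y - y') (fun _ => 0)))) (by
        simp only [Fin.sum_univ_succ, Fin.cons_zero, Fin.cons_succ, Finset.sum_const_zero, add_zero]
        abel)
    ext e
    have e1 := h2 z 0 e
    have e2 := h2 z 1 e
    rw [hz1, hz2] at e1 e2
    have h10 : (1 : Fin (n + 3)) = Fin.succ 0 := rfl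
    rw [h10] at e2
    simp only [Fin.cons_zero, Fin.cons_succ] at e1 e2
    simp only [_root_.add_apply, _root_.smul_apply, smul_eq_mul]
    linarith
  have hg1 : ∀ x y, G1 x y + κ • G2 x y = g x := fun x y => hfree x y 0
  have hg2 : ∀ x y, G2 x y + κ • G1 x y = g y := by
    intro x y
    have := hg1 y x
    rw [hsymm y x, ← hsymm x y] at this
    exact this
  have hG1 : ∀ x y e, G1 x y e = (g x e - κ * g y e) / (1 - κ ^ 2) := by
    intro x y e
    rw [eq_div_iff hκ2, ← hg1 x y, ← hg2 x y]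
    simp only [_root_.add_apply, _root_.smul_apply, smul_eq_mul]
    ring
  have hG2 : ∀ x y e, G2 x y e = (g y e - κ * g x e) / (1 - κ ^ 2) := by
    intro x y e
    rw [eq_div_iff hκ2, ← hg1 x y, ← hg2 x y]
    simp only [_root_.add_apply, _root_.smul_apply, smul_eq_mul]
    ring
  -- the sum rule
  have hsum : ∀ y : Fin d → V, ∑ j, y j = 0 → ∑ j, g (y j) = lam • g 0 := by
    intro y hy
    obtain ⟨z, hz1, hz2⟩ := S.surj 0 y (by simpa using hy)
    ext e
    have e0 : ∑ l, D z (S.ul l e) = 0 := by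
      rw [← map_sum, S.sum_ul, map_zero]
    have e1 : ∑ l, ((d : ℝ) - 1) * ((g (y l) e - κ * g 0 e) / (1 - κ ^ 2)) = 0 := by
      rw [← e0]
      refine Finset.sum_congr rfl fun l _ => ?_
      rw [h1, hz1, hz2, hG2]
    rw [← Finset.mul_sum, ← Finset.sum_div] at e1
    have e2 : ∑ l, (g (y l) e - κ * g 0 e) = 0 := by
      rcases mul_eq_zero.mp e1 with h | h
      · exact absurd h hq
      · rcases div_eq_zero_iff.mp h with h | h
        · exact h
        · exact absurd h hκ2
    rw [Finset.sum_sub_distrib, Finset.sum_const, Finset.card_univ, Fintype.card_fin,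
      nsmul_eq_mul] at e2
    simp only [_root_.sum_apply, _root_.smul_apply, smul_eq_mul]
    have e3 : (d : ℝ) * (κ * g 0 e) = lam * g 0 e := by
      rw [hκ]; field_simp
    linarith
  obtain ⟨B, hB⟩ := linear_of_sum hd (lam := lam)
    (fun h => by rw [h, abs_of_pos hd0] at hlam; exact lt_irrefl _ hlam) g hgc hsum
  refine ⟨B, ?_, ?_, ?_, ?_⟩
  · intro z e
    have l0 : Fin d := ⟨0, by omega⟩
    rw [h2 z l0 e, ← hB, ← hg1 (S.po z) (S.pl l0 z)]
    simp only [_root_.add_apply, _root_.smul_apply, smul_eq_mul]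
  · intro z l e
    rw [h1, hG2, hB, hB, map_sub, map_smul]
    simp only [_root_.sub_apply, _root_.smul_apply, smul_eq_mul]
    ring
  · intro x y e
    rw [hG1, hB, hB]
  · intro x y e
    rw [hG2, hB, hB]

/-- **Equality case.** The log density is a quadratic form plus a constant. -/
theorem eq_quadratic {d : ℕ} (hd : 3 ≤ d) {lam : ℝ} (hlam : |lam| < d) (S : StarGeom V T d lam)
    (G1 G2 : V → V → (V →L[ℝ] ℝ)) (hc1 : Continuous fun x => G1 x 0)
    (hc2 : Continuous fun x => G2 x 0)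
    (hsymm : ∀ x y, G1 x y = G2 y x)
    (W : T → ℝ) (D : T → (T →L[ℝ] ℝ)) (hW : ∀ z, HasFDerivAt W (D z) z)
    (h1 : ∀ z l e, D z (S.ul l e) = ((d : ℝ) - 1) * G2 (S.po z) (S.pl l z) e)
    (h2 : ∀ z l e, D z (S.wo e) = G1 (S.po z) (S.pl l z) e + lam / d * G2 (S.po z) (S.pl l z) e) :
    ∃ B : V →L[ℝ] (V →L[ℝ] ℝ), ∀ z, W z = W 0 + (1 / 2) * (B (S.po z) (S.po z) +
      ((d : ℝ) - 1) / (d * (1 - (lam / d) ^ 2)) *
        ∑ l, B (S.pl l z - (lam / d) • S.po z) (S.pl l z - (lam / d) • S.po z)) := by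
  obtain ⟨B, hB1, hB2, -, -⟩ := eq_grad hd hlam S G1 G2 hc1 hc2 hsymm D h1 h2
  refine ⟨B, fun z => ?_⟩
  set Q : ℝ := B (S.po z) (S.po z) +
      ((d : ℝ) - 1) / (d * (1 - (lam / d) ^ 2)) *
        ∑ l, B (S.pl l z - (lam / d) • S.po z) (S.pl l z - (lam / d) • S.po z) with hQ
  have hDz : ∀ s : ℝ, D (s • z) z = s * Q := by
    intro s
    conv_lhs => rw [S.decomp z]
    rw [map_add, map_smul, map_sum]
    have e1 : ∀ w : T, w = S.wo (S.po w) +
        (1 / (d : ℝ)) • ∑ l, S.ul l (S.pl l w - (lam / d) • S.po w) := S.decomp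
    rw [← e1 z, hB1]
    simp only [hB2, map_smul]
    rw [hQ, mul_add, smul_eq_mul]
    congr 1
    rw [← mul_assoc, Finset.mul_sum, Finset.mul_sum]
    refine Finset.sum_congr rfl fun l _ => ?_
    have e2 : s • S.pl l z - (lam / d) • s • S.po z = s • (S.pl l z - (lam / d) • S.po z) := by
      rw [smul_sub, smul_comm]
    rw [e2, map_smul]
    simp only [_root_.smul_apply, smul_eq_mul]
    have hd0 : (d : ℝ) ≠ 0 := by
      have : 0 < d := by omega
      positivity
    field_simp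
  -- integrate along the ray
  let f : ℝ → ℝ := fun s => W (s • z) - (1 / 2) * s ^ 2 * Q
  have hf : ∀ s, HasDerivAt f 0 s := by
    intro s
    have a1 : HasDerivAt (fun s : ℝ => s • z) z s := by
      simpa using (hasDerivAt_id s).smul_const z
    have a2 : HasDerivAt (fun s : ℝ => W (s • z)) (D (s • z) z) s :=
      (hW (s • z)).comp_hasDerivAt s a1
    have a3 : HasDerivAt (fun s : ℝ => (1 / 2) * s ^ 2 * Q) ((1 / 2) * (2 * s) * Q) s := by
      have := ((hasDerivAt_pow 2 s).const_mul (1 / 2 : ℝ)).mul_const Q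
      simpa using this
    have a4 := a2.sub a3
    rw [hDz, show s * Q - (1 / 2) * (2 * s) * Q = 0 by ring] at a4
    exact a4
  have hconst := is_const_of_deriv_eq_zero (fun s => (hf s).differentiableAt)
    (fun s => (hf s).deriv) 1 0
  simp only [f, one_smul, zero_smul, one_pow, mul_one, ne_eq, OfNat.ofNat_ne_zero,
    not_false_eq_true, zero_pow, mul_zero, zero_mul, sub_zero] at hconst
  linarith

end star

end Vale.Agent.P156.H894
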