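import Mathlib

/-!
# P156, block D6, equality case (probabilistic part)

* a law with finite second moments whose characteristic function satisfies
  `φ(√2 L) = φ(L)^2` is a centered Gaussian;
* a probability density `C exp(Q)` with `Q` a quadratic form has this property;
* deconvolution: if `X * N` has this density and `N` is a centered Gaussian then `X` is Gaussian.
-/

namespace Vale.Agent.P156.H894

open MeasureTheory ProbabilityTheory Filter Topology Complex

open scoped NNReal ENNReal

/-- One-dimensional rescaling characterisation of centered Gaussian laws. -/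
theorem gaussianReal_of_rescale (ν : Measure ℝ) [IsProbabilityMeasure ν] (h2 : MemLp id 2 ν)
    (h : ∀ t : ℝ, charFun ν (√2 * t) = charFun ν t ^ 2) :
    (∫ x, x ∂ν = 0) ∧ ν = gaussianReal 0 (∫ x, x ^ 2 ∂ν).toNNReal := by
  have hmean : ∫ x, x ∂ν = 0 := by
    have h1 : MemLp id (1 : ℕ) ν := by
      have : MemLp (id : ℝ → ℝ) 1 ν := h2.mono_exponent (by norm_num)
      simpa using this
    have hcd : ContDiff ℝ 1 (charFun ν) := by
      have := contDiff_charFun (n := 1) (μ := ν) (by simpa using h1)
      simpa using this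
    have hdiff : DifferentiableAt ℝ (charFun ν) 0 := (hcd.differentiable (by norm_num)) 0
    have hder : HasDerivAt (charFun ν) (deriv (charFun ν) 0) 0 := hdiff.hasDerivAt
    have hval : deriv (charFun ν) 0 = I * ∫ x, x ∂ν := by
      have := iteratedDeriv_charFun_zero (μ := ν) (n := 1) h1
      simpa [iteratedDeriv_one] using this
    have e1 : HasDerivAt (fun t : ℝ => charFun ν (√2 * t)) (√2 • deriv (charFun ν) 0) 0 := by
      have a1 : HasDerivAt (fun t : ℝ => √2 * t) √2 0 := by
        simpa using (hasDerivAt_id (0 : ℝ)).const_mul √2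
      have a2 : HasDerivAt (charFun ν) (deriv (charFun ν) 0) (√2 * 0) := by simpa using hder
      exact a2.scomp (0 : ℝ) a1
    have e2 : HasDerivAt (fun t : ℝ => charFun ν t ^ 2)
        (2 * charFun ν 0 * deriv (charFun ν) 0) 0 := by
      have := hder.mul hder
      have e : (fun t : ℝ => charFun ν t ^ 2) = charFun ν * charFun ν := by
        funext t; simp [sq]
      rw [e, show 2 * charFun ν 0 * deriv (charFun ν) 0 =
        deriv (charFun ν) 0 * charFun ν 0 + charFun ν 0 * deriv (charFun ν) 0 by ring]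
      exact this
    have e3 : (fun t : ℝ => charFun ν (√2 * t)) = fun t : ℝ => charFun ν t ^ 2 := funext h
    rw [e3] at e1
    have e4 := e1.unique e2
    rw [charFun_zero] at e4
    simp only [probReal_univ, ofReal_one, mul_one, Complex.real_smul] at e4
    have e5 : ((√2 : ℝ) - 2 : ℂ) * deriv (charFun ν) 0 = 0 := by
      linear_combination e4
    have e6 : ((√2 : ℝ) - 2 : ℂ) ≠ 0 := by
      have : (√2 : ℝ) - 2 ≠ 0 := by
        have : (√2 : ℝ) < 2 := by
          rw [Real.sqrt_lt' (by norm_num)]; norm_num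
        linarith
      exact_mod_cast this
    have e7 : deriv (charFun ν) 0 = 0 := by
      rcases mul_eq_zero.mp e5 with h | h
      · exact absurd h e6
      · exact h
    rw [hval] at e7
    rcases mul_eq_zero.mp e7 with h | h
    · exact absurd h I_ne_zero
    · exact_mod_cast h
  refine ⟨hmean, ?_⟩
  have hsq : Integrable (fun x : ℝ => x ^ 2) ν := by
    have := h2.integrable_sq
    simpa using this
  set v : ℝ := ∫ x, x ^ 2 ∂ν with hv
  have hv0 : 0 ≤ v := integral_nonneg fun x => sq_nonneg x
  rcases hv0.eq_or_lt with hv0 | hvpos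
  · -- degenerate case
    have hz : (fun x : ℝ => x ^ 2) =ᵐ[ν] 0 :=
      (integral_eq_zero_iff_of_nonneg (fun x => sq_nonneg x) hsq).mp (by rw [← hv, ← hv0])
    have hz' : (id : ℝ → ℝ) =ᵐ[ν] fun _ => (0 : ℝ) := by
      filter_upwards [hz] with x hx
      simpa using hx
    have e1 : ν.map id = ν.map (fun _ => (0 : ℝ)) := Measure.map_congr hz'
    rw [Measure.map_id, Measure.map_const, measure_univ, one_smul] at e1
    rw [← hv0, Real.toNNReal_zero, gaussianReal_zero_var]
    exact e1
  · have hsv : (√v) ≠ 0 := (Real.sqrt_pos.mpr hvpos).ne'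
    let X : ℝ → ℝ := fun x => (√v)⁻¹ * x
    have hXm : AEMeasurable X ν := by fun_prop
    have hX0 : ν[X] = 0 := by
      show ∫ x, (√v)⁻¹ * x ∂ν = 0
      rw [integral_const_mul, hmean, mul_zero]
    have hX1 : ν[X ^ 2] = 1 := by
      have : (X ^ 2 : ℝ → ℝ) = fun x => (√v)⁻¹ ^ 2 * x ^ 2 := by
        funext x; simp only [X, Pi.pow_apply]; ring
      rw [this, integral_const_mul, ← hv, inv_pow, Real.sq_sqrt hvpos.le]
      exact inv_mul_cancel₀ hvpos.ne'
    have hg : ∀ t, charFun (ν.map X) t = charFun ν ((√v)⁻¹ * t) := fun t => charFun_map_mul _ _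
    have hstep : ∀ t, charFun (ν.map X) (√2 * t) = charFun (ν.map X) t ^ 2 := by
      intro t
      rw [hg, hg, ← h]
      congr 1; ring
    have hiter : ∀ (k : ℕ) (t : ℝ),
        charFun (ν.map X) ((√((2 ^ k : ℕ) : ℝ))⁻¹ * t) ^ (2 ^ k) = charFun (ν.map X) t := by
      intro k
      induction k with
      | zero => intro t; simp
      | succ k ih =>
        intro t
        have e1 : (√((2 ^ (k + 1) : ℕ) : ℝ)) = √((2 ^ k : ℕ) : ℝ) * √2 := by
          rw [← Real.sqrt_mul (by positivity)]
          congr 1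
          push_cast; ring
        have hs2 : (√2 : ℝ) ≠ 0 := by positivity
        have e2 : √2 * ((√((2 ^ k : ℕ) : ℝ) * √2)⁻¹ * t) = (√((2 ^ k : ℕ) : ℝ))⁻¹ * t := by
          rw [mul_inv]
          field_simp
        have e3 : 2 ^ (k + 1) = 2 * 2 ^ k := by ring
        rw [e1, e3, pow_mul, ← hstep, e2, ih]
    have hlim : ∀ t : ℝ, charFun (ν.map X) t = exp (-(t : ℂ) ^ 2 / 2) := by
      intro t
      have a1 := tendsto_charFun_inv_sqrt_mul_pow hXm hX0 hX1 t
      have a2 : Tendsto (fun k : ℕ => 2 ^ k) atTop atTop :=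
        tendsto_pow_atTop_atTop_of_one_lt (by norm_num)
      have a3 := a1.comp a2
      have a4 : (fun n : ℕ => charFun (ν.map X) ((√(n : ℝ))⁻¹ * t) ^ n) ∘ (fun k : ℕ => 2 ^ k) =
          fun _ => charFun (ν.map X) t := by
        funext k
        exact hiter k t
      rw [a4] at a3
      exact (tendsto_nhds_unique a3 tendsto_const_nhds).symm ▸ rfl
    refine Measure.ext_of_charFun ?_
    ext t
    have e1 : charFun ν t = charFun (ν.map X) (√v * t) := by
      rw [hg, ← mul_assoc, inv_mul_cancel₀ hsv, one_mul]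
    rw [e1, hlim, charFun_gaussianReal]
    congr 1
    rw [Real.coe_toNNReal v hvpos.le]
    push_cast
    have e2 : ((√v : ℝ) : ℂ) ^ 2 = (v : ℂ) := by
      rw [← ofReal_pow, Real.sq_sqrt hvpos.le]
    rw [mul_pow, e2]
    ring

section dual

variable {E : Type*} [NormedAddCommGroup E] [NormedSpace ℝ E] [MeasurableSpace E] [BorelSpace E]

/-- A law with finite second moments with `φ(√2 L) = φ(L)^2` is centered Gaussian. -/
theorem isGaussian_of_rescale (X : Measure E) [IsProbabilityMeasure X]
    (h2 : ∀ L : StrongDual ℝ E, MemLp L 2 X)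
    (h : ∀ L : StrongDual ℝ E, charFunDual X (√2 • L) = charFunDual X L ^ 2) :
    IsGaussian X ∧ ∀ L : StrongDual ℝ E, ∫ x, L x ∂X = 0 := by
  have key : ∀ L : StrongDual ℝ E, (∫ x, x ∂(X.map L) = 0) ∧
      X.map L = gaussianReal 0 (∫ x, x ^ 2 ∂(X.map L)).toNNReal := by
    intro L
    have : IsProbabilityMeasure (X.map L) := Measure.isProbabilityMeasure_map (by fun_prop)
    refine gaussianReal_of_rescale _ ?_ ?_
    · rw [memLp_map_measure_iff (by fun_prop) (by fun_prop)]
      exact h2 L
    · intro t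
      rw [charFun_map_eq_charFunDual_smul, charFun_map_eq_charFunDual_smul, mul_smul, h]
  refine ⟨isGaussian_of_map_eq_gaussianReal fun L => ⟨_, _, (key L).2⟩, fun L => ?_⟩
  have := (key L).1
  rwa [integral_map (by fun_prop) (by fun_prop)] at this

/-- Deconvolution. -/
theorem isGaussian_of_conv [SecondCountableTopology E] (X N : Measure E) [IsProbabilityMeasure X]
    [IsGaussian N] (hN : ∀ L : StrongDual ℝ E, ∫ x, L x ∂N = 0)
    (h2 : ∀ L : StrongDual ℝ E, MemLp L 2 X)
    (h : ∀ L : StrongDual ℝ E, charFunDual (X ∗ N) (√2 • L) = charFunDual (X ∗ N) L ^ 2) :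
    IsGaussian X ∧ ∀ L : StrongDual ℝ E, ∫ x, L x ∂X = 0 := by
  refine isGaussian_of_rescale X h2 fun L => ?_
  have hconv : ∀ L : StrongDual ℝ E, charFunDual (X ∗ N) L = charFunDual X L * charFunDual N L := by
    intro L
    rw [Measure.conv, charFunDual_map_add_prod_eq_mul, Pi.mul_apply]
  have hL := h L
  rw [hconv, hconv] at hL
  have hNL : charFunDual N (√2 • L) = charFunDual N L ^ 2 := by
    rw [IsGaussian.charFunDual_eq, IsGaussian.charFunDual_eq, ← Complex.exp_nat_mul]
    congr 1
    have e3 : Var[(√2 • L : StrongDual ℝ E); N] = 2 * Var[L; N] := by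
      have : ((√2 • L : StrongDual ℝ E) : E → ℝ) = fun x => √2 * L x := by
        funext x; simp
      rw [this, variance_const_mul, Real.sq_sqrt (by norm_num)]
    have e1 : ∫ x, (((√2 • L : StrongDual ℝ E) x : ℝ) : ℂ) ∂N = 0 := by
      rw [integral_complex_ofReal, hN]; simp
    have e2 : ∫ x, ((L x : ℝ) : ℂ) ∂N = 0 := by
      rw [integral_complex_ofReal, hN]; simp
    rw [e1, e2, e3]
    push_cast
    ring
  have hne : charFunDual N L ^ 2 ≠ 0 := by
    rw [IsGaussian.charFunDual_eq]
    exact pow_ne_zero _ (Complex.exp_ne_zero _)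
  rw [hNL, mul_pow] at hL
  exact mul_right_cancel₀ hne hL

end dual

section density

variable {E : Type*} [NormedAddCommGroup E] [NormedSpace ℝ E] [MeasurableSpace E] [BorelSpace E]
  [FiniteDimensional ℝ E]

/-- The `45°` reflection of `E × E`. -/
noncomputable def rot (E : Type*) [NormedAddCommGroup E] [NormedSpace ℝ E] :
    (E × E) →L[ℝ] (E × E) :=
  ((√2)⁻¹ • (ContinuousLinearMap.fst ℝ E E + ContinuousLinearMap.snd ℝ E E)).prod
    ((√2)⁻¹ • (ContinuousLinearMap.fst ℝ E E - ContinuousLinearMap.snd ℝ E E))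

omit [MeasurableSpace E] [BorelSpace E] [FiniteDimensional ℝ E] in
theorem rot_apply (p : E × E) : rot E p = ((√2)⁻¹ • (p.1 + p.2), (√2)⁻¹ • (p.1 - p.2)) := rfl

omit [MeasurableSpace E] [BorelSpace E] [FiniteDimensional ℝ E] in
theorem rot_rot (p : E × E) : rot E (rot E p) = p := by
  have h2 : ((√2)⁻¹ * (√2)⁻¹ : ℝ) = 1 / 2 := by
    rw [← mul_inv, Real.mul_self_sqrt (by norm_num)]; norm_num
  rw [rot_apply, rot_apply]
  ext1
  · simp only
    rw [← smul_add, smul_smul, h2]
    rw [show p.1 + p.2 + (p.1 - p.2) = (2 : ℝ) • p.1 by rw [two_smul]; abel, smul_smul]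
    norm_num
  · simp only
    rw [← smul_sub, smul_smul, h2]
    rw [show p.1 + p.2 - (p.1 - p.2) = (2 : ℝ) • p.2 by rw [two_smul]; abel, smul_smul]
    norm_num

/-- `rot` preserves Lebesgue measure. -/
theorem map_rot (μ : Measure (E × E)) [μ.IsAddHaarMeasure] : μ.map (rot E) = μ := by
  set f : (E × E) →ₗ[ℝ] (E × E) := (rot E : (E × E) →ₗ[ℝ] (E × E)) with hf
  have hcomp : f ∘ₗ f = LinearMap.id := by
    refine LinearMap.ext fun p => ?_
    exact rot_rot p
  have hdet : LinearMap.det f * LinearMap.det f = 1 := by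
    rw [← LinearMap.det_comp, hcomp, LinearMap.det_id]
  have hne : LinearMap.det f ≠ 0 := by
    intro h0; rw [h0] at hdet; simp at hdet
  have habs : |(LinearMap.det f)⁻¹| = 1 := by
    have : |LinearMap.det f| = 1 := by
      rcases mul_self_eq_one_iff.mp hdet with h | h <;> simp [h]
    rw [abs_inv, this, inv_one]
  have := Measure.map_linearMap_addHaar_eq_smul_addHaar μ hne
  rw [habs] at this
  simpa [hf] using this

/-- A law with density `ρ` where `ρ(z)ρ(z')` is invariant under `rot`. -/
theorem rescale_of_density (vol : Measure E) [vol.IsAddHaarMeasure] (ρ : E → ℝ≥0∞)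
    (hρ : Measurable ρ) [IsProbabilityMeasure (vol.withDensity ρ)]
    (hrot : ∀ p : E × E, ρ (rot E p).1 * ρ (rot E p).2 = ρ p.1 * ρ p.2)
    (L : StrongDual ℝ E) :
    charFunDual (vol.withDensity ρ) (√2 • L) = charFunDual (vol.withDensity ρ) L ^ 2 := by
  set μ := vol.withDensity ρ with hμ
  have : ProperSpace E := FiniteDimensional.proper ℝ E
  have : SecondCountableTopology E := secondCountable_of_proper
  have hprod : μ.prod μ = (vol.prod vol).withDensity (fun p => ρ p.1 * ρ p.2) := by
    rw [hμ, prod_withDensity hρ hρ]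
  have hinv : (μ.prod μ).map (rot E) = μ.prod μ := by
    have hm : Measurable (rot E) := (rot E).continuous.measurable
    have h1 : ((vol.prod vol).map (rot E)) = vol.prod vol := map_rot _
    have hfm : Measurable (fun p : E × E => ρ p.1 * ρ p.2) := by fun_prop
    refine Measure.ext fun s hs => ?_
    rw [Measure.map_apply hm hs, hprod, withDensity_apply _ (hm hs), withDensity_apply _ hs]
    conv_rhs => rw [← h1]
    rw [setLIntegral_map hs hfm hm]
    refine setLIntegral_congr_fun (hm hs) fun p _ => ?_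
    exact (hrot p).symm
  have e1 : charFunDual (μ.prod μ) (L.comp (ContinuousLinearMap.fst ℝ E E) +
      L.comp (ContinuousLinearMap.snd ℝ E E)) = charFunDual μ L ^ 2 := by
    rw [charFunDual_prod, sq]
    congr 1 <;> congr 1 <;> ext x <;> simp
  have e2 : charFunDual ((μ.prod μ).map (rot E)) ((√2 • L).comp (ContinuousLinearMap.fst ℝ E E)) =
      charFunDual μ L ^ 2 := by
    rw [charFunDual_map, ← e1]
    congr 1
    ext x
    · simp [rot_apply]
    · simp [rot_apply]
  rw [hinv, charFunDual_prod] at e2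
  rw [← e2]
  have e3 : (((√2 • L).comp (ContinuousLinearMap.fst ℝ E E)).comp
      (ContinuousLinearMap.inl ℝ E E)) = √2 • L := by ext x; simp
  have e4 : (((√2 • L).comp (ContinuousLinearMap.fst ℝ E E)).comp
      (ContinuousLinearMap.inr ℝ E E)) = 0 := by ext x; simp
  rw [e3, e4]
  have e5 : charFunDual μ (0 : StrongDual ℝ E) = 1 := by
    simp [charFunDual_apply]
  rw [e5, mul_one]

end density

end Vale.Agent.P156.H894
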