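import Vale.Agent.P156.H653.Defs
import Vale.Agent.P156.H894.Eq1
import Vale.Agent.P156.H894.Eq2

/-!
# P156, block D6: the star wave, characteristic functions, identification of Gaussian limits
-/

namespace Vale.Agent.P156.H894

open MeasureTheory ProbabilityTheory
open Vale.Agent.P156.H849 Vale.Agent.P156.H653
open scoped RealInnerProductSpace BigOperators

noncomputable section

variable {d q k : ℕ}

/-- The functional `x ↦ ⟪l0, x_o⟫ + ∑ ⟪l j, x_j⟫`. -/
def dualSt (l0 : Ek k) (l : Fin d → Ek k) : StrongDual ℝ (StarSp d k) :=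
  (innerSL ℝ l0).comp (ContinuousLinearMap.fst ℝ (Ek k) (Fin d → Ek k)) +
    ∑ j, (innerSL ℝ (l j)).comp ((ContinuousLinearMap.proj j).comp
      (ContinuousLinearMap.snd ℝ (Ek k) (Fin d → Ek k)))

theorem dualSt_apply (l0 : Ek k) (l : Fin d → Ek k) (x : StarSp d k) :
    dualSt l0 l x = ⟪l0, x.1⟫ + ∑ j, ⟪l j, x.2 j⟫ := by
  simp [dualSt]

theorem exists_dualSt (L : StrongDual ℝ (StarSp d k)) :
    ∃ l0 l, L = dualSt l0 l := by
  refine ⟨(InnerProductSpace.toDual ℝ (Ek k)).symm
      (L.comp (ContinuousLinearMap.inl ℝ (Ek k) (Fin d → Ek k))),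
    fun j => (InnerProductSpace.toDual ℝ (Ek k)).symm
      (L.comp ((ContinuousLinearMap.inr ℝ (Ek k) (Fin d → Ek k)).comp
        (ContinuousLinearMap.single ℝ (fun _ : Fin d => Ek k) j))), ?_⟩
  refine ContinuousLinearMap.ext fun x => ?_
  rw [dualSt_apply]
  simp only [InnerProductSpace.toDual_symm_apply, ContinuousLinearMap.comp_apply,
    ContinuousLinearMap.inl_apply, ContinuousLinearMap.inr_apply,
    ContinuousLinearMap.single_apply]
  rw [← map_sum, ← map_add]
  congr 1
  ext1
  · simp [Prod.fst_sum]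
  · simp only [Prod.snd_add, Prod.snd_sum, zero_add]
    exact (Finset.univ_sum_single x.2).symm

/-- `√((d/(d-1)) (1 - κ²))`. -/
def sp (q : ℕ) (lam : ℝ) : ℝ := sg q lam * Real.sqrt (((q : ℝ) + 1) / q)

/-- `waveMap` as a continuous linear map. -/
def waveL (q k : ℕ) (lam : ℝ) : StarSp (q + 1) k →L[ℝ] StarSp (q + 1) k :=
  (ContinuousLinearMap.fst ℝ (Ek k) (Fin (q + 1) → Ek k)).prod
    (ContinuousLinearMap.pi fun j => cc q lam • ContinuousLinearMap.fst ℝ (Ek k) (Fin (q + 1) → Ek k) +
      sp q lam • ((ContinuousLinearMap.proj j).comp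
          (ContinuousLinearMap.snd ℝ (Ek k) (Fin (q + 1) → Ek k)) -
        ((1 : ℝ) / ((q : ℝ) + 1)) • ∑ i, (ContinuousLinearMap.proj i).comp
          (ContinuousLinearMap.snd ℝ (Ek k) (Fin (q + 1) → Ek k))))

theorem coe_waveL (lam : ℝ) : (waveL q k lam : StarSp (q + 1) k → StarSp (q + 1) k) =
    waveMap q k lam := by
  funext g
  refine Prod.ext rfl ?_
  funext j
  simp [waveL, waveMap, sp]

/-- Forgetting the last leaf. -/
def redL (q k : ℕ) : StarSp (q + 1) k →L[ℝ] StarSp q k :=
  (ContinuousLinearMap.fst ℝ (Ek k) (Fin (q + 1) → Ek k)).prod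
    (ContinuousLinearMap.pi fun j => (ContinuousLinearMap.proj j.castSucc).comp
      (ContinuousLinearMap.snd ℝ (Ek k) (Fin (q + 1) → Ek k)))

theorem coe_redL : (redL q k : StarSp (q + 1) k → StarSp q k) = redStar := by
  funext g
  exact Prod.ext rfl (by funext j; simp [redL, redStar])

/-- Reconstruct the last leaf from `∑ z_l = lam z_o`. -/
def extL (q k : ℕ) (lam : ℝ) : StarSp q k →L[ℝ] StarSp (q + 1) k :=
  (ContinuousLinearMap.fst ℝ (Ek k) (Fin q → Ek k)).prod
    (ContinuousLinearMap.pi fun j => Fin.lastCases (motive := fun _ => StarSp q k →L[ℝ] Ek k)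
      (lam • ContinuousLinearMap.fst ℝ (Ek k) (Fin q → Ek k) -
        ∑ i, (ContinuousLinearMap.proj i).comp (ContinuousLinearMap.snd ℝ (Ek k) (Fin q → Ek k)))
      (fun i => (ContinuousLinearMap.proj i).comp
        (ContinuousLinearMap.snd ℝ (Ek k) (Fin q → Ek k))) j)

theorem extL_fst (lam : ℝ) (z : StarSp q k) : (extL q k lam z).1 = z.1 := rfl

theorem extL_castSucc (lam : ℝ) (z : StarSp q k) (i : Fin q) :
    (extL q k lam z).2 i.castSucc = z.2 i := by
  simp [extL]

theorem extL_last (lam : ℝ) (z : StarSp q k) :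
    (extL q k lam z).2 (Fin.last q) = lam • z.1 - ∑ i, z.2 i := by
  simp [extL]

theorem extL_red (lam : ℝ) (x : StarSp (q + 1) k) (hx : ∑ j, x.2 j = lam • x.1) :
    extL q k lam (redL q k x) = x := by
  refine Prod.ext rfl ?_
  funext j
  refine Fin.lastCases ?_ (fun i => ?_) j
  · rw [extL_last]
    rw [coe_redL, redStar]
    simp only
    rw [← hx, Fin.sum_univ_castSucc]
    abel
  · rw [extL_castSucc, coe_redL, redStar]

/-- `siteMap` as a continuous linear map. -/
def siteL (d : ℕ) (A : Ek k →L[ℝ] Ek k) : StarSp d k →L[ℝ] StarSp d k :=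
  (A.comp (ContinuousLinearMap.fst ℝ (Ek k) (Fin d → Ek k))).prod
    (ContinuousLinearMap.pi fun j => A.comp ((ContinuousLinearMap.proj j).comp
      (ContinuousLinearMap.snd ℝ (Ek k) (Fin d → Ek k))))

theorem coe_siteL (A : Ek k →L[ℝ] Ek k) :
    (siteL d A : StarSp d k → StarSp d k) = siteMap A := by
  funext g
  exact Prod.ext rfl (by funext j; simp [siteL, siteMap])

/-! ### Characteristic functions -/

theorem charFun_stdProd (l0 : Ek k) (l : Fin d → Ek k) :
    charFunDual ((stdGaussian (Ek k)).prod (Measure.pi fun _ : Fin d => stdGaussian (Ek k)))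
      (dualSt l0 l) = Complex.exp (-((‖l0‖ ^ 2 + ∑ j, ‖l j‖ ^ 2 : ℝ) : ℂ) / 2) := by
  rw [charFunDual_prod, charFunDual_pi]
  have h1 : (dualSt l0 l).comp (ContinuousLinearMap.inl ℝ (Ek k) (Fin d → Ek k)) =
      innerSL ℝ l0 := by
    refine ContinuousLinearMap.ext fun x => ?_
    simp [dualSt_apply]
  have h2 : ∀ i, ((dualSt l0 l).comp (ContinuousLinearMap.inr ℝ (Ek k) (Fin d → Ek k))).comp
      (ContinuousLinearMap.single ℝ (fun _ : Fin d => Ek k) i) = innerSL ℝ (l i) := by
    intro i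
    refine ContinuousLinearMap.ext fun x => ?_
    simp only [ContinuousLinearMap.comp_apply, ContinuousLinearMap.inr_apply, dualSt_apply,
      inner_zero_right, zero_add, ContinuousLinearMap.single_apply, innerSL_apply_apply]
    rw [Finset.sum_eq_single i]
    · simp
    · intro j _ hj
      rw [Pi.single_eq_of_ne hj, inner_zero_right]
    · simp
  rw [h1]
  simp only [h2, charFunDual_stdGaussian, innerSL_apply_norm]
  rw [← Complex.exp_sum, ← Complex.exp_add]
  congr 1
  push_cast
  rw [← Finset.sum_div, ← add_div, Finset.sum_neg_distrib]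
  ring

theorem dualSt_comp_waveL (lam : ℝ) (l0 : Ek k) (l : Fin (q + 1) → Ek k) :
    (dualSt l0 l).comp (waveL q k lam) = dualSt (l0 + cc q lam • ∑ j, l j)
      (fun j => sp q lam • (l j - ((1 : ℝ) / ((q : ℝ) + 1)) • ∑ i, l i)) := by
  refine ContinuousLinearMap.ext fun x => ?_
  rw [ContinuousLinearMap.comp_apply, dualSt_apply, dualSt_apply, coe_waveL, waveMap]
  simp only [inner_add_left, inner_add_right, inner_smul_left, inner_smul_right, inner_sub_left,
    inner_sub_right, sum_inner, inner_sum, RCLike.conj_to_real, Finset.sum_add_distrib,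
    Finset.sum_sub_distrib, Finset.mul_sum, mul_sub, sp]
  rw [add_assoc]
  congr 3
  exact Finset.sum_comm

theorem charFun_waveM (lam : ℝ) (l0 : Ek k) (l : Fin (q + 1) → Ek k) :
    charFunDual (waveM q k lam) (dualSt l0 l) =
      Complex.exp (-((‖l0 + cc q lam • ∑ j, l j‖ ^ 2 +
        ∑ j, ‖sp q lam • (l j - ((1 : ℝ) / ((q : ℝ) + 1)) • ∑ i, l i)‖ ^ 2 : ℝ) : ℂ) / 2) := by
  rw [waveM, ← coe_waveL, charFunDual_map, dualSt_comp_waveL, charFun_stdProd]

theorem dualSt_comp_siteL (A : Ek k →L[ℝ] Ek k) (l0 : Ek k) (l : Fin d → Ek k) :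
    (dualSt l0 l).comp (siteL d A) =
      dualSt (ContinuousLinearMap.adjoint A l0) (fun j => ContinuousLinearMap.adjoint A (l j)) := by
  refine ContinuousLinearMap.ext fun x => ?_
  rw [ContinuousLinearMap.comp_apply, dualSt_apply, dualSt_apply, coe_siteL, siteMap]
  simp only [ContinuousLinearMap.adjoint_inner_left]

theorem dualSt_comp_redL (l0 : Ek k) (l : Fin q → Ek k) :
    (dualSt l0 l).comp (redL q k) = dualSt l0 (Fin.snoc (α := fun _ => Ek k) l 0) := by
  refine ContinuousLinearMap.ext fun x => ?_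
  rw [ContinuousLinearMap.comp_apply, dualSt_apply, dualSt_apply, coe_redL, redStar,
    Fin.sum_univ_castSucc]
  simp

theorem sum_wave (lam : ℝ) (g : StarSp (q + 1) k) :
    ∑ j, (waveMap q k lam g).2 j = lam • (waveMap q k lam g).1 := by
  simp only [waveMap, Finset.sum_add_distrib, Finset.sum_const, Finset.card_univ,
    Fintype.card_fin, ← Finset.smul_sum, Finset.sum_sub_distrib]
  rw [← Nat.cast_smul_eq_nsmul ℝ, ← Nat.cast_smul_eq_nsmul ℝ, smul_smul, smul_smul]
  have h : ((q : ℝ) + 1) ≠ 0 := by positivity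
  push_cast
  rw [mul_one_div_cancel h, one_smul, sub_self, smul_zero, add_zero, cc, mul_div_cancel₀ _ h]

theorem sum_site (A : Ek k →L[ℝ] Ek k) (lam : ℝ) (x : StarSp d k) (hx : ∑ j, x.2 j = lam • x.1) :
    ∑ j, (siteMap A x).2 j = lam • (siteMap A x).1 := by
  simp only [siteMap]
  rw [← map_sum, hx, map_smul]

instance isGaussian_waveM (lam : ℝ) : IsGaussian (waveM q k lam) := by
  rw [waveM, ← coe_waveL]
  have : IsGaussian (Measure.pi fun _ : Fin (q + 1) => stdGaussian (Ek k)) := by
    have h1 : iIndepFun (fun (i : Fin (q + 1)) (ω : Fin (q + 1) → Ek k) => ω i)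
        (Measure.pi fun _ : Fin (q + 1) => stdGaussian (Ek k)) :=
      iIndepFun_pi (X := fun _ : Fin (q + 1) => (id : Ek k → Ek k)) (fun _ => aemeasurable_id)
    have h2 := h1.hasGaussianLaw (fun i => by
      refine ⟨?_⟩
      have : (Measure.pi fun _ : Fin (q + 1) => stdGaussian (Ek k)).map
          (fun ω : Fin (q + 1) → Ek k => ω i) = stdGaussian (Ek k) :=
        (measurePreserving_eval (fun _ : Fin (q + 1) => stdGaussian (Ek k)) i).map_eq
      rw [this]
      infer_instance)
    have h3 := h2.isGaussian_map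
    simpa using h3
  infer_instance

end

end Vale.Agent.P156.H894
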