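import Vale.Agent.P156.H894.FE8T

/-! # FE8: second moments of the coordinates over two independent stars -/

open MeasureTheory Filter Topology Matrix Finset

namespace Vale.Agent.P156.FE

noncomputable section

variable {n d : ℕ}

/-- Second moment of the coordinate over the directed edges of `G`. -/
def vG (d : ℕ) (z : ℂ) (G : SimpleGraph (Fin n)) : ℝ :=
  wavg (ew d G) (fun e => ‖TT (mm d z) (hc G z e)‖ ^ 2)

/-- Square of the mean of the coordinate over the directed edges of `G`. -/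
def muG (d : ℕ) (z : ℂ) (G : SimpleGraph (Fin n)) : ℝ :=
  wavg (ew d G) (fun e => (TT (mm d z) (hc G z e)).re) ^ 2 +
    wavg (ew d G) (fun e => (TT (mm d z) (hc G z e)).im) ^ 2

/-- Weighted second moment. -/
def vW (n d : ℕ) (w : SimpleGraph (Fin n) → ℝ) (z : ℂ) : ℝ :=
  avg (regularGraphs n d) (fun G => w G * vG d z G)

/-- Weighted squared mean. -/
def IW (n d : ℕ) (w : SimpleGraph (Fin n) → ℝ) (z : ℂ) : ℝ :=
  avg (regularGraphs n d) (fun G => w G * muG d z G)

variable {w : SimpleGraph (Fin n) → ℝ}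

lemma vG_nonneg (z : ℂ) (G : SimpleGraph (Fin n)) : 0 ≤ vG d z G :=
  Finset.sum_nonneg fun e _ => mul_nonneg (B.ew_nonneg G e) (sq_nonneg _)

lemma vW_nonneg (hw : ∀ G, 0 ≤ w G) (z : ℂ) : 0 ≤ vW n d w z :=
  H490.avg_nonneg fun G _ => mul_nonneg (hw G) (vG_nonneg z G)

lemma IW_nonneg (hw : ∀ G, 0 ≤ w G) (z : ℂ) : 0 ≤ IW n d w z :=
  H490.avg_nonneg fun G _ => mul_nonneg (hw G) (add_nonneg (sq_nonneg _) (sq_nonneg _))

lemma EW_tt_sq (hn : 0 < n) (z : ℂ) (j : Fin 2) (k : Fin d) :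
    EW n d w (fun ω => ‖tt z ω j k‖ ^ 2) = vW n d w z := by
  have h := EW_one hn w j (fun G t => ‖TT (mm d z) (hc G z (t.1, t.2 k))‖ ^ 2)
  refine h.trans (H490.avg_congr fun G hG => ?_)
  rw [B.avg_stars_edge (B.mem_regularGraphs.1 hG) k
    (fun e => ‖TT (mm d z) (hc G z e)‖ ^ 2)]
  rfl

lemma EW_rr_sq (hn : 0 < n) (z : ℂ) (j : Fin 2) (k : Fin d) :
    EW n d w (fun ω => ‖rr z ω j k‖ ^ 2) = vW n d w z := by
  have h := EW_one hn w j (fun G t => ‖TT (mm d z) (hc G z (t.2 k, t.1))‖ ^ 2)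
  refine h.trans (H490.avg_congr fun G hG => ?_)
  rw [B.avg_stars_edge' (B.mem_regularGraphs.1 hG) k
    (fun e => ‖TT (mm d z) (hc G z e)‖ ^ 2)]
  rfl

/-- Product of the squares for the two stars. -/
lemma EW_tt_sq_sq (hn : 0 < n) (z : ℂ) (k l : Fin d) :
    EW n d w (fun ω => ‖tt z ω 0 k‖ ^ 2 * ‖tt z ω 1 l‖ ^ 2) =
      avg (regularGraphs n d) (fun G => w G * (vG d z G) ^ 2) := by
  have h := EW_two hn w (fun G t => ‖TT (mm d z) (hc G z (t.1, t.2 k))‖ ^ 2)
    (fun G t => ‖TT (mm d z) (hc G z (t.1, t.2 l))‖ ^ 2)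
  refine h.trans (H490.avg_congr fun G hG => ?_)
  rw [B.avg_stars_edge (B.mem_regularGraphs.1 hG) k
    (fun e => ‖TT (mm d z) (hc G z e)‖ ^ 2), B.avg_stars_edge (B.mem_regularGraphs.1 hG) l
    (fun e => ‖TT (mm d z) (hc G z e)‖ ^ 2), sq (vG d z G)]
  rfl

/-- Mean of a complex product over two independent stars. -/
lemma EW_re_mul (hn : 0 < n) (c : ℂ) (F F' : SimpleGraph (Fin n) → Fin n × (Fin d → Fin n) → ℂ)
    (a b : SimpleGraph (Fin n) → ℝ)
    (h1 : ∀ G ∈ regularGraphs n d, avg (B.stars d G) (fun t => (F G t).re) = a G)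
    (h2 : ∀ G ∈ regularGraphs n d, avg (B.stars d G) (fun t => (F G t).im) = b G)
    (h1' : ∀ G ∈ regularGraphs n d, avg (B.stars d G) (fun t => (F' G t).re) = a G)
    (h2' : ∀ G ∈ regularGraphs n d, avg (B.stars d G) (fun t => (F' G t).im) = b G) :
    EW n d w (fun ω => (c * (F ω.1 (B.st ω 0) * starRingEnd ℂ (F' ω.1 (B.st ω 1)))).re) =
      c.re * avg (regularGraphs n d) (fun G => w G * (a G ^ 2 + b G ^ 2)) := by
  have e1 : EW n d w (fun ω =>
      (c * (F ω.1 (B.st ω 0) * starRingEnd ℂ (F' ω.1 (B.st ω 1)))).re) =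
      EW n d w (fun ω => c.re * ((F ω.1 (B.st ω 0)).re * (F' ω.1 (B.st ω 1)).re) +
        (c.re * ((F ω.1 (B.st ω 0)).im * (F' ω.1 (B.st ω 1)).im) +
        ((-c.im) * ((F ω.1 (B.st ω 0)).im * (F' ω.1 (B.st ω 1)).re) +
        c.im * ((F ω.1 (B.st ω 0)).re * (F' ω.1 (B.st ω 1)).im)))) := by
    refine EW_congr fun ω _ => ?_
    simp only [Complex.mul_re, Complex.mul_im, Complex.conj_re, Complex.conj_im]
    ring
  rw [e1, EW_add, EW_add, EW_add, EW_smul, EW_smul, EW_smul, EW_smul,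
    EW_two hn w (fun G t => (F G t).re) (fun G t => (F' G t).re),
    EW_two hn w (fun G t => (F G t).im) (fun G t => (F' G t).im),
    EW_two hn w (fun G t => (F G t).im) (fun G t => (F' G t).re),
    EW_two hn w (fun G t => (F G t).re) (fun G t => (F' G t).im)]
  have f1 : avg (regularGraphs n d) (fun G => w G * (avg (B.stars d G) (fun t => (F G t).re) *
      avg (B.stars d G) (fun t => (F' G t).re))) =
      avg (regularGraphs n d) (fun G => w G * (a G ^ 2)) :=
    H490.avg_congr fun G hG => by rw [h1 G hG, h1' G hG]; ring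
  have f2 : avg (regularGraphs n d) (fun G => w G * (avg (B.stars d G) (fun t => (F G t).im) *
      avg (B.stars d G) (fun t => (F' G t).im))) =
      avg (regularGraphs n d) (fun G => w G * (b G ^ 2)) :=
    H490.avg_congr fun G hG => by rw [h2 G hG, h2' G hG]; ring
  have f3 : avg (regularGraphs n d) (fun G => w G * (avg (B.stars d G) (fun t => (F G t).im) *
      avg (B.stars d G) (fun t => (F' G t).re))) =
      avg (regularGraphs n d) (fun G => w G * (a G * b G)) :=
    H490.avg_congr fun G hG => by rw [h2 G hG, h1' G hG]; ring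
  have f4 : avg (regularGraphs n d) (fun G => w G * (avg (B.stars d G) (fun t => (F G t).re) *
      avg (B.stars d G) (fun t => (F' G t).im))) =
      avg (regularGraphs n d) (fun G => w G * (a G * b G)) :=
    H490.avg_congr fun G hG => by rw [h1 G hG, h2' G hG]
  rw [f1, f2, f3, f4]
  have f5 : avg (regularGraphs n d) (fun G => w G * (a G ^ 2 + b G ^ 2)) =
      avg (regularGraphs n d) (fun G => w G * (a G ^ 2)) +
      avg (regularGraphs n d) (fun G => w G * (b G ^ 2)) := by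
    rw [← H490.avg_add]
    refine H490.avg_congr fun G _ => ?_
    ring
  rw [f5]
  ring

lemma avg_tt_re (z : ℂ) (k : Fin d) {G : SimpleGraph (Fin n)} (hG : G ∈ regularGraphs n d) :
    avg (B.stars d G) (fun t => (TT (mm d z) (hc G z (t.1, t.2 k))).re) =
      wavg (ew d G) (fun e => (TT (mm d z) (hc G z e)).re) :=
  B.avg_stars_edge (B.mem_regularGraphs.1 hG) k (fun e => (TT (mm d z) (hc G z e)).re)

lemma avg_tt_im (z : ℂ) (k : Fin d) {G : SimpleGraph (Fin n)} (hG : G ∈ regularGraphs n d) :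
    avg (B.stars d G) (fun t => (TT (mm d z) (hc G z (t.1, t.2 k))).im) =
      wavg (ew d G) (fun e => (TT (mm d z) (hc G z e)).im) :=
  B.avg_stars_edge (B.mem_regularGraphs.1 hG) k (fun e => (TT (mm d z) (hc G z e)).im)

lemma avg_rr_re (z : ℂ) (k : Fin d) {G : SimpleGraph (Fin n)} (hG : G ∈ regularGraphs n d) :
    avg (B.stars d G) (fun t => (TT (mm d z) (hc G z (t.2 k, t.1))).re) =
      wavg (ew d G) (fun e => (TT (mm d z) (hc G z e)).re) :=
  B.avg_stars_edge' (B.mem_regularGraphs.1 hG) k (fun e => (TT (mm d z) (hc G z e)).re)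

lemma avg_rr_im (z : ℂ) (k : Fin d) {G : SimpleGraph (Fin n)} (hG : G ∈ regularGraphs n d) :
    avg (B.stars d G) (fun t => (TT (mm d z) (hc G z (t.2 k, t.1))).im) =
      wavg (ew d G) (fun e => (TT (mm d z) (hc G z e)).im) :=
  B.avg_stars_edge' (B.mem_regularGraphs.1 hG) k (fun e => (TT (mm d z) (hc G z e)).im)

/-- Independent edges. -/
lemma EW_tt_tt (hn : 0 < n) (z c : ℂ) (k l : Fin d) :
    EW n d w (fun ω => (c * (tt z ω 0 k * starRingEnd ℂ (tt z ω 1 l))).re) =
      c.re * IW n d w z :=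
  EW_re_mul hn c (fun G t => TT (mm d z) (hc G z (t.1, t.2 k)))
    (fun G t => TT (mm d z) (hc G z (t.1, t.2 l))) _ _ (fun G hG => avg_tt_re z k hG)
    (fun G hG => avg_tt_im z k hG) (fun G hG => avg_tt_re z l hG) (fun G hG => avg_tt_im z l hG)

lemma EW_tt_rr (hn : 0 < n) (z c : ℂ) (k l : Fin d) :
    EW n d w (fun ω => (c * (tt z ω 0 k * starRingEnd ℂ (rr z ω 1 l))).re) =
      c.re * IW n d w z :=
  EW_re_mul hn c (fun G t => TT (mm d z) (hc G z (t.1, t.2 k)))
    (fun G t => TT (mm d z) (hc G z (t.2 l, t.1))) _ _ (fun G hG => avg_tt_re z k hG)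
    (fun G hG => avg_tt_im z k hG) (fun G hG => avg_rr_re z l hG) (fun G hG => avg_rr_im z l hG)

lemma EW_rr_rr (hn : 0 < n) (z c : ℂ) (k l : Fin d) :
    EW n d w (fun ω => (c * (rr z ω 0 k * starRingEnd ℂ (rr z ω 1 l))).re) =
      c.re * IW n d w z :=
  EW_re_mul hn c (fun G t => TT (mm d z) (hc G z (t.2 k, t.1)))
    (fun G t => TT (mm d z) (hc G z (t.2 l, t.1))) _ _ (fun G hG => avg_rr_re z k hG)
    (fun G hG => avg_rr_im z k hG) (fun G hG => avg_rr_re z l hG) (fun G hG => avg_rr_im z l hG)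

end

end Vale.Agent.P156.FE
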