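import Vale.Agent.P156.H894.FE8Defs
import Vale.Agent.P156.B.C5b
import Vale.Agent.P156.H490.Prob

/-! # FE8: weighted averages over two stars -/

open MeasureTheory Filter Topology Matrix Finset

namespace Vale.Agent.P156.FE

noncomputable section

variable {n d : ℕ}

/-- Weighted average over `W_2`. -/
def EW (n d : ℕ) (w : SimpleGraph (Fin n) → ℝ) (Φ : SimpleGraph (Fin n) × StarPos n d 2 → ℝ) : ℝ :=
  avg (WW n d 2) (fun ω => w ω.1 * Φ ω)

variable {w : SimpleGraph (Fin n) → ℝ}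

lemma EW_add (Φ Ψ : SimpleGraph (Fin n) × StarPos n d 2 → ℝ) :
    EW n d w (fun ω => Φ ω + Ψ ω) = EW n d w Φ + EW n d w Ψ := by
  unfold EW
  rw [← H490.avg_add]
  simp only [mul_add]

lemma EW_sub (Φ Ψ : SimpleGraph (Fin n) × StarPos n d 2 → ℝ) :
    EW n d w (fun ω => Φ ω - Ψ ω) = EW n d w Φ - EW n d w Ψ := by
  unfold EW
  rw [← H490.avg_sub]
  simp only [mul_sub]

lemma EW_smul (c : ℝ) (Φ : SimpleGraph (Fin n) × StarPos n d 2 → ℝ) :
    EW n d w (fun ω => c * Φ ω) = c * EW n d w Φ := by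
  unfold EW
  rw [← H490.avg_mul_left]
  congr 1
  funext ω
  ring

lemma EW_sum {ι : Type*} (s : Finset ι) (Φ : ι → SimpleGraph (Fin n) × StarPos n d 2 → ℝ) :
    EW n d w (fun ω => ∑ i ∈ s, Φ i ω) = ∑ i ∈ s, EW n d w (Φ i) := by
  unfold EW
  rw [← H490.avg_sum]
  simp only [Finset.mul_sum]

lemma EW_congr {Φ Ψ : SimpleGraph (Fin n) × StarPos n d 2 → ℝ}
    (h : ∀ ω ∈ WW n d 2, Φ ω = Ψ ω) : EW n d w Φ = EW n d w Ψ := by
  unfold EW
  exact H490.avg_congr fun ω hω => by rw [h ω hω]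

lemma EW_mono (hw : ∀ G, 0 ≤ w G) {Φ Ψ : SimpleGraph (Fin n) × StarPos n d 2 → ℝ}
    (h : ∀ ω ∈ WW n d 2, Φ ω ≤ Ψ ω) : EW n d w Φ ≤ EW n d w Ψ := by
  unfold EW
  exact H490.avg_mono fun ω hω => mul_le_mul_of_nonneg_left (h ω hω) (hw _)

lemma EW_nonneg (hw : ∀ G, 0 ≤ w G) {Φ : SimpleGraph (Fin n) × StarPos n d 2 → ℝ}
    (h : ∀ ω ∈ WW n d 2, 0 ≤ Φ ω) : 0 ≤ EW n d w Φ := by
  unfold EW
  exact H490.avg_nonneg fun ω hω => mul_nonneg (hw _) (h ω hω)

lemma EW_abs_le (hw : ∀ G, 0 ≤ w G) (Φ : SimpleGraph (Fin n) × StarPos n d 2 → ℝ) :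
    |EW n d w Φ| ≤ EW n d w (fun ω => |Φ ω|) := by
  unfold EW
  refine (H490.abs_avg_le _ _).trans (le_of_eq ?_)
  congr 1
  funext ω
  rw [abs_mul, abs_of_nonneg (hw _)]

/-- `|E Φ - E Ψ| ≤ E χ` if `|Φ - Ψ| ≤ χ` pointwise. -/
lemma EW_abs_sub_le (hw : ∀ G, 0 ≤ w G) {Φ Ψ χ : SimpleGraph (Fin n) × StarPos n d 2 → ℝ}
    (h : ∀ ω ∈ WW n d 2, |Φ ω - Ψ ω| ≤ χ ω) : |EW n d w Φ - EW n d w Ψ| ≤ EW n d w χ := by
  rw [← EW_sub]
  exact (EW_abs_le hw _).trans (EW_mono hw h)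

/-! ### Functions of the graph and of one or two stars -/

lemma mstars_nonempty {G : SimpleGraph (Fin n)} (hG : B.Reg d G) (hn : 0 < n) (K : ℕ) :
    (B.mstars d K G).Nonempty := by
  obtain ⟨t, ht⟩ := B.stars_nonempty hG hn
  exact ⟨fun _ => t, B.mem_mstars.2 fun _ => ht⟩

/-- One star of two. -/
lemma avg_mstars_one {G : SimpleGraph (Fin n)} (hG : B.Reg d G) (hn : 0 < n) (j : Fin 2)
    (F : Fin n × (Fin d → Fin n) → ℝ) :
    avg (B.mstars d 2 G) (fun s => F (s j)) = avg (B.stars d G) F := by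
  have h := B.avg_pi_marg (ι := Fin 2) (ι' := Unit) (B.stars_nonempty hG hn) (κ := fun _ => j)
    (fun a b _ => Subsingleton.elim a b) (fun u => F (u ()))
  rw [B.avg_pi_unit] at h
  exact h

/-- Two independent stars. -/
lemma avg_mstars_two {G : SimpleGraph (Fin n)} (hG : B.Reg d G) (hn : 0 < n)
    (F F' : Fin n × (Fin d → Fin n) → ℝ) :
    avg (B.mstars d 2 G) (fun s => F (s 0) * F' (s 1)) =
      avg (B.stars d G) F * avg (B.stars d G) F' := by
  have hκ : Function.Injective (Sum.elim (fun _ : Unit => (0 : Fin 2)) (fun _ : Unit => 1)) := by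
    rintro (a | a) (b | b) hab
    · rfl
    · exact absurd hab (by simp)
    · exact absurd hab (by simp)
    · rfl
  have h := B.avg_pi_mul (B.stars_nonempty hG hn) hκ (fun u => F (u ())) (fun u => F' (u ()))
  rw [B.avg_pi_unit, B.avg_pi_unit] at h
  exact h

lemma EW_eq (w : SimpleGraph (Fin n) → ℝ) (Φ : SimpleGraph (Fin n) × StarPos n d 2 → ℝ) :
    EW n d w Φ = avg (regularGraphs n d)
      (fun G => w G * avg (B.mstars d 2 G) (fun s => Φ (B.mk G s))) := by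
  unfold EW
  rw [B.avg_WW_eq]
  refine H490.avg_congr fun G _ => ?_
  rw [← H490.avg_mul_left]
  rfl

lemma EW_graph (hn : 0 < n) (w φ : SimpleGraph (Fin n) → ℝ) :
    EW n d w (fun ω => φ ω.1) = avg (regularGraphs n d) (fun G => w G * φ G) := by
  rw [EW_eq]
  refine H490.avg_congr fun G hG => ?_
  simp only [B.mk_fst]
  rw [H490.avg_const (mstars_nonempty (B.mem_regularGraphs.1 hG) hn 2)]

lemma EW_const (hn : 0 < n) (w : SimpleGraph (Fin n) → ℝ) (c : ℝ) :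
    EW n d w (fun _ => c) = c * MW n d w := by
  rw [EW_graph hn w (fun _ => c), MW, ← H490.avg_mul_left]
  congr 1
  funext G
  ring

/-- A function of one star. -/
lemma EW_one (hn : 0 < n) (w : SimpleGraph (Fin n) → ℝ) (j : Fin 2)
    (F : SimpleGraph (Fin n) → Fin n × (Fin d → Fin n) → ℝ) :
    EW n d w (fun ω => F ω.1 (B.st ω j)) =
      avg (regularGraphs n d) (fun G => w G * avg (B.stars d G) (F G)) := by
  rw [EW_eq]
  refine H490.avg_congr fun G hG => ?_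
  simp only [B.mk_fst, B.st_mk]
  rw [avg_mstars_one (B.mem_regularGraphs.1 hG) hn j]

/-- A product of functions of the two stars. -/
lemma EW_two (hn : 0 < n) (w : SimpleGraph (Fin n) → ℝ)
    (F F' : SimpleGraph (Fin n) → Fin n × (Fin d → Fin n) → ℝ) :
    EW n d w (fun ω => F ω.1 (B.st ω 0) * F' ω.1 (B.st ω 1)) =
      avg (regularGraphs n d)
        (fun G => w G * (avg (B.stars d G) (F G) * avg (B.stars d G) (F' G))) := by
  rw [EW_eq]
  refine H490.avg_congr fun G hG => ?_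
  simp only [B.mk_fst, B.st_mk]
  rw [avg_mstars_two (B.mem_regularGraphs.1 hG) hn]

/-- The stars are disjoint except with small probability, for every graph. -/
lemma EW_bad_le (hn : 0 < n) (hw : ∀ G, 0 ≤ w G) [∀ ω, Decidable (ω ∈ ZZs n d 2)] :
    EW n d w (fun ω => if ω ∈ ZZs n d 2 then 0 else 1) ≤
      ((2 ^ 2 * (d + 1) ^ 2 : ℕ) : ℝ) * MW n d w / n := by
  classical
  rw [EW_eq, MW, ← H490.avg_mul_left]
  have hn' : (0 : ℝ) < n := by exact_mod_cast hn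
  have h : avg (regularGraphs n d) (fun G => ((2 ^ 2 * (d + 1) ^ 2 : ℕ) : ℝ) * w G) / n =
      avg (regularGraphs n d) (fun G => w G * (((2 ^ 2 * (d + 1) ^ 2 : ℕ) : ℝ) / n)) := by
    rw [div_eq_inv_mul, ← H490.avg_mul_left]
    congr 1
    funext G
    field_simp
  rw [h]
  refine H490.avg_mono fun G hG => mul_le_mul_of_nonneg_left ?_ (hw G)
  have hG' := B.mem_regularGraphs.1 hG
  have h1 := B.sum_bad_le (K := 2) hG'
  rw [Fintype.card_fin] at h1
  have hcard : (0 : ℝ) < (B.mstars d 2 G).card := by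
    exact_mod_cast (mstars_nonempty hG' hn 2).card_pos
  unfold avg
  rw [div_le_div_iff₀ hcard hn']
  have h2 : ∑ s ∈ B.mstars d 2 G, (if B.mk G s ∈ ZZs n d 2 then (0 : ℝ) else 1) =
      ∑ s ∈ B.mstars d 2 G, (if B.Good s then (0 : ℝ) else 1) := by
    refine Finset.sum_congr rfl fun s hs => ?_
    have h3 : B.mk G s ∈ ZZs n d 2 ↔ B.Good s := by
      rw [B.mem_ZZs, B.mem_WW]
      exact ⟨fun h => h.2, fun h => ⟨⟨hG', hs⟩, h⟩⟩
    by_cases h4 : B.Good s
    · rw [if_pos h4, if_pos (h3.2 h4)]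
    · rw [if_neg h4, if_neg (fun h => h4 (h3.1 h))]
  rw [h2, mul_comm]
  exact h1

end

end Vale.Agent.P156.FE
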