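import Vale.Agent.P156.H894.FE8M

/-! # FE8: the core inequality -/

open MeasureTheory Filter Topology Matrix Finset

namespace Vale.Agent.P156.FE

noncomputable section

/-- Square of the norm of a sum. -/
lemma norm_sum_sq {ι : Type*} (s : Finset ι) (f : ι → ℂ) :
    ‖∑ k ∈ s, f k‖ ^ 2 = ∑ k ∈ s, ∑ l ∈ s, (f k * starRingEnd ℂ (f l)).re := by
  rw [← Complex.normSq_eq_norm_sq]
  have h1 : (Complex.normSq (∑ k ∈ s, f k) : ℂ) =
      ∑ k ∈ s, ∑ l ∈ s, f k * starRingEnd ℂ (f l) := by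
    rw [Complex.normSq_eq_conj_mul_self, map_sum, mul_comm, Finset.sum_mul_sum]
  have h2 := congrArg Complex.re h1
  rw [Complex.ofReal_re] at h2
  rw [h2, Complex.re_sum]
  simp only [Complex.re_sum]

lemma mul_conj_re_self (x : ℂ) : (x * starRingEnd ℂ x).re = ‖x‖ ^ 2 := by
  rw [Complex.mul_conj, Complex.ofReal_re, Complex.normSq_eq_norm_sq]

variable {n q : ℕ} {w : SimpleGraph (Fin n) → ℝ}

/-- The remainder of the linearised recursion. -/
def QQ (z : ℂ) (ω : SimpleGraph (Fin n) × StarPos n (q + 1) 2) (j : Fin 2) : ℂ :=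
  rr z ω j (Fin.last q) - mm (q + 1) z ^ 2 * ∑ k : Fin q, tt z ω j k.castSucc

/-- Step (e): the mean. -/
lemma IW_le (hn : 0 < n) (hw : ∀ G, 0 ≤ w G) (z : ℂ) {c X : ℝ} (hc : 0 < c)
    (hgap : c ≤ ‖1 - (q : ℂ) * mm (q + 1) z ^ 2‖)
    (hX : EW n (q + 1) w (fun ω => ‖QQ z ω 0‖ ^ 2) ≤ X) {lam : ℝ} (hl : 0 < lam) :
    c * IW n (q + 1) w z ≤ lam / 2 * vW n (q + 1) w z + X / (2 * lam) := by
  set m := mm (q + 1) z with hm
  set g : ℂ := 1 - (q : ℂ) * m ^ 2 with hg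
  have hg0 : 0 < ‖g‖ := hc.trans_le hgap
  set u : ℂ := starRingEnd ℂ g / (‖g‖ : ℂ) with hu
  have hu1 : ‖u‖ = 1 := by
    rw [hu, norm_div, RCLike.norm_conj, Complex.norm_real, norm_norm, div_self hg0.ne']
  have hug : (u * g).re = ‖g‖ := by
    have h1 : u * g = (‖g‖ : ℂ) := by
      rw [hu, div_mul_eq_mul_div, mul_comm (starRingEnd ℂ g) g, Complex.mul_conj,
        Complex.normSq_eq_norm_sq]
      have : (‖g‖ : ℂ) ≠ 0 := by exact_mod_cast hg0.ne'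
      rw [div_eq_iff this]
      push_cast
      ring
    rw [h1, Complex.ofReal_re]
  have hI0 := IW_nonneg (d := q + 1) hw z
  have e1 : EW n (q + 1) w (fun ω => (u * (QQ z ω 0 *
      starRingEnd ℂ (rr z ω 1 (Fin.last q)))).re) = ‖g‖ * IW n (q + 1) w z := by
    have h1 : EW n (q + 1) w (fun ω => (u * (QQ z ω 0 *
        starRingEnd ℂ (rr z ω 1 (Fin.last q)))).re) =
        EW n (q + 1) w (fun ω => (u * (rr z ω 0 (Fin.last q) *
          starRingEnd ℂ (rr z ω 1 (Fin.last q)))).re -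
          ∑ k : Fin q, ((u * m ^ 2) * (tt z ω 0 k.castSucc *
            starRingEnd ℂ (rr z ω 1 (Fin.last q)))).re) := by
      refine EW_congr fun ω _ => ?_
      rw [← Complex.re_sum, ← Complex.sub_re]
      congr 1
      unfold QQ
      rw [← Finset.mul_sum, ← Finset.sum_mul]
      ring
    rw [h1, EW_sub, EW_sum, EW_rr_rr hn z u]
    rw [Finset.sum_congr rfl fun k _ => EW_tt_rr (w := w) hn z (u * m ^ 2)
      (Fin.castSucc k) (Fin.last q)]
    rw [Finset.sum_const, Finset.card_univ, Fintype.card_fin, nsmul_eq_mul, ← hug]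
    have h2 : (u * g).re = u.re - q * (u * m ^ 2).re := by
      rw [hg]
      have : u * (1 - (q : ℂ) * m ^ 2) = u - ((q : ℝ) : ℂ) * (u * m ^ 2) := by
        push_cast
        ring
      rw [this, Complex.sub_re, Complex.re_ofReal_mul]
    rw [h2]
    ring
  have e2 : EW n (q + 1) w (fun ω => (u * (QQ z ω 0 *
      starRingEnd ℂ (rr z ω 1 (Fin.last q)))).re) ≤
      EW n (q + 1) w (fun ω => lam / 2 * ‖rr z ω 1 (Fin.last q)‖ ^ 2 +
        1 / (2 * lam) * ‖QQ z ω 0‖ ^ 2) := by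
    refine EW_mono hw fun ω _ => ?_
    refine (Complex.re_le_norm _).trans ?_
    rw [norm_mul, norm_mul, hu1, one_mul, RCLike.norm_conj]
    set x := ‖QQ z ω 0‖
    set y := ‖rr z ω 1 (Fin.last q)‖
    have : lam / 2 * y ^ 2 + 1 / (2 * lam) * x ^ 2 - x * y = (lam * y - x) ^ 2 / (2 * lam) := by
      field_simp
      ring
    have h3 : 0 ≤ (lam * y - x) ^ 2 / (2 * lam) := by positivity
    linarith
  rw [e1, EW_add, EW_smul, EW_smul, EW_rr_sq hn] at e2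
  calc c * IW n (q + 1) w z ≤ ‖g‖ * IW n (q + 1) w z := mul_le_mul_of_nonneg_right hgap hI0
    _ ≤ _ := e2
    _ ≤ lam / 2 * vW n (q + 1) w z + 1 / (2 * lam) * X := by
        gcongr
    _ = _ := by ring

/-- Step (c): the variance. -/
lemma vW_le (hq : 2 ≤ q) (hn : 0 < n) (hw : ∀ G, 0 ≤ w G) (z : ℂ) {X S : ℝ}
    (hm : (q : ℝ) * ‖mm (q + 1) z‖ ^ 2 ≤ 1) (hS0 : 0 ≤ S)
    (hS : ∀ k l : Fin (q + 1), k ≠ l →
      EW n (q + 1) w (fun ω => (tt z ω 0 k * starRingEnd ℂ (tt z ω 0 l)).re) ≤ S)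
    (hX : EW n (q + 1) w (fun ω => ‖QQ z ω 0‖ ^ 2) ≤ X) :
    vW n (q + 1) w z ≤ 9 / 8 * (vW n (q + 1) w z / 2 + S) + 9 * X := by
  set m := mm (q + 1) z with hmdef
  set v := vW n (q + 1) w z with hv
  have hv0 : 0 ≤ v := vW_nonneg hw z
  have h1 : v ≤ EW n (q + 1) w (fun ω =>
      9 / 8 * (‖m‖ ^ 4 * ∑ k : Fin q, ∑ l : Fin q,
        (tt z ω 0 k.castSucc * starRingEnd ℂ (tt z ω 0 l.castSucc)).re) +
      9 * ‖QQ z ω 0‖ ^ 2) := by
    rw [hv, ← EW_rr_sq hn z 0 (Fin.last q)]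
    refine EW_mono hw fun ω _ => ?_
    rw [← norm_sum_sq]
    have e : rr z ω 0 (Fin.last q) = m ^ 2 * (∑ k : Fin q, tt z ω 0 k.castSucc) + QQ z ω 0 := by
      unfold QQ
      ring
    have h2 : ‖rr z ω 0 (Fin.last q)‖ ≤ ‖m‖ ^ 2 * ‖∑ k : Fin q, tt z ω 0 k.castSucc‖ +
        ‖QQ z ω 0‖ := by
      rw [e]
      refine (norm_add_le _ _).trans (le_of_eq ?_)
      rw [norm_mul, norm_pow]
    set x := ‖m‖ ^ 2 * ‖∑ k : Fin q, tt z ω 0 k.castSucc‖ with hx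
    set y := ‖QQ z ω 0‖
    have h3 : ‖m‖ ^ 4 * ‖∑ k : Fin q, tt z ω 0 k.castSucc‖ ^ 2 = x ^ 2 := by
      rw [hx]
      ring
    rw [h3]
    have h4 : ‖rr z ω 0 (Fin.last q)‖ ^ 2 ≤ (x + y) ^ 2 := by
      gcongr
    nlinarith [sq_nonneg (x - 8 * y)]
  rw [EW_add, EW_smul, EW_smul, EW_smul, EW_sum] at h1
  have h5 : ∀ k : Fin q, EW n (q + 1) w (fun ω => ∑ l : Fin q,
      (tt z ω 0 k.castSucc * starRingEnd ℂ (tt z ω 0 l.castSucc)).re) ≤ v + (q - 1) * S := by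
    intro k
    rw [EW_sum]
    have h6 : ∀ l : Fin q, EW n (q + 1) w (fun ω =>
        (tt z ω 0 k.castSucc * starRingEnd ℂ (tt z ω 0 l.castSucc)).re) ≤
        if k = l then v else S := by
      intro l
      split_ifs with hkl
      · subst hkl
        refine le_of_eq ?_
        rw [hv, ← EW_tt_sq hn z 0 k.castSucc]
        exact EW_congr fun ω _ => mul_conj_re_self _
      · exact hS _ _ (fun h => hkl (Fin.castSucc_injective q h))
    refine (Finset.sum_le_sum fun l _ => h6 l).trans (le_of_eq ?_)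
    rw [Finset.sum_ite, Finset.sum_const, Finset.sum_const, Finset.filter_eq, if_pos (mem_univ k),
      Finset.card_singleton, one_smul]
    have h7 : (univ.filter (fun l : Fin q => ¬ k = l)).card = q - 1 := by
      have h8 : univ.filter (fun l : Fin q => ¬ k = l) = univ.erase k := by
        ext l
        simp [eq_comm]
      rw [h8, Finset.card_erase_of_mem (mem_univ k), Finset.card_univ, Fintype.card_fin]
    rw [h7, nsmul_eq_mul, Nat.cast_sub (by omega)]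
    simp
  have h9 : ∑ k : Fin q, EW n (q + 1) w (fun ω => ∑ l : Fin q,
      (tt z ω 0 k.castSucc * starRingEnd ℂ (tt z ω 0 l.castSucc)).re) ≤
      q * (v + (q - 1) * S) := by
    refine (Finset.sum_le_sum fun k _ => h5 k).trans (le_of_eq ?_)
    rw [Finset.sum_const, Finset.card_univ, Fintype.card_fin, nsmul_eq_mul]
  have hq' : (2 : ℝ) ≤ q := by exact_mod_cast hq
  have hm4 : (q : ℝ) ^ 2 * ‖m‖ ^ 4 ≤ 1 := by
    have : (q : ℝ) ^ 2 * ‖m‖ ^ 4 = ((q : ℝ) * ‖m‖ ^ 2) ^ 2 := by ring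
    rw [this]
    exact pow_le_one₀ (by positivity) hm
  have h10 : ‖m‖ ^ 4 * (q * (v + (q - 1) * S)) ≤ v / 2 + S := by
    have a1 : ‖m‖ ^ 4 * q ≤ 1 / 2 := by
      have : 2 * (‖m‖ ^ 4 * q) ≤ (q : ℝ) ^ 2 * ‖m‖ ^ 4 := by
        have h0 : 0 ≤ ‖m‖ ^ 4 * q := by positivity
        nlinarith
      linarith
    have a2 : ‖m‖ ^ 4 * (q * (q - 1)) ≤ 1 := by
      have h0 : 0 ≤ ‖m‖ ^ 4 * q := by positivity
      nlinarith
    calc ‖m‖ ^ 4 * (q * (v + (q - 1) * S)) = (‖m‖ ^ 4 * q) * v + (‖m‖ ^ 4 * (q * (q - 1))) * S := by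
          ring
      _ ≤ 1 / 2 * v + 1 * S :=
          add_le_add (mul_le_mul_of_nonneg_right a1 hv0) (mul_le_mul_of_nonneg_right a2 hS0)
      _ = v / 2 + S := by ring
  have h11 : ‖m‖ ^ 4 * ∑ k : Fin q, EW n (q + 1) w (fun ω => ∑ l : Fin q,
      (tt z ω 0 k.castSucc * starRingEnd ℂ (tt z ω 0 l.castSucc)).re) ≤ v / 2 + S :=
    (mul_le_mul_of_nonneg_left h9 (by positivity)).trans h10
  linarith

/-- **The core inequality.** -/
theorem os_core (hq : 2 ≤ q) (hn : 0 < n) (hw : ∀ G, 0 ≤ w G) (z : ℂ) {c X R : ℝ}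
    (hc : 0 < c) (hc1 : c ≤ 1) (hgap : c ≤ ‖1 - (q : ℂ) * mm (q + 1) z ^ 2‖)
    (hm : (q : ℝ) * ‖mm (q + 1) z‖ ^ 2 ≤ 1) (hR : 0 ≤ R)
    (hS : ∀ k l : Fin (q + 1), k ≠ l →
      EW n (q + 1) w (fun ω => (tt z ω 0 k * starRingEnd ℂ (tt z ω 0 l)).re) ≤
        IW n (q + 1) w z + vW n (q + 1) w z / 18 + R)
    (hX : EW n (q + 1) w (fun ω => ‖QQ z ω 0‖ ^ 2) ≤ X) :
    vW n (q + 1) w z ≤ 4 * R + 48 / c ^ 2 * X := by
  set v := vW n (q + 1) w z with hv
  set I := IW n (q + 1) w z with hI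
  have hv0 : 0 ≤ v := vW_nonneg hw z
  have hI0 : 0 ≤ I := IW_nonneg hw z
  have hX0 : 0 ≤ X := (EW_nonneg hw fun ω _ => sq_nonneg _).trans hX
  have h1 := vW_le hq hn hw z hm (S := I + v / 18 + R) (by positivity) hS hX
  have h2 := IW_le hn hw z hc hgap hX (lam := c / 9) (by positivity)
  rw [← hv] at h1
  rw [← hv, ← hI] at h2
  have h3 : I ≤ v / 18 + 9 / (2 * c ^ 2) * X := by
    have h4 : c * I ≤ c * (v / 18 + 9 / (2 * c ^ 2) * X) := by
      refine h2.trans (le_of_eq ?_)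
      field_simp
      ring
    exact le_of_mul_le_mul_left h4 hc
  have h5 : 9 * X ≤ 9 / c ^ 2 * X := by
    refine mul_le_mul_of_nonneg_right ?_ hX0
    rw [le_div_iff₀ (by positivity)]
    have : c ^ 2 ≤ 1 := pow_le_one₀ hc.le hc1
    linarith
  have h6 : 0 ≤ X / c ^ 2 := by positivity
  have e1 : 9 / (2 * c ^ 2) * X = 9 / 2 * (X / c ^ 2) := by
    field_simp
  have e2 : 9 / c ^ 2 * X = 9 * (X / c ^ 2) := by ring
  have e3 : 48 / c ^ 2 * X = 48 * (X / c ^ 2) := by ring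
  rw [e1] at h3
  rw [e2] at h5
  rw [e3]
  nlinarith

end

end Vale.Agent.P156.FE
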