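import Vale.Agent.P156.H894.FE8V
import Vale.Agent.P156.H703.VG
import Vale.Agent.P156.FE.Spec2

/-! # FE8: the one-step inequality -/

open MeasureTheory Filter Topology Matrix Finset

namespace Vale.Agent.P156.FE

noncomputable section

/-- Typical lead matrices at `z'`. -/
def gRho (d : ℕ) (c₁ : ℝ) (z' : ℂ) (M : Matrix (Fin 2 × Fin d) (Fin 2 × Fin d) ℂ) : Prop :=
  min 1 (∑ a, ∑ b, ‖M a b - (if a = b then mm d z' else 0)‖ ^ 2) ≤ c₁

lemma gRho_perm {d : ℕ} {c₁ : ℝ} {z' : ℂ} (σ : Equiv.Perm (Fin 2 × Fin d))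
    (M : Matrix (Fin 2 × Fin d) (Fin 2 × Fin d) ℂ) :
    gRho d c₁ z' (M.submatrix σ σ) ↔ gRho d c₁ z' M := by
  unfold gRho
  have h : ∑ a, ∑ b, ‖M.submatrix σ σ a b - (if a = b then mm d z' else 0)‖ ^ 2 =
      ∑ a, ∑ b, ‖M a b - (if a = b then mm d z' else 0)‖ ^ 2 := by
    rw [← Equiv.sum_comp σ (fun a => ∑ b, ‖M a b - (if a = b then mm d z' else 0)‖ ^ 2)]
    refine Finset.sum_congr rfl fun a _ => ?_
    rw [← Equiv.sum_comp σ (fun b => ‖M (σ a) b - (if σ a = b then mm d z' else 0)‖ ^ 2)]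
    refine Finset.sum_congr rfl fun b _ => ?_
    simp only [Matrix.submatrix_apply, σ.injective.eq_iff]
  rw [h]

/-- The bad part is small. -/
lemma bdE_le {n d : ℕ} (hn : 0 < n) {w : SimpleGraph (Fin n) → ℝ} (hw : ∀ G, 0 ≤ w G) {c₁ : ℝ}
    (hc₁ : 0 < c₁) (z' : ℂ) :
    bdE n d w z' (gRho d c₁ z') ≤ c₁⁻¹ * XW n d w z' +
      ((2 ^ 2 * (d + 1) ^ 2 : ℕ) : ℝ) * MW n d w / n := by
  classical
  have h1 : bdE n d w z' (gRho d c₁ z') ≤
      EW n d w (fun ω => c₁⁻¹ * rho ω z' + if ω ∈ ZZs n d 2 then 0 else 1) := by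
    refine EW_mono hw fun ω _ => ?_
    have h0 : 0 ≤ c₁⁻¹ * rho ω z' := mul_nonneg (by positivity) (rho_nonneg ω z')
    by_cases hZ : ω ∈ ZZs n d 2
    · by_cases hg : gRho d c₁ z' (leadMat ω z')
      · rw [if_pos ⟨hZ, hg⟩, if_pos hZ, add_zero]
        exact h0
      · rw [if_neg (fun h => hg h.2), if_pos hZ, add_zero]
        have h2 : c₁ < rho ω z' := lt_of_not_ge hg
        rw [inv_mul_eq_div, le_div_iff₀ hc₁]
        linarith
    · rw [if_neg (fun h => hZ h.1), if_neg hZ]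
      linarith
  rw [EW_add, EW_smul] at h1
  have h2 : EW n d w (fun ω => if ω ∈ ZZs n d 2 then (0 : ℝ) else 1) ≤
      ((2 ^ 2 * (d + 1) ^ 2 : ℕ) : ℝ) * MW n d w / n := by
    convert EW_bad_le (d := d) hn hw
  exact h1.trans (add_le_add le_rfl h2)

/-- Final arithmetic. -/
lemma os_arith {K₂ Ce CG H B e MW' XW' XH bd gd N Cd c₁ X : ℝ} {κe : ℕ} (hK₂ : 1 ≤ K₂)
    (hCe : 1 ≤ Ce) (hCG : 1 ≤ CG) (hH : 1 ≤ H) (hB : 0 ≤ B) (he : 0 < e) (he1 : e ≤ 1)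
    (hN : 0 < N) (hM : 0 ≤ MW') (hX' : 0 ≤ XW') (hCd : 0 ≤ Cd)
    (hgd : gd ≤ Ce * (CG * H) ^ κe * (MW' / (N * e) + B / (N * e) * XW'))
    (hbd : bd ≤ c₁ * XH + Cd * MW' / N)
    (hX : X ≤ K₂ * ((CG * H) ^ 4 * gd + (bd + B / (N * e) * XW'))) :
    X ≤ K₂ * c₁ * XH + K₂ * (Ce * CG ^ (κe + 4) + Cd + 1) * H ^ (κe + 4) * (1 + B) *
      (MW' + XW') / (N * e) := by
  have hNe : 0 < N * e := by positivity
  have hK0 : 0 ≤ K₂ := by linarith
  have hCG0 : 0 < CG := by linarith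
  have hH0 : 0 < H := by linarith
  have hCe0 : 0 < Ce := by linarith
  set S := (1 + B) * (MW' + XW') / (N * e) with hS
  have hS0 : 0 ≤ S := by positivity
  have hHk : 1 ≤ H ^ (κe + 4) := one_le_pow₀ hH
  have h1 : MW' / (N * e) + B / (N * e) * XW' ≤ S := by
    rw [hS, div_mul_eq_mul_div, ← add_div]
    refine div_le_div_of_nonneg_right ?_ hNe.le
    nlinarith [mul_nonneg hB hM]
  have h2 : B / (N * e) * XW' ≤ S := by
    have : 0 ≤ MW' / (N * e) := by positivity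
    linarith
  have h3 : Cd * MW' / N ≤ Cd * S := by
    rw [mul_div_assoc]
    refine mul_le_mul_of_nonneg_left ?_ hCd
    have h4 : MW' / N ≤ MW' / (N * e) := by
      refine div_le_div_of_nonneg_left hM hNe ?_
      nlinarith
    have h5 : 0 ≤ B / (N * e) * XW' := by positivity
    linarith
  have h6 : (CG * H) ^ 4 * gd ≤ Ce * CG ^ (κe + 4) * H ^ (κe + 4) * S := by
    calc (CG * H) ^ 4 * gd
        ≤ (CG * H) ^ 4 * (Ce * (CG * H) ^ κe * (MW' / (N * e) + B / (N * e) * XW')) :=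
          mul_le_mul_of_nonneg_left hgd (by positivity)
      _ ≤ (CG * H) ^ 4 * (Ce * (CG * H) ^ κe * S) := by gcongr
      _ = Ce * CG ^ (κe + 4) * H ^ (κe + 4) * S := by
          rw [mul_pow, mul_pow, pow_add, pow_add]
          ring
  have h7 : (Cd + 1) * S ≤ (Cd + 1) * H ^ (κe + 4) * S := by
    have : (Cd + 1) * 1 ≤ (Cd + 1) * H ^ (κe + 4) :=
      mul_le_mul_of_nonneg_left hHk (by positivity)
    rw [mul_one] at this
    exact mul_le_mul_of_nonneg_right this hS0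
  calc X ≤ K₂ * ((CG * H) ^ 4 * gd + (bd + B / (N * e) * XW')) := hX
    _ ≤ K₂ * (Ce * CG ^ (κe + 4) * H ^ (κe + 4) * S + ((c₁ * XH + Cd * S) + S)) := by
        refine mul_le_mul_of_nonneg_left ?_ hK0
        linarith
    _ ≤ K₂ * (Ce * CG ^ (κe + 4) * H ^ (κe + 4) * S + (c₁ * XH + (Cd + 1) * H ^ (κe + 4) * S)) := by
        refine mul_le_mul_of_nonneg_left ?_ hK0
        linarith
    _ = K₂ * c₁ * XH + K₂ * (Ce * CG ^ (κe + 4) + Cd + 1) * H ^ (κe + 4) * (1 + B) *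
        (MW' + XW') / (N * e) := by
        rw [hS]
        ring

/-- Arithmetic: from the coordinate to the deviation. -/
lemma os_arith2 {k v gd bd bX B4 K₁ P2 X : ℝ} (hk : 0 ≤ k) (hP2 : 0 ≤ P2) (hgd0 : 0 ≤ gd)
    (hbd0 : 0 ≤ bd) (hbX : 0 ≤ bX) (hB4 : 1 ≤ B4)
    (hX : X ≤ k * v + P2 * gd + bd) (hv : v ≤ K₁ * (B4 * gd + (bd + bX))) :
    X ≤ (k * K₁ + P2 + 1) * (B4 * gd + (bd + bX)) := by
  have hgP : gd ≤ B4 * gd + (bd + bX) := by
    have : gd ≤ B4 * gd := le_mul_of_one_le_left hgd0 hB4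
    linarith
  have hbP : bd ≤ B4 * gd + (bd + bX) := by
    have : 0 ≤ B4 * gd := by positivity
    linarith
  have a1 : k * v ≤ k * (K₁ * (B4 * gd + (bd + bX))) := mul_le_mul_of_nonneg_left hv hk
  have a2 : P2 * gd ≤ P2 * (B4 * gd + (bd + bX)) := mul_le_mul_of_nonneg_left hgP hP2
  calc X ≤ k * v + P2 * gd + bd := hX
    _ ≤ k * (K₁ * (B4 * gd + (bd + bX))) + P2 * (B4 * gd + (bd + bX)) +
        (B4 * gd + (bd + bX)) := by linarith
    _ = _ := by ring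

/-- The comparison of the averaged deviation with the second moment of the coordinate. -/
def PieceY (d : ℕ) : Prop :=
  ∀ {n : ℕ}, 0 < n → ∀ {w : SimpleGraph (Fin n) → ℝ}, (∀ G, 0 ≤ w G) → ∀ {E η : ℝ}, 0 < η →
    ∀ {C : ℝ}, 1 ≤ C →
    (∀ h : ℂ, 0 ≤ h.im → C⁻¹ * min 1 ‖h - mm d (zz E η)‖ ≤ ‖TT (mm d (zz E η)) h‖) →
    (∀ h h' : ℂ, 0 ≤ h.im → 0 ≤ h'.im →
      ‖TT (mm d (zz E η)) h - TT (mm d (zz E η)) h'‖ ≤ C * ‖h - h'‖) →
    ∀ (z' : ℂ) (g : Matrix (Fin 2 × Fin d) (Fin 2 × Fin d) ℂ → Prop),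
    XW n d w (zz E η) ≤ 4 * d * C ^ 2 * vW n d w (zz E η) +
      (2 * C ^ 4 + 1) * gdE n d w (zz E η) z' g + bdE n d w z' g

/-- **FE8: the one-step inequality.** -/
theorem specOS_of {d : ℕ} {a b : ℝ} (hd : 3 ≤ d) (hM : SpecM d a b) (hT : SpecT d a b)
    (hGrow : SpecGrow d a b) (hComp : SpecComp d a b) (hErr : SpecErr d) (hPX : PieceX d)
    (hPY : PieceY d) : SpecOS d a b := by
  obtain ⟨q, rfl⟩ : ∃ q, d = q + 1 := ⟨d - 1, by omega⟩
  have hq : 2 ≤ q := by omega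
  obtain ⟨C, c, hC, hc, hc1, hTF⟩ := exists_TF hT hM
  obtain ⟨C₃, hC₃, hvG⟩ := vG_le (by omega) hT hComp
  obtain ⟨c₁, hc₁, CG, hCG, hG⟩ := hGrow 2
  obtain ⟨Ce, κe, hCe, hE⟩ := hErr
  obtain ⟨ε₁, hε₁, K₁, hK₁, hV⟩ := vW_final hq hPX hC hc hC₃
  set K₂ : ℝ := 4 * ((q + 1 : ℕ) : ℝ) * C ^ 2 * K₁ + (2 * C ^ 4 + 1) + 1 with hK₂
  have hK₂1 : 1 ≤ K₂ := by
    have : 0 ≤ 4 * ((q + 1 : ℕ) : ℝ) * C ^ 2 * K₁ + (2 * C ^ 4 + 1) := by positivity
    linarith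
  set Cd : ℝ := ((2 ^ 2 * (q + 1 + 1) ^ 2 : ℕ) : ℝ) with hCd
  have hCd0 : 0 ≤ Cd := Nat.cast_nonneg _
  refine ⟨ε₁, hε₁, max 1 (max (K₂ * c₁⁻¹) (K₂ * (Ce * CG ^ (κe + 4) + Cd + 1))), κe + 4,
    le_max_left _ _, ?_⟩
  intro n hn E hEab η H B hη hnη hH hHη hB w w' hW hsupp
  have hn0 : 0 < n := by
    have := hn.1
    omega
  have hη1 : η ≤ 1 := by nlinarith
  have hnη0 : (0 : ℝ) < n * η := by linarith
  have hBdG : 1 ≤ CG * H := by nlinarith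
  have hbdd : ∀ ω ∈ ZZs n (q + 1) 2, gRho (q + 1) c₁ (zz E (H * η))
      (leadMat ω (zz E (H * η))) → Bdd ω (zz E η) (CG * H) := by
    intro ω hω hg
    obtain ⟨g1, g2, g3, g4, g5, g6, -⟩ := hG n ω hω E hEab η H hη hH hHη hg
    exact ⟨g1, g2, g3, g4, g5, g6⟩
  have hctx : Ctx n q E η C c (CG * H) (B / (n * η)) (zz E (H * η))
      (gRho (q + 1) c₁ (zz E (H * η))) w w' :=
    ⟨hn0, hη, hTF E hEab η hη hη1, gRho_perm, hBdG, by positivity, hbdd, hW⟩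
  have hv := hV n E η (CG * H) (B / (n * η)) (zz E (H * η)) _ w w' hctx (fun G hG' hne => by
    refine (hvG n hn0 G hG' E hEab η hη hη1).trans ?_
    exact mul_le_mul_of_nonneg_left (hsupp G hG' hne) (by linarith))
  have herr := hE n hn0 E η hη hη1 (zz E (H * η)) (gRho (q + 1) c₁ (zz E (H * η))) gRho_perm
    (CG * H) (B / (n * η)) hBdG (by positivity) hbdd w w' hW
  have hgd : gdE n (q + 1) w (zz E η) (zz E (H * η)) (gRho (q + 1) c₁ (zz E (H * η))) ≤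
      Ce * (CG * H) ^ κe * (MW n (q + 1) w / (n * η) +
        B / (n * η) * XW n (q + 1) w' (zz E η)) := by
    unfold gdE EW
    exact herr
  have hbd := bdE_le (d := q + 1) hn0 hW.nonneg hc₁ (zz E (H * η))
  have hXW := hPY (n := n) hn0 hW.nonneg hη hC (hTF E hEab η hη hη1).low
    (hTF E hEab η hη hη1).lip (zz E (H * η)) (gRho (q + 1) c₁ (zz E (H * η)))
  have hgd0 := gdE_nonneg (d := q + 1) hW.nonneg (zz E η) (zz E (H * η))
    (gRho (q + 1) c₁ (zz E (H * η)))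
  have hbd0 := bdE_nonneg (d := q + 1) hW.nonneg (zz E (H * η))
    (gRho (q + 1) c₁ (zz E (H * η)))
  have hX'0 := XW_nonneg (d := q + 1) hW.nonneg' (zz E η)
  have hXH0 := XW_nonneg (d := q + 1) hW.nonneg (zz E (H * η))
  have hM0 : 0 ≤ MW n (q + 1) w := H490.avg_nonneg fun G _ => hW.nonneg G
  have hbX0 : 0 ≤ B / (n * η) * XW n (q + 1) w' (zz E η) := by positivity
  have hB4 : 1 ≤ (CG * H) ^ 4 := one_le_pow₀ hBdG
  have hX2 := os_arith2 (k := 4 * ((q + 1 : ℕ) : ℝ) * C ^ 2) (P2 := 2 * C ^ 4 + 1)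
    (by positivity) (by positivity) hgd0 hbd0 hbX0 hB4 hXW hv
  have hfin := os_arith (κe := κe) hK₂1 hCe hCG hH hB hη hη1 (by exact_mod_cast hn0) hM0 hX'0
    hCd0 hgd hbd hX2
  refine hfin.trans (add_le_add ?_ ?_)
  · exact mul_le_mul_of_nonneg_right ((le_max_left _ _).trans (le_max_right _ _)) hXH0
  · refine div_le_div_of_nonneg_right ?_ hnη0.le
    have h0 : 0 ≤ H ^ (κe + 4) := by positivity
    have h1 : 0 ≤ MW n (q + 1) w + XW n (q + 1) w' (zz E η) := by positivity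
    have h2 : K₂ * (Ce * CG ^ (κe + 4) + Cd + 1) ≤
        max 1 (max (K₂ * c₁⁻¹) (K₂ * (Ce * CG ^ (κe + 4) + Cd + 1))) :=
      (le_max_right _ _).trans (le_max_right _ _)
    have h3 : 0 ≤ 1 + B := by linarith
    gcongr

end

end Vale.Agent.P156.FE
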