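import Vale.Agent.P156.H894.FE8A

/-! # FE8: the entry of the directed edge from the last lead to the centre -/

open MeasureTheory Filter Topology Matrix Finset

namespace Vale.Agent.P156.FE

noncomputable section

open H801 in
/-- Quadratic forms of the resolvent with real vectors have nonnegative imaginary part. -/
lemma im_sum_resD_nonneg {V ι : Type*} [Fintype V] [DecidableEq V] [Fintype ι]
    {A : Matrix V V ℝ} (hA : A.IsHermitian) {D : Finset V} (E : ℝ) {η : ℝ} (hη : 0 < η)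
    {x : ι → V} (hx : ∀ k, x k ∉ D) :
    0 ≤ (∑ k, ∑ k', resD A D (E + η * Complex.I) (x k) (x k')).im := by
  have hz : ((E : ℂ) + η * Complex.I).im ≠ 0 := by simp [hη.ne']
  have h1 : ∀ k k', (resD A D (E + η * Complex.I) (x k) (x k')).im =
      ∑ i, (ev (zo_herm hA D) i (x k) * ev (zo_herm hA D) i (x k')) *
        pk η ((zo_herm hA D).eigenvalues i - E) := by
    intro k k'
    rw [resD_apply hA (fun i => eig_sub_ne hA D hz i) (hx k) (hx k'), hh_im]
  have h2 : (∑ k, ∑ k', resD A D (E + η * Complex.I) (x k) (x k')).im =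
      ∑ i, (∑ k, ev (zo_herm hA D) i (x k)) ^ 2 * pk η ((zo_herm hA D).eigenvalues i - E) := by
    rw [Complex.im_sum]
    simp only [Complex.im_sum, h1]
    rw [Finset.sum_congr rfl fun k _ => Finset.sum_comm, Finset.sum_comm]
    refine Finset.sum_congr rfl fun i _ => ?_
    rw [sq, Finset.sum_mul_sum, Finset.sum_mul]
    refine Finset.sum_congr rfl fun k _ => ?_
    rw [Finset.sum_mul]
  rw [h2]
  exact Finset.sum_nonneg fun i _ => mul_nonneg (sq_nonneg _) (pk_nonneg hη.le _)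

variable {n d K : ℕ}

lemma centres_sub1 (ω : SimpleGraph (Fin n) × StarPos n d K) (j : Fin K) :
    centres (sub1 ω j) = {ω.2.1 j} := by
  classical
  unfold centres sub1
  ext v
  simp

/-- The lead matrix of a single star. -/
lemma sub1_lead (ω : SimpleGraph (Fin n) × StarPos n d K) (z : ℂ) (j : Fin K) (p r : Fin d) :
    leadMat (sub1 ω j) z (0, p) (0, r) =
      resD (adj ω.1) {ω.2.1 j} z (ω.2.2 j p) (ω.2.2 j r) := by
  unfold leadMat
  rw [centres_sub1]
  rfl

lemma hc_eq_sub1 (ω : SimpleGraph (Fin n) × StarPos n d K) (z : ℂ) (j : Fin K) (k : Fin d) :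
    hc ω.1 z (ω.2.1 j, ω.2.2 j k) = leadMat (sub1 ω j) z (0, k) (0, k) := by
  rw [sub1_lead]
  rfl

section

variable {q : ℕ}

/-- The denominator of the recursion in terms of the lead matrix of the star. -/
lemma gA_eq {ω : SimpleGraph (Fin n) × StarPos n (q + 1) K} (hω : ω ∈ ZZs n (q + 1) K)
    (E : ℝ) {η : ℝ} (hη : 0 < η) (j : Fin K) :
    B.gA ω (zz E η) j = zz E η + ∑ k : Fin q, ∑ k' : Fin q,
      (leadMat (sub1 ω j) (zz E η) (0, k.castSucc) (0, k'.castSucc) -
        leadMat (sub1 ω j) (zz E η) (0, k.castSucc) (0, Fin.last q) *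
        leadMat (sub1 ω j) (zz E η) (0, Fin.last q) (0, k'.castSucc) *
        (leadMat (sub1 ω j) (zz E η) (0, Fin.last q) (0, Fin.last q))⁻¹) := by
  have hz : (zz E η).im ≠ 0 := B.im_ne hη
  have hA := adj_isHermitian ω.1
  have hinj := H520.ZZs_injl hω
  have hne : ∀ k : Fin q, P156.lead ω (j, k.castSucc) ≠ P156.lead ω (j, Fin.last q) := by
    intro k hcon
    have := hinj (a₁ := (j, k.castSucc)) (a₂ := (j, Fin.last q)) hcon
    rw [Prod.mk.injEq] at this
    exact (Fin.castSucc_lt_last k).ne this.2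
  have hnc : ∀ p, P156.lead ω p ∉ ({ω.2.1 j} : Finset (Fin n)) := by
    intro p
    rw [Finset.mem_singleton]
    exact H520.ZZs_ne hω p.1 p.2 j
  unfold B.gA
  congr 1
  refine Finset.sum_congr rfl fun k _ => Finset.sum_congr rfl fun k' _ => ?_
  have hy : P156.lead ω (j, k'.castSucc) ∉
      insert (P156.lead ω (j, Fin.last q)) ({ω.2.1 j} : Finset (Fin n)) := by
    rw [Finset.mem_insert, not_or]
    exact ⟨hne k', hnc _⟩
  have h1 := B.resD_sub hA hz (hnc (j, Fin.last q)) (P156.lead ω (j, k.castSucc)) hy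
  have h2 := B.resD_row hA hz (hnc (j, Fin.last q)) hy
  have hvv : resD (adj ω.1) {ω.2.1 j} (zz E η) (P156.lead ω (j, Fin.last q))
      (P156.lead ω (j, Fin.last q)) ≠ 0 := by
    intro hcon
    have h3 := H801.im_resD_diag_pos hA E hη (hnc (j, Fin.last q))
    have h4 : ((E : ℂ) + η * Complex.I) = zz E η := rfl
    rw [h4, hcon] at h3
    simp at h3
  simp only [sub1_lead]
  set S := ∑ b, (adj ω.1 (P156.lead ω (j, Fin.last q)) b : ℂ) *
    resD (adj ω.1) (insert (P156.lead ω (j, Fin.last q)) {ω.2.1 j}) (zz E η) b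
      (P156.lead ω (j, k'.castSucc)) with hS
  have h5 : S = -(resD (adj ω.1) {ω.2.1 j} (zz E η) (P156.lead ω (j, Fin.last q))
      (P156.lead ω (j, k'.castSucc)) * (resD (adj ω.1) {ω.2.1 j} (zz E η)
      (P156.lead ω (j, Fin.last q)) (P156.lead ω (j, Fin.last q)))⁻¹) := by
    rw [h2]
    field_simp
  have h6 : resD (adj ω.1) (insert (P156.lead ω (j, Fin.last q)) {ω.2.1 j}) (zz E η)
      (P156.lead ω (j, k.castSucc)) (P156.lead ω (j, k'.castSucc)) =
      resD (adj ω.1) {ω.2.1 j} (zz E η)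
      (P156.lead ω (j, k.castSucc)) (P156.lead ω (j, k'.castSucc)) +
      resD (adj ω.1) {ω.2.1 j} (zz E η) (P156.lead ω (j, k.castSucc))
        (P156.lead ω (j, Fin.last q)) * S := by
    linear_combination -h1
  rw [h6, h5]
  simp only [P156.lead]
  ring

/-- The sum which appears in the denominator has nonnegative imaginary part. -/
lemma im_gA_sub_nonneg {ω : SimpleGraph (Fin n) × StarPos n (q + 1) K}
    (hω : ω ∈ ZZs n (q + 1) K) (E : ℝ) {η : ℝ} (hη : 0 < η) (j : Fin K) :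
    0 ≤ (B.gA ω (zz E η) j - zz E η).im := by
  have hinj := H520.ZZs_injl hω
  unfold B.gA
  rw [add_sub_cancel_left]
  refine im_sum_resD_nonneg (adj_isHermitian ω.1) E hη (fun k => ?_)
  rw [Finset.mem_insert, Finset.mem_singleton, not_or]
  refine ⟨fun hcon => ?_, H520.ZZs_ne hω j k.castSucc j⟩
  have := hinj (a₁ := (j, k.castSucc)) (a₂ := (j, Fin.last q)) hcon
  rw [Prod.mk.injEq] at this
  exact (Fin.castSucc_lt_last k).ne this.2

/-- The entry of the edge from the last lead to the centre. -/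
lemma hc_last {ω : SimpleGraph (Fin n) × StarPos n (q + 1) K}
    (hω : ω ∈ ZZs n (q + 1) K) (E : ℝ) {η : ℝ} (hη : 0 < η) (j : Fin K) :
    hc ω.1 (zz E η) (ω.2.2 j (Fin.last q), ω.2.1 j) =
      -1 / (zz E η + (B.gA ω (zz E η) j - zz E η)) := by
  have h := B.hc_eA_mul hω (z := zz E η) (B.im_ne hη) j
  have hg0 : B.gA ω (zz E η) j ≠ 0 := by
    intro hcon
    rw [hcon, mul_zero] at h
    norm_num at h
  rw [add_sub_cancel, eq_div_iff hg0]
  exact h

/-- Distance of the denominator from the sum of the diagonal entries. -/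
lemma norm_gA_sub_le {ω : SimpleGraph (Fin n) × StarPos n (q + 1) K}
    (hω : ω ∈ ZZs n (q + 1) K) (E : ℝ) {η : ℝ} (hη : 0 < η) (j : Fin K) {Bd : ℝ} (hB1 : 1 ≤ Bd)
    (hB : ∀ p r, ‖leadMat (sub1 ω j) (zz E η) p r‖ ≤ Bd)
    (hB' : ∀ p, ‖(leadMat (sub1 ω j) (zz E η) p p)⁻¹‖ ≤ Bd) :
    ‖(B.gA ω (zz E η) j - zz E η) -
      ∑ k : Fin q, leadMat (sub1 ω j) (zz E η) (0, k.castSucc) (0, k.castSucc)‖ ≤
    (q + 1) * Bd ^ 2 * ∑ p, ∑ r, if p = r then 0 else
      ‖leadMat (sub1 ω j) (zz E η) (0, p) (0, r)‖ := by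
  have hB0 : 0 ≤ Bd := zero_le_one.trans hB1
  set A := fun p r : Fin (q + 1) => leadMat (sub1 ω j) (zz E η) (0, p) (0, r) with hA
  have e0 : (B.gA ω (zz E η) j - zz E η) -
      ∑ k : Fin q, leadMat (sub1 ω j) (zz E η) (0, k.castSucc) (0, k.castSucc) =
      ∑ k : Fin q, ∑ k' : Fin q, ((if k = k' then 0 else A k.castSucc k'.castSucc) -
        A k.castSucc (Fin.last q) * A (Fin.last q) k'.castSucc * (A (Fin.last q) (Fin.last q))⁻¹) := by
    rw [gA_eq hω E hη j, add_sub_cancel_left, ← Finset.sum_sub_distrib]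
    refine Finset.sum_congr rfl fun k _ => ?_
    have h1 : leadMat (sub1 ω j) (zz E η) (0, k.castSucc) (0, k.castSucc) =
        ∑ k' : Fin q, if k = k' then A k.castSucc k'.castSucc else 0 := by
      rw [Finset.sum_ite_eq, if_pos (Finset.mem_univ k)]
    rw [h1, ← Finset.sum_sub_distrib]
    refine Finset.sum_congr rfl fun k' _ => ?_
    simp only [hA]
    split_ifs <;> ring
  rw [e0]
  have h0 : ∀ p r : Fin (q + 1), 0 ≤ (if p = r then 0 else ‖A p r‖) := by
    intro p r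
    split_ifs
    · exact le_rfl
    · exact norm_nonneg _
  have hoff0 : ∀ p : Fin (q + 1), 0 ≤ ∑ r, (if p = r then 0 else ‖A p r‖) :=
    fun p => Finset.sum_nonneg fun r _ => h0 p r
  have h2 : ‖∑ k : Fin q, ∑ k' : Fin q, ((if k = k' then 0 else A k.castSucc k'.castSucc) -
        A k.castSucc (Fin.last q) * A (Fin.last q) k'.castSucc * (A (Fin.last q) (Fin.last q))⁻¹)‖ ≤
      ∑ k : Fin q, ∑ k' : Fin q, ((if k = k' then 0 else ‖A k.castSucc k'.castSucc‖) +
        Bd ^ 2 * ‖A k.castSucc (Fin.last q)‖) := by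
    refine (norm_sum_le _ _).trans (Finset.sum_le_sum fun k _ => ?_)
    refine (norm_sum_le _ _).trans (Finset.sum_le_sum fun k' _ => ?_)
    refine (norm_sub_le _ _).trans (add_le_add ?_ ?_)
    · split_ifs
      · rw [norm_zero]
      · exact le_rfl
    · rw [norm_mul, norm_mul]
      have h3 : ‖A (Fin.last q) k'.castSucc‖ ≤ Bd := hB _ _
      have h4 : ‖(A (Fin.last q) (Fin.last q))⁻¹‖ ≤ Bd := hB' _
      calc ‖A k.castSucc (Fin.last q)‖ * ‖A (Fin.last q) k'.castSucc‖ *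
            ‖(A (Fin.last q) (Fin.last q))⁻¹‖
          ≤ ‖A k.castSucc (Fin.last q)‖ * Bd * Bd := by gcongr
        _ = Bd ^ 2 * ‖A k.castSucc (Fin.last q)‖ := by ring
  refine h2.trans ?_
  simp only [Finset.sum_add_distrib, Finset.sum_const, Finset.card_univ, Fintype.card_fin,
    nsmul_eq_mul]
  have h5 : ∑ k : Fin q, ∑ k' : Fin q, (if k = k' then 0 else ‖A k.castSucc k'.castSucc‖) ≤
      ∑ p, ∑ r, if p = r then 0 else ‖A p r‖ := by
    rw [Fin.sum_univ_castSucc (n := q)]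
    refine le_trans ?_ (le_add_of_nonneg_right (hoff0 _))
    refine Finset.sum_le_sum fun k _ => ?_
    rw [Fin.sum_univ_castSucc (n := q)]
    refine le_trans ?_ (le_add_of_nonneg_right (h0 _ _))
    refine Finset.sum_le_sum fun k' _ => ?_
    by_cases hk : k = k'
    · subst hk
      simp
    · rw [if_neg hk, if_neg (fun h => hk (Fin.castSucc_injective q h))]
  have h6 : ∑ k : Fin q, ‖A k.castSucc (Fin.last q)‖ ≤ ∑ p, ∑ r, if p = r then 0 else ‖A p r‖ := by
    rw [Fin.sum_univ_castSucc (n := q)]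
    refine le_trans ?_ (le_add_of_nonneg_right (hoff0 _))
    refine Finset.sum_le_sum fun k _ => ?_
    have h7 := Finset.single_le_sum (f := fun r => if k.castSucc = r then 0 else ‖A k.castSucc r‖)
      (fun r _ => h0 k.castSucc r) (Finset.mem_univ (Fin.last q))
    rw [if_neg (Fin.castSucc_lt_last k).ne] at h7
    exact h7
  have h8 : ∑ k : Fin q, (q : ℝ) * (Bd ^ 2 * ‖A k.castSucc (Fin.last q)‖) =
      q * Bd ^ 2 * ∑ k : Fin q, ‖A k.castSucc (Fin.last q)‖ := by
    rw [Finset.mul_sum]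
    refine Finset.sum_congr rfl fun k _ => ?_
    ring
  rw [h8]
  have hoff : 0 ≤ ∑ p, ∑ r, (if p = r then 0 else ‖A p r‖) :=
    Finset.sum_nonneg fun p _ => hoff0 p
  have hB2 : 1 ≤ Bd ^ 2 := one_le_pow₀ hB1
  have h9 : (q : ℝ) * Bd ^ 2 * ∑ k : Fin q, ‖A k.castSucc (Fin.last q)‖ ≤
      q * Bd ^ 2 * ∑ p, ∑ r, (if p = r then 0 else ‖A p r‖) :=
    mul_le_mul_of_nonneg_left h6 (by positivity)
  have h10 : ∑ p, ∑ r, (if p = r then 0 else ‖A p r‖) ≤
      Bd ^ 2 * ∑ p, ∑ r, (if p = r then 0 else ‖A p r‖) := le_mul_of_one_le_left hoff hB2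
  calc _ ≤ (∑ p, ∑ r, (if p = r then 0 else ‖A p r‖)) +
        q * Bd ^ 2 * ∑ p, ∑ r, (if p = r then 0 else ‖A p r‖) := add_le_add h5 h9
    _ ≤ (q + 1) * Bd ^ 2 * ∑ p, ∑ r, (if p = r then 0 else ‖A p r‖) := by
        rw [add_mul, add_mul, one_mul, add_comm]
        exact add_le_add le_rfl h10

end

end

end Vale.Agent.P156.FE
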