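import Vale.Agent.P156.H894.FE8A

/-! # FE8: the coordinates of the edges of the two stars -/

open MeasureTheory Filter Topology Matrix Finset

namespace Vale.Agent.P156.FE

noncomputable section

variable {n d : ℕ}

/-- The coordinate `T(h_e)` of the directed edge from the centre of the star `j` to its lead `k`. -/
def tt (z : ℂ) (ω : SimpleGraph (Fin n) × StarPos n d 2) (j : Fin 2) (k : Fin d) : ℂ :=
  TT (mm d z) (hc ω.1 z (ω.2.1 j, ω.2.2 j k))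

/-- The coordinate of the reversed edge. -/
def rr (z : ℂ) (ω : SimpleGraph (Fin n) × StarPos n d 2) (j : Fin 2) (k : Fin d) : ℂ :=
  TT (mm d z) (hc ω.1 z (ω.2.2 j k, ω.2.1 j))

open Classical in
/-- **Piece X** (exchange of a sibling with an independent edge). -/
def PieceX (d : ℕ) : Prop :=
  ∀ n : ℕ, 0 < n → ∀ E η : ℝ, 0 < η → ∀ C : ℝ, 1 ≤ C →
    (∀ h : ℂ, 0 ≤ h.im → ‖TT (mm d (zz E η)) h‖ ≤ C * min 1 ‖h - mm d (zz E η)‖) →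
    (∀ h h' : ℂ, 0 ≤ h.im → 0 ≤ h'.im →
      ‖TT (mm d (zz E η)) h - TT (mm d (zz E η)) h'‖ ≤ C * ‖h - h'‖) →
    ∀ (z' : ℂ) (g : Matrix (Fin 2 × Fin d) (Fin 2 × Fin d) ℂ → Prop),
    (∀ (σ : Equiv.Perm (Fin 2 × Fin d)) (M : Matrix (Fin 2 × Fin d) (Fin 2 × Fin d) ℂ),
      g (M.submatrix σ σ) ↔ g M) →
    ∀ b : ℝ, 0 ≤ b → ∀ w w' : SimpleGraph (Fin n) → ℝ, Wt n d b w w' →
    ∀ (F : ℂ → ℂ → ℝ) (L : ℝ), 0 ≤ L → F 0 0 = 0 →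
    (∀ x y x' y' : ℂ, ‖x‖ ≤ C → ‖y‖ ≤ C → ‖x'‖ ≤ C → ‖y'‖ ≤ C →
      |F x y - F x' y'| ≤ L * (‖x - x'‖ * ‖y‖ + ‖x'‖ * ‖y - y'‖)) →
    ∀ k l : Fin d, k ≠ l → ∀ δ : ℝ, 0 < δ → δ ≤ 1 →
    |EW n d w (fun ω => F (tt (zz E η) ω 0 k) (tt (zz E η) ω 0 l)) -
      EW n d w (fun ω => F (tt (zz E η) ω 0 k) (tt (zz E η) ω 1 l))| ≤
      δ * L * (EW n d w (fun ω => ‖tt (zz E η) ω 0 k‖ ^ 2) +
        EW n d w (fun ω => ‖tt (zz E η) ω 0 l‖ ^ 2) +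
        EW n d w (fun ω => ‖tt (zz E η) ω 1 l‖ ^ 2)) +
      4 * L * C ^ 2 / δ *
        (EW n d w (fun ω => if ω ∈ ZZs n d 2 ∧ g (leadMat ω z') then EE ω (zz E η) else 0) +
         EW n d w (fun ω => if ω ∈ ZZs n d 2 ∧ g (leadMat ω z') then 0 else 1) +
         b * XW n d w' (zz E η))

end

end Vale.Agent.P156.FE
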