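import Vale.Agent.P156.H894.FE8Q
import Vale.Agent.P156.H894.FE8T

/-! # FE8: the remainder `Q` of the linearised recursion -/

open MeasureTheory Filter Topology Matrix Finset

namespace Vale.Agent.P156.FE

noncomputable section

/-- `(∑ f)² ≤ N ∑ f²`. -/
lemma sq_sum_le {ι : Type*} (s : Finset ι) (f : ι → ℝ) :
    (∑ i ∈ s, f i) ^ 2 ≤ s.card * ∑ i ∈ s, f i ^ 2 := sq_sum_le_card_mul_sum_sq

lemma sq_sum_sum_le {ι : Type*} [Fintype ι] (f : ι → ι → ℝ) :
    (∑ i, ∑ j, f i j) ^ 2 ≤ (Fintype.card ι : ℝ) ^ 2 * ∑ i, ∑ j, f i j ^ 2 := by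
  have h1 := sq_sum_le univ (fun i => ∑ j, f i j)
  rw [Finset.card_univ] at h1
  refine h1.trans ?_
  rw [sq (Fintype.card ι : ℝ), mul_assoc]
  refine mul_le_mul_of_nonneg_left ?_ (Nat.cast_nonneg _)
  rw [Finset.mul_sum]
  refine Finset.sum_le_sum fun i _ => ?_
  have h2 := sq_sum_le univ (fun j => f i j)
  rwa [Finset.card_univ] at h2

variable {n d : ℕ}

/-- The off-diagonal entries of the lead matrix of a single star. -/
lemma off_sub_le (ω : SimpleGraph (Fin n) × StarPos n d 2) (z : ℂ) (j : Fin 2) :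
    ∑ p, ∑ r, (if p = r then 0 else ‖leadMat (sub1 ω j) z (0, p) (0, r)‖) ^ 2 ≤ 2 * EE ω z := by
  have h1 : ∑ p, ∑ r, (if p = r then 0 else ‖leadMat (sub1 ω j) z (0, p) (0, r)‖) ^ 2 ≤
      2 * (∑ p, ∑ r, ‖leadMat ω z (j, p) (j, r) - leadMat (sub1 ω j) z (0, p) (0, r)‖ ^ 2 +
        ∑ p, ∑ r, if p = r then 0 else ‖leadMat ω z (j, p) (j, r)‖ ^ 2) := by
    rw [← Finset.sum_add_distrib, Finset.mul_sum]
    refine Finset.sum_le_sum fun p _ => ?_
    rw [← Finset.sum_add_distrib, Finset.mul_sum]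
    refine Finset.sum_le_sum fun r _ => ?_
    split_ifs with h
    · rw [zero_pow two_ne_zero]
      positivity
    · set x := leadMat ω z (j, p) (j, r)
      set y := leadMat (sub1 ω j) z (0, p) (0, r)
      have h2 : ‖y‖ ≤ ‖x - y‖ + ‖x‖ := by
        have := norm_sub_le x (x - y)
        rw [sub_sub_cancel] at this
        linarith
      nlinarith [norm_nonneg y, norm_nonneg x, norm_nonneg (x - y), sq_nonneg (‖x - y‖ - ‖x‖)]
  refine h1.trans ?_
  refine mul_le_mul_of_nonneg_left ?_ (by norm_num)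
  unfold EE
  refine add_le_add ?_ ?_
  · exact Finset.single_le_sum (f := fun j : Fin 2 => ∑ p : Fin d, ∑ r : Fin d,
      ‖leadMat ω z (j, p) (j, r) - leadMat (sub1 ω j) z (0, p) (0, r)‖ ^ 2)
      (fun i _ => Finset.sum_nonneg fun p _ => Finset.sum_nonneg fun r _ => sq_nonneg _)
      (Finset.mem_univ j)
  · have h0 : ∀ a b : Fin 2 × Fin d, 0 ≤ (if a = b then 0 else ‖leadMat ω z a b‖ ^ 2) := by
      intro a b
      split_ifs
      · exact le_rfl
      · positivity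
    have e1 : ∀ a : Fin 2 × Fin d, ∑ r, (if a = (j, r) then 0 else ‖leadMat ω z a (j, r)‖ ^ 2) ≤
        ∑ b, if a = b then 0 else ‖leadMat ω z a b‖ ^ 2 := by
      intro a
      rw [Fintype.sum_prod_type]
      exact Finset.single_le_sum (f := fun i : Fin 2 => ∑ r : Fin d,
        if a = (i, r) then 0 else ‖leadMat ω z a (i, r)‖ ^ 2)
        (fun i _ => Finset.sum_nonneg fun r _ => h0 _ _) (Finset.mem_univ j)
    have e2 : ∑ p : Fin d, ∑ b, (if (j, p) = b then 0 else ‖leadMat ω z (j, p) b‖ ^ 2) ≤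
        ∑ a, ∑ b, if a = b then 0 else ‖leadMat ω z a b‖ ^ 2 := by
      rw [Fintype.sum_prod_type (f := fun a : Fin 2 × Fin d =>
        ∑ b, if a = b then 0 else ‖leadMat ω z a b‖ ^ 2)]
      exact Finset.single_le_sum (f := fun i : Fin 2 => ∑ p : Fin d,
        ∑ b, if (i, p) = b then 0 else ‖leadMat ω z (i, p) b‖ ^ 2)
        (fun i _ => Finset.sum_nonneg fun r _ => Finset.sum_nonneg fun b _ => h0 _ _)
        (Finset.mem_univ j)
    refine le_trans ?_ e2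
    refine Finset.sum_le_sum fun p _ => ?_
    refine le_trans (le_of_eq ?_) (e1 (j, p))
    refine Finset.sum_congr rfl fun r _ => ?_
    by_cases h : p = r
    · subst h
      simp
    · rw [if_neg h, if_neg (fun h' => h (Prod.mk.injEq _ _ _ _ ▸ h').2)]

lemma EE_nonneg (ω : SimpleGraph (Fin n) × StarPos n d 2) (z : ℂ) : 0 ≤ EE ω z := by
  unfold EE
  refine add_nonneg ?_ ?_
  · exact Finset.sum_nonneg fun i _ => Finset.sum_nonneg fun p _ => Finset.sum_nonneg fun r _ =>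
      sq_nonneg _
  · refine Finset.sum_nonneg fun a _ => Finset.sum_nonneg fun b _ => ?_
    split_ifs
    · exact le_rfl
    · positivity

section

variable {q : ℕ}

/-- **The remainder of the linearised recursion.** -/
theorem norm_Q_sq_le {ω : SimpleGraph (Fin n) × StarPos n (q + 1) 2} (hω : ω ∈ ZZs n (q + 1) 2)
    {E η : ℝ} (hη : 0 < η) {C Bd : ℝ} (hC : 1 ≤ C) (hB1 : 1 ≤ Bd)
    (hlip : ∀ s s' : ℂ, 0 ≤ s.im → 0 ≤ s'.im →
      ‖TT (mm (q + 1) (zz E η)) (-1 / (zz E η + s)) -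
        TT (mm (q + 1) (zz E η)) (-1 / (zz E η + s'))‖ ≤ C * ‖s - s'‖)
    (hlin : ∀ h : Fin q → ℂ, (∀ k, 0 ≤ (h k).im) →
      ‖TT (mm (q + 1) (zz E η)) (-1 / (zz E η + ∑ k, h k)) -
        mm (q + 1) (zz E η) ^ 2 * ∑ k, TT (mm (q + 1) (zz E η)) (h k)‖ ≤
        C * ∑ k, ∑ l, if k ≠ l then ‖TT (mm (q + 1) (zz E η)) (h k)‖ *
          ‖TT (mm (q + 1) (zz E η)) (h l)‖ else 0)
    (hB : Bdd ω (zz E η) Bd) (j : Fin 2) :
    ‖rr (zz E η) ω j (Fin.last q) -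
      mm (q + 1) (zz E η) ^ 2 * ∑ k : Fin q, tt (zz E η) ω j k.castSucc‖ ^ 2 ≤
    2 * C ^ 2 * q ^ 2 * (∑ k : Fin q, ∑ l : Fin q, if k ≠ l then
      ‖tt (zz E η) ω j k.castSucc‖ ^ 2 * ‖tt (zz E η) ω j l.castSucc‖ ^ 2 else 0) +
    4 * C ^ 2 * (q + 1) ^ 4 * Bd ^ 4 * EE ω (zz E η) := by
  have hC0 : 0 ≤ C := zero_le_one.trans hC
  have hB0 : 0 ≤ Bd := zero_le_one.trans hB1
  set z := zz E η with hz
  set m := mm (q + 1) z with hm
  have him : ∀ k : Fin q, 0 ≤ (leadMat (sub1 ω j) z (0, k.castSucc) (0, k.castSucc)).im := by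
    intro k
    rw [sub1_lead]
    exact H801.im_resD_diag_nonneg (adj_isHermitian ω.1) _ E hη _
  have h1 := norm_gA_sub_le hω E hη j hB1 (fun p r => hB.sub j p r) (fun p => hB.subinv j p)
  have h2 := hlip _ _ (im_gA_sub_nonneg hω E hη j)
    (by rw [Complex.im_sum]; exact Finset.sum_nonneg fun k _ => him k :
      0 ≤ (∑ k : Fin q, leadMat (sub1 ω j) z (0, k.castSucc) (0, k.castSucc)).im)
  rw [← hc_last hω E hη j] at h2
  have h3 := hlin (fun k => leadMat (sub1 ω j) z (0, k.castSucc) (0, k.castSucc)) him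
  set OFF := ∑ p, ∑ r, (if p = r then 0 else ‖leadMat (sub1 ω j) z (0, p) (0, r)‖) with hOFF
  have hOFF0 : 0 ≤ OFF := by
    refine Finset.sum_nonneg fun p _ => Finset.sum_nonneg fun r _ => ?_
    split_ifs
    · exact le_rfl
    · exact norm_nonneg _
  have htt : ∀ k : Fin (q + 1), tt z ω j k = TT m (leadMat (sub1 ω j) z (0, k) (0, k)) := by
    intro k
    unfold tt
    rw [hc_eq_sub1]
  simp only [htt]
  set T := fun k : Fin q => TT m (leadMat (sub1 ω j) z (0, k.castSucc) (0, k.castSucc)) with hT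
  set P := ∑ k : Fin q, ∑ l : Fin q, (if k ≠ l then ‖T k‖ * ‖T l‖ else 0) with hP
  have h4 : ‖rr z ω j (Fin.last q) - m ^ 2 * ∑ k : Fin q, T k‖ ≤
      C * ((q + 1) * Bd ^ 2 * OFF) + C * P := by
    have e : rr z ω j (Fin.last q) - m ^ 2 * ∑ k : Fin q, T k =
        (rr z ω j (Fin.last q) - TT m (-1 / (z + ∑ k : Fin q,
          leadMat (sub1 ω j) z (0, k.castSucc) (0, k.castSucc)))) +
        (TT m (-1 / (z + ∑ k : Fin q,
          leadMat (sub1 ω j) z (0, k.castSucc) (0, k.castSucc))) - m ^ 2 * ∑ k : Fin q, T k) := by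
      ring
    rw [e]
    refine (norm_add_le _ _).trans (add_le_add ?_ h3)
    exact h2.trans (mul_le_mul_of_nonneg_left h1 hC0)
  have hP0 : 0 ≤ P := by
    refine Finset.sum_nonneg fun p _ => Finset.sum_nonneg fun r _ => ?_
    split_ifs
    · positivity
    · exact le_rfl
  have h5 : P ^ 2 ≤ q ^ 2 * ∑ k : Fin q, ∑ l : Fin q,
      (if k ≠ l then ‖T k‖ ^ 2 * ‖T l‖ ^ 2 else 0) := by
    have := sq_sum_sum_le (fun k l : Fin q => if k ≠ l then ‖T k‖ * ‖T l‖ else 0)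
    rw [Fintype.card_fin] at this
    refine this.trans (mul_le_mul_of_nonneg_left (le_of_eq ?_) (by positivity))
    refine Finset.sum_congr rfl fun k _ => Finset.sum_congr rfl fun l _ => ?_
    split_ifs
    · ring
    · ring
  have h6 : OFF ^ 2 ≤ (q + 1) ^ 2 * (2 * EE ω z) := by
    have := sq_sum_sum_le (fun p r : Fin (q + 1) =>
      if p = r then 0 else ‖leadMat (sub1 ω j) z (0, p) (0, r)‖)
    rw [Fintype.card_fin] at this
    push_cast at this
    exact this.trans (mul_le_mul_of_nonneg_left (off_sub_le ω z j) (by positivity))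
  have h7 : ‖rr z ω j (Fin.last q) - m ^ 2 * ∑ k : Fin q, T k‖ ^ 2 ≤
      (C * ((q + 1) * Bd ^ 2 * OFF) + C * P) ^ 2 := by
    gcongr
  refine h7.trans ?_
  have h8 : (C * ((q + 1) * Bd ^ 2 * OFF) + C * P) ^ 2 ≤
      2 * (C * ((q + 1) * Bd ^ 2 * OFF)) ^ 2 + 2 * (C * P) ^ 2 := by
    nlinarith [sq_nonneg (C * ((q + 1) * Bd ^ 2 * OFF) - C * P)]
  refine h8.trans ?_
  have h9 : 2 * (C * P) ^ 2 ≤ 2 * C ^ 2 * q ^ 2 * ∑ k : Fin q, ∑ l : Fin q,
      (if k ≠ l then ‖T k‖ ^ 2 * ‖T l‖ ^ 2 else 0) := by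
    rw [mul_pow]
    calc 2 * (C ^ 2 * P ^ 2) ≤ 2 * (C ^ 2 * (q ^ 2 * ∑ k : Fin q, ∑ l : Fin q,
      (if k ≠ l then ‖T k‖ ^ 2 * ‖T l‖ ^ 2 else 0))) := by gcongr
      _ = _ := by ring
  have h10 : 2 * (C * ((q + 1) * Bd ^ 2 * OFF)) ^ 2 ≤
      4 * C ^ 2 * (q + 1) ^ 4 * Bd ^ 4 * EE ω z := by
    calc 2 * (C * ((q + 1) * Bd ^ 2 * OFF)) ^ 2 = 2 * C ^ 2 * (q + 1) ^ 2 * Bd ^ 4 * OFF ^ 2 := by
          ring
      _ ≤ 2 * C ^ 2 * (q + 1) ^ 2 * Bd ^ 4 * ((q + 1) ^ 2 * (2 * EE ω z)) := by gcongr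
      _ = _ := by ring
  linarith

end

end

end Vale.Agent.P156.FE
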