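import Vale.Agent.P156.H894.FE8R
import Vale.Agent.P156.H894.FE8C

/-! # FE8: bound of the second moment of the coordinate -/

open MeasureTheory Filter Topology Matrix Finset

namespace Vale.Agent.P156.FE

noncomputable section

/-- Facts on the coordinate at the spectral parameter `z` (`d = q + 1`). -/
structure TF (q : ℕ) (z : ℂ) (C c : ℝ) : Prop where
  hC : 1 ≤ C
  hc : 0 < c
  hc1 : c ≤ 1
  le : ∀ h : ℂ, 0 ≤ h.im → ‖TT (mm (q + 1) z) h‖ ≤ C * min 1 ‖h - mm (q + 1) z‖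
  low : ∀ h : ℂ, 0 ≤ h.im → C⁻¹ * min 1 ‖h - mm (q + 1) z‖ ≤ ‖TT (mm (q + 1) z) h‖
  lip : ∀ h h' : ℂ, 0 ≤ h.im → 0 ≤ h'.im →
    ‖TT (mm (q + 1) z) h - TT (mm (q + 1) z) h'‖ ≤ C * ‖h - h'‖
  rlip : ∀ s s' : ℂ, 0 ≤ s.im → 0 ≤ s'.im →
    ‖TT (mm (q + 1) z) (-1 / (z + s)) - TT (mm (q + 1) z) (-1 / (z + s'))‖ ≤ C * ‖s - s'‖
  rlin : ∀ h : Fin q → ℂ, (∀ k, 0 ≤ (h k).im) →
    ‖TT (mm (q + 1) z) (-1 / (z + ∑ k, h k)) - mm (q + 1) z ^ 2 * ∑ k, TT (mm (q + 1) z) (h k)‖ ≤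
      C * ∑ k, ∑ l, if k ≠ l then ‖TT (mm (q + 1) z) (h k)‖ * ‖TT (mm (q + 1) z) (h l)‖ else 0
  gap : c ≤ ‖1 - (q : ℂ) * mm (q + 1) z ^ 2‖
  msq : (q : ℝ) * ‖mm (q + 1) z‖ ^ 2 ≤ 1
  m1 : ‖mm (q + 1) z‖ ≤ 1

lemma exists_TF {q : ℕ} {a b : ℝ} (hT : SpecT (q + 1) a b) (hM : SpecM (q + 1) a b) :
    ∃ C c : ℝ, 1 ≤ C ∧ 0 < c ∧ c ≤ 1 ∧
      ∀ E ∈ Set.Icc a b, ∀ η : ℝ, 0 < η → η ≤ 1 → TF q (zz E η) C c := by
  obtain ⟨C, hC, hT⟩ := hT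
  obtain ⟨c, hc, hc1, hM, -, -⟩ := hM
  refine ⟨C, c, hC, hc, hc1, fun E hE η hη hη1 => ?_⟩
  obtain ⟨t1, t2, t3, t4⟩ := hT E hE η hη hη1 _ _ rfl rfl
  obtain ⟨-, m1, m2, m3, -⟩ := hM E hE η hη hη1
  refine ⟨hC, hc, hc1, fun h hh => (t1 h hh).2, fun h hh => (t1 h hh).1, t2, t3, t4, ?_, ?_, m1⟩
  · push_cast at m3
    rw [add_sub_cancel_right] at m3
    exact m3
  · push_cast at m2
    rw [add_sub_cancel_right] at m2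
    exact m2

section

variable {n q : ℕ} {w : SimpleGraph (Fin n) → ℝ} {E η C c : ℝ}

lemma TF.bd (h : TF q (zz E η) C c) {x : ℂ} (hx : 0 ≤ x.im) :
    ‖TT (mm (q + 1) (zz E η)) x‖ ≤ C := by
  refine (h.le x hx).trans ?_
  have hC0 : 0 ≤ C := zero_le_one.trans h.hC
  calc C * min 1 ‖x - mm (q + 1) (zz E η)‖ ≤ C * 1 :=
        mul_le_mul_of_nonneg_left (min_le_left _ _) hC0
    _ = C := mul_one C

lemma hc_im_nn (G : SimpleGraph (Fin n)) (E : ℝ) {η : ℝ} (hη : 0 < η) (e : Fin n × Fin n) :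
    0 ≤ (hc G (zz E η) e).im := by
  unfold hc
  exact H801.im_resD_diag_nonneg (adj_isHermitian G) _ E hη _

lemma TF.tt_le (h : TF q (zz E η) C c) (hη : 0 < η)
    (ω : SimpleGraph (Fin n) × StarPos n (q + 1) 2) (j : Fin 2) (k : Fin (q + 1)) :
    ‖tt (zz E η) ω j k‖ ≤ C := h.bd (hc_im_nn _ E hη _)

lemma TF.rr_le (h : TF q (zz E η) C c) (hη : 0 < η)
    (ω : SimpleGraph (Fin n) × StarPos n (q + 1) 2) (j : Fin 2) (k : Fin (q + 1)) :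
    ‖rr (zz E η) ω j k‖ ≤ C := h.bd (hc_im_nn _ E hη _)

lemma TF.QQ_sq_le (h : TF q (zz E η) C c) (hη : 0 < η)
    (ω : SimpleGraph (Fin n) × StarPos n (q + 1) 2) (j : Fin 2) :
    ‖QQ (zz E η) ω j‖ ^ 2 ≤ (q + 1) ^ 2 * C ^ 2 := by
  have hC0 : 0 ≤ C := zero_le_one.trans h.hC
  have h1 : ‖QQ (zz E η) ω j‖ ≤ (q + 1) * C := by
    unfold QQ
    refine (norm_sub_le _ _).trans ?_
    rw [norm_mul, norm_pow]
    have h2 : ‖∑ k : Fin q, tt (zz E η) ω j k.castSucc‖ ≤ q * C := by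
      refine (norm_sum_le _ _).trans ?_
      refine (Finset.sum_le_sum fun k _ => h.tt_le hη ω j k.castSucc).trans (le_of_eq ?_)
      rw [Finset.sum_const, Finset.card_univ, Fintype.card_fin, nsmul_eq_mul]
    have h3 : ‖mm (q + 1) (zz E η)‖ ^ 2 ≤ 1 := pow_le_one₀ (norm_nonneg _) h.m1
    calc ‖rr (zz E η) ω j (Fin.last q)‖ + ‖mm (q + 1) (zz E η)‖ ^ 2 *
          ‖∑ k : Fin q, tt (zz E η) ω j k.castSucc‖
        ≤ C + 1 * (q * C) := by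
          refine add_le_add (h.rr_le hη ω j _) ?_
          exact mul_le_mul h3 h2 (norm_nonneg _) zero_le_one
      _ = (q + 1) * C := by ring
  calc ‖QQ (zz E η) ω j‖ ^ 2 ≤ ((q + 1) * C) ^ 2 := by gcongr
    _ = _ := by ring

lemma F1_lip (x y x' y' : ℂ) : |(x * starRingEnd ℂ y).re - (x' * starRingEnd ℂ y').re| ≤
    1 * (‖x - x'‖ * ‖y‖ + ‖x'‖ * ‖y - y'‖) := by
  rw [← Complex.sub_re, one_mul]
  refine (Complex.abs_re_le_norm _).trans ?_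
  have e : x * starRingEnd ℂ y - x' * starRingEnd ℂ y' =
      (x - x') * starRingEnd ℂ y + x' * starRingEnd ℂ (y - y') := by
    rw [map_sub]
    ring
  rw [e]
  refine (norm_add_le _ _).trans (le_of_eq ?_)
  rw [norm_mul, norm_mul, RCLike.norm_conj, RCLike.norm_conj]

lemma F2_lip {C : ℝ} {x y x' y' : ℂ} (hx : ‖x‖ ≤ C) (hy : ‖y‖ ≤ C) (hx' : ‖x'‖ ≤ C)
    (hy' : ‖y'‖ ≤ C) : |‖x‖ ^ 2 * ‖y‖ ^ 2 - ‖x'‖ ^ 2 * ‖y'‖ ^ 2| ≤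
    2 * C ^ 2 * (‖x - x'‖ * ‖y‖ + ‖x'‖ * ‖y - y'‖) := by
  have hC : 0 ≤ C := (norm_nonneg x).trans hx
  have e : ‖x‖ ^ 2 * ‖y‖ ^ 2 - ‖x'‖ ^ 2 * ‖y'‖ ^ 2 =
      (‖x‖ * ‖y‖ + ‖x'‖ * ‖y'‖) * ((‖x‖ - ‖x'‖) * ‖y‖ + ‖x'‖ * (‖y‖ - ‖y'‖)) := by ring
  rw [e, abs_mul]
  have h1 : |‖x‖ * ‖y‖ + ‖x'‖ * ‖y'‖| ≤ 2 * C ^ 2 := by
    rw [abs_of_nonneg (by positivity)]
    have a1 : ‖x‖ * ‖y‖ ≤ C * C := mul_le_mul hx hy (norm_nonneg _) hC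
    have a2 : ‖x'‖ * ‖y'‖ ≤ C * C := mul_le_mul hx' hy' (norm_nonneg _) hC
    nlinarith
  have h2 : |(‖x‖ - ‖x'‖) * ‖y‖ + ‖x'‖ * (‖y‖ - ‖y'‖)| ≤ ‖x - x'‖ * ‖y‖ + ‖x'‖ * ‖y - y'‖ := by
    refine (abs_add_le _ _).trans (add_le_add ?_ ?_)
    · rw [abs_mul, abs_of_nonneg (norm_nonneg y)]
      exact mul_le_mul_of_nonneg_right (abs_norm_sub_norm_le x x') (norm_nonneg _)
    · rw [abs_mul, abs_of_nonneg (norm_nonneg x')]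
      exact mul_le_mul_of_nonneg_left (abs_norm_sub_norm_le y y') (norm_nonneg _)
  exact mul_le_mul h1 h2 (abs_nonneg _) (by positivity)

/-- Weighted fourth moments over two stars are small on the support of the weight. -/
lemma EW_sq_sq_le (hn : 0 < n) (hw : ∀ G, 0 ≤ w G) (z : ℂ) {e : ℝ}
    (he : ∀ G ∈ regularGraphs n (q + 1), w G ≠ 0 → vG (q + 1) z G ≤ e) (k l : Fin (q + 1)) :
    EW n (q + 1) w (fun ω => ‖tt z ω 0 k‖ ^ 2 * ‖tt z ω 1 l‖ ^ 2) ≤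
      e * vW n (q + 1) w z := by
  rw [EW_tt_sq_sq hn, vW, ← H490.avg_mul_left]
  refine H490.avg_mono fun G hG => ?_
  by_cases h0 : w G = 0
  · rw [h0]
    simp
  · have h1 := he G hG h0
    have h2 := vG_nonneg (d := q + 1) z G
    have h3 := hw G
    have h4 : vG (q + 1) z G ^ 2 ≤ e * vG (q + 1) z G := by
      rw [sq]
      exact mul_le_mul_of_nonneg_right h1 h2
    calc w G * vG (q + 1) z G ^ 2 ≤ w G * (e * vG (q + 1) z G) :=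
          mul_le_mul_of_nonneg_left h4 h3
      _ = _ := by ring

end

/-! ### The two error terms -/

open Classical in
/-- Average of the squared errors on the good part. -/
def gdE (n d : ℕ) (w : SimpleGraph (Fin n) → ℝ) (z z' : ℂ)
    (g : Matrix (Fin 2 × Fin d) (Fin 2 × Fin d) ℂ → Prop) : ℝ :=
  EW n d w (fun ω => if ω ∈ ZZs n d 2 ∧ g (leadMat ω z') then EE ω z else 0)

open Classical in
/-- Weighted size of the bad part. -/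
def bdE (n d : ℕ) (w : SimpleGraph (Fin n) → ℝ) (z' : ℂ)
    (g : Matrix (Fin 2 × Fin d) (Fin 2 × Fin d) ℂ → Prop) : ℝ :=
  EW n d w (fun ω => if ω ∈ ZZs n d 2 ∧ g (leadMat ω z') then 0 else 1)

lemma gdE_nonneg {n d : ℕ} {w : SimpleGraph (Fin n) → ℝ} (hw : ∀ G, 0 ≤ w G) (z z' : ℂ)
    (g : Matrix (Fin 2 × Fin d) (Fin 2 × Fin d) ℂ → Prop) : 0 ≤ gdE n d w z z' g := by
  refine EW_nonneg hw fun ω _ => ?_
  split_ifs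
  · exact EE_nonneg ω z
  · exact le_rfl

lemma bdE_nonneg {n d : ℕ} {w : SimpleGraph (Fin n) → ℝ} (hw : ∀ G, 0 ≤ w G) (z' : ℂ)
    (g : Matrix (Fin 2 × Fin d) (Fin 2 × Fin d) ℂ → Prop) : 0 ≤ bdE n d w z' g := by
  refine EW_nonneg hw fun ω _ => ?_
  split_ifs <;> norm_num

lemma rho_nonneg {n d K : ℕ} (ω : SimpleGraph (Fin n) × StarPos n d K) (z : ℂ) :
    0 ≤ rho ω z :=
  le_min zero_le_one (Finset.sum_nonneg fun a _ => Finset.sum_nonneg fun b _ => sq_nonneg _)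

lemma XW_nonneg {n d : ℕ} {w : SimpleGraph (Fin n) → ℝ} (hw : ∀ G, 0 ≤ w G) (z : ℂ) :
    0 ≤ XW n d w z :=
  H490.avg_nonneg fun ω _ => mul_nonneg (hw _) (rho_nonneg ω z)

/-- The setting of the one-step inequality. -/
structure Ctx (n q : ℕ) (E η C c Bd b : ℝ) (z' : ℂ)
    (g : Matrix (Fin 2 × Fin (q + 1)) (Fin 2 × Fin (q + 1)) ℂ → Prop)
    (w w' : SimpleGraph (Fin n) → ℝ) : Prop where
  hn : 0 < n
  hη : 0 < η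
  tf : TF q (zz E η) C c
  hg : ∀ (σ : Equiv.Perm (Fin 2 × Fin (q + 1)))
    (M : Matrix (Fin 2 × Fin (q + 1)) (Fin 2 × Fin (q + 1)) ℂ), g (M.submatrix σ σ) ↔ g M
  hBd : 1 ≤ Bd
  hb : 0 ≤ b
  bdd : ∀ ω ∈ ZZs n (q + 1) 2, g (leadMat ω z') → Bdd ω (zz E η) Bd
  hW : Wt n (q + 1) b w w'

section

variable {n q : ℕ} {E η C c Bd b : ℝ} {z' : ℂ}
  {g : Matrix (Fin 2 × Fin (q + 1)) (Fin 2 × Fin (q + 1)) ℂ → Prop}
  {w w' : SimpleGraph (Fin n) → ℝ}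

lemma Ctx.S_le (h : Ctx n q E η C c Bd b z' g w w') (hPX : PieceX (q + 1)) {k l : Fin (q + 1)}
    (hkl : k ≠ l) :
    EW n (q + 1) w (fun ω => (tt (zz E η) ω 0 k * starRingEnd ℂ (tt (zz E η) ω 0 l)).re) ≤
      IW n (q + 1) w (zz E η) + vW n (q + 1) w (zz E η) / 18 +
        216 * C ^ 2 * (gdE n (q + 1) w (zz E η) z' g + bdE n (q + 1) w z' g +
          b * XW n (q + 1) w' (zz E η)) := by
  have h1 := hPX n h.hn E η h.hη C h.tf.hC h.tf.le h.tf.lip z' g h.hg b h.hb w w' h.hW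
    (fun x y => (x * starRingEnd ℂ y).re) 1 zero_le_one (by simp)
    (fun x y x' y' _ _ _ _ => F1_lip x y x' y') k l hkl (1 / 54) (by norm_num) (by norm_num)
  rw [EW_tt_sq h.hn, EW_tt_sq h.hn, EW_tt_sq h.hn] at h1
  have h2 := EW_tt_tt (w := w) h.hn (zz E η) 1 k l
  simp only [one_mul, Complex.one_re] at h2
  have h3 := (abs_le.1 h1).2
  rw [h2] at h3
  have h4 : 4 * 1 * C ^ 2 / (1 / 54) * (gdE n (q + 1) w (zz E η) z' g + bdE n (q + 1) w z' g +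
      b * XW n (q + 1) w' (zz E η)) = 216 * C ^ 2 * (gdE n (q + 1) w (zz E η) z' g +
        bdE n (q + 1) w z' g + b * XW n (q + 1) w' (zz E η)) := by ring
  unfold gdE bdE at h4 ⊢
  rw [h4] at h3
  linarith

lemma Ctx.Q4_le (h : Ctx n q E η C c Bd b z' g w w') (hPX : PieceX (q + 1)) {k l : Fin (q + 1)}
    (hkl : k ≠ l) {e δ : ℝ} (hδ : 0 < δ) (hδ1 : δ ≤ 1)
    (he : ∀ G ∈ regularGraphs n (q + 1), w G ≠ 0 → vG (q + 1) (zz E η) G ≤ e) :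
    EW n (q + 1) w (fun ω => ‖tt (zz E η) ω 0 k‖ ^ 2 * ‖tt (zz E η) ω 0 l‖ ^ 2) ≤
      e * vW n (q + 1) w (zz E η) + 6 * δ * C ^ 2 * vW n (q + 1) w (zz E η) +
        8 * C ^ 4 / δ * (gdE n (q + 1) w (zz E η) z' g + bdE n (q + 1) w z' g +
          b * XW n (q + 1) w' (zz E η)) := by
  have h1 := hPX n h.hn E η h.hη C h.tf.hC h.tf.le h.tf.lip z' g h.hg b h.hb w w' h.hW
    (fun x y => ‖x‖ ^ 2 * ‖y‖ ^ 2) (2 * C ^ 2) (by positivity) (by simp)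
    (fun x y x' y' h1 h2 h3 h4 => F2_lip h1 h2 h3 h4) k l hkl δ hδ hδ1
  rw [EW_tt_sq h.hn, EW_tt_sq h.hn, EW_tt_sq h.hn] at h1
  have h2 := EW_sq_sq_le h.hn h.hW.nonneg (zz E η) he k l
  have h3 := (abs_le.1 h1).2
  have h4 : 4 * (2 * C ^ 2) * C ^ 2 / δ * (gdE n (q + 1) w (zz E η) z' g +
      bdE n (q + 1) w z' g + b * XW n (q + 1) w' (zz E η)) =
      8 * C ^ 4 / δ * (gdE n (q + 1) w (zz E η) z' g +
        bdE n (q + 1) w z' g + b * XW n (q + 1) w' (zz E η)) := by ring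
  unfold gdE bdE at h4 ⊢
  rw [h4] at h3
  have h5 : δ * (2 * C ^ 2) * (vW n (q + 1) w (zz E η) + vW n (q + 1) w (zz E η) +
      vW n (q + 1) w (zz E η)) = 6 * δ * C ^ 2 * vW n (q + 1) w (zz E η) := by ring
  rw [h5] at h3
  linarith

open Classical in
lemma Ctx.X_pt (h : Ctx n q E η C c Bd b z' g w w')
    (ω : SimpleGraph (Fin n) × StarPos n (q + 1) 2) :
    ‖QQ (zz E η) ω 0‖ ^ 2 ≤ 2 * C ^ 2 * q ^ 2 * (∑ k : Fin q, ∑ l : Fin q,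
          if k ≠ l then ‖tt (zz E η) ω 0 k.castSucc‖ ^ 2 * ‖tt (zz E η) ω 0 l.castSucc‖ ^ 2
          else 0) +
          (4 * C ^ 2 * (q + 1) ^ 4 * Bd ^ 4 *
            (if ω ∈ ZZs n (q + 1) 2 ∧ g (leadMat ω z') then EE ω (zz E η) else 0) +
          (q + 1) ^ 2 * C ^ 2 *
            (if ω ∈ ZZs n (q + 1) 2 ∧ g (leadMat ω z') then 0 else 1)) := by
  have h0 : 0 ≤ 2 * C ^ 2 * (q : ℝ) ^ 2 * (∑ k : Fin q, ∑ l : Fin q,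
      if k ≠ l then ‖tt (zz E η) ω 0 k.castSucc‖ ^ 2 * ‖tt (zz E η) ω 0 l.castSucc‖ ^ 2
      else 0) := by
    refine mul_nonneg (by positivity) (Finset.sum_nonneg fun k _ =>
      Finset.sum_nonneg fun l _ => ?_)
    split_ifs
    · positivity
    · exact le_rfl
  by_cases hgood : ω ∈ ZZs n (q + 1) 2 ∧ g (leadMat ω z')
  · rw [if_pos hgood, if_pos hgood, mul_zero, add_zero]
    exact norm_Q_sq_le hgood.1 h.hη h.tf.hC h.hBd h.tf.rlip h.tf.rlin (h.bdd ω hgood.1 hgood.2) 0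
  · rw [if_neg hgood, if_neg hgood, mul_zero, zero_add, mul_one]
    have := h.tf.QQ_sq_le h.hη ω 0
    linarith

lemma Ctx.X_le (h : Ctx n q E η C c Bd b z' g w w') {Q4 : ℝ} (hQ40 : 0 ≤ Q4)
    (hQ4 : ∀ k l : Fin (q + 1), k ≠ l →
      EW n (q + 1) w (fun ω => ‖tt (zz E η) ω 0 k‖ ^ 2 * ‖tt (zz E η) ω 0 l‖ ^ 2) ≤ Q4) :
    EW n (q + 1) w (fun ω => ‖QQ (zz E η) ω 0‖ ^ 2) ≤
      2 * C ^ 2 * q ^ 4 * Q4 + 4 * C ^ 2 * (q + 1) ^ 4 * Bd ^ 4 *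
        gdE n (q + 1) w (zz E η) z' g + (q + 1) ^ 2 * C ^ 2 * bdE n (q + 1) w z' g := by
  have h1 := EW_mono h.hW.nonneg (d := q + 1) (fun ω _ => h.X_pt ω)
  rw [EW_add, EW_add, EW_smul, EW_smul, EW_smul, EW_sum] at h1
  refine h1.trans ?_
  have h2 : ∑ k : Fin q, EW n (q + 1) w (fun ω => ∑ l : Fin q,
      if k ≠ l then ‖tt (zz E η) ω 0 k.castSucc‖ ^ 2 * ‖tt (zz E η) ω 0 l.castSucc‖ ^ 2
      else 0) ≤ q ^ 2 * Q4 := by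
    have h3 : ∀ k : Fin q, EW n (q + 1) w (fun ω => ∑ l : Fin q,
        if k ≠ l then ‖tt (zz E η) ω 0 k.castSucc‖ ^ 2 * ‖tt (zz E η) ω 0 l.castSucc‖ ^ 2
        else 0) ≤ q * Q4 := by
      intro k
      rw [EW_sum]
      have h4 : ∀ l : Fin q, EW n (q + 1) w (fun ω =>
          if k ≠ l then ‖tt (zz E η) ω 0 k.castSucc‖ ^ 2 * ‖tt (zz E η) ω 0 l.castSucc‖ ^ 2
          else 0) ≤ Q4 := by
        intro l
        by_cases hkl : k = l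
        · subst hkl
          simp only [ne_eq, not_true, if_false]
          rw [EW_const h.hn]
          simpa using hQ40
        · simp only [ne_eq, hkl, not_false_eq_true, if_true]
          exact hQ4 _ _ (fun h => hkl (Fin.castSucc_injective q h))
      refine (Finset.sum_le_sum fun l _ => h4 l).trans (le_of_eq ?_)
      rw [Finset.sum_const, Finset.card_univ, Fintype.card_fin, nsmul_eq_mul]
    refine (Finset.sum_le_sum fun k _ => h3 k).trans (le_of_eq ?_)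
    rw [Finset.sum_const, Finset.card_univ, Fintype.card_fin, nsmul_eq_mul]
    ring
  have h5 : 2 * C ^ 2 * (q : ℝ) ^ 2 * ∑ k : Fin q, EW n (q + 1) w (fun ω => ∑ l : Fin q,
      if k ≠ l then ‖tt (zz E η) ω 0 k.castSucc‖ ^ 2 * ‖tt (zz E η) ω 0 l.castSucc‖ ^ 2
      else 0) ≤ 2 * C ^ 2 * q ^ 2 * (q ^ 2 * Q4) :=
    mul_le_mul_of_nonneg_left h2 (by positivity)
  have h6 : 2 * C ^ 2 * (q : ℝ) ^ 2 * (q ^ 2 * Q4) = 2 * C ^ 2 * q ^ 4 * Q4 := by ring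
  rw [h6] at h5
  unfold gdE bdE
  linarith

end

/-- Pure arithmetic of the conclusion. -/
lemma arith_final {C c q δ₂ C₃ v gE bE bX B4 : ℝ} (hC : 1 ≤ C) (hc : 0 < c) (hC₃ : 1 ≤ C₃)
    (hq : 0 < q) (hδ₂0 : 0 < δ₂) (hδ₂2 : δ₂ ≤ c ^ 2 / (2304 * C ^ 4 * q ^ 4)) (hv0 : 0 ≤ v)
    (hg0 : 0 ≤ gE) (hb0 : 0 ≤ bE) (hbX : 0 ≤ bX) (hB4 : 1 ≤ B4)
    (hcore : v ≤ 4 * (216 * C ^ 2 * (gE + bE + bX)) + 48 / c ^ 2 *
      (2 * C ^ 2 * q ^ 4 * (C₃ * (c ^ 2 / (384 * C ^ 2 * q ^ 4 * C₃)) * v +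
        6 * δ₂ * C ^ 2 * v + 8 * C ^ 4 / δ₂ * (gE + bE + bX)) +
        4 * C ^ 2 * (q + 1) ^ 4 * B4 * gE + (q + 1) ^ 2 * C ^ 2 * bE)) :
    v ≤ (1 + 2 * (864 * C ^ 2 + 48 / c ^ 2 * (16 * C ^ 6 * q ^ 4 / δ₂ +
      4 * C ^ 2 * (q + 1) ^ 4 + (q + 1) ^ 2 * C ^ 2))) * (B4 * gE + (bE + bX)) := by
  have hC0 : 0 < C := by linarith
  have hC₃0 : 0 < C₃ := by linarith
  have hB0 : 0 < B4 := by linarith
  set E0 := gE + bE + bX with hE0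
  have hE00 : 0 ≤ E0 := by positivity
  set E1 := B4 * gE + (bE + bX) with hE1
  have hE01 : E0 ≤ E1 := by
    rw [hE0, hE1]
    have : gE ≤ B4 * gE := le_mul_of_one_le_left hg0 hB4
    linarith
  have hE10 : 0 ≤ E1 := hE00.trans hE01
  have hg1 : B4 * gE ≤ E1 := by
    rw [hE1]
    linarith
  have hb1 : bE ≤ E1 := by
    rw [hE1]
    have : 0 ≤ B4 * gE := by positivity
    linarith
  have k1 : 48 / c ^ 2 * (2 * C ^ 2 * q ^ 4 *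
      (C₃ * (c ^ 2 / (384 * C ^ 2 * q ^ 4 * C₃)) * v)) = v / 4 := by
    field_simp
    ring
  have k2 : 48 / c ^ 2 * (2 * C ^ 2 * q ^ 4 * (6 * δ₂ * C ^ 2 * v)) ≤ v / 4 := by
    have e1 : 48 / c ^ 2 * (2 * C ^ 2 * q ^ 4 * (6 * δ₂ * C ^ 2 * v)) =
        δ₂ * (576 * C ^ 4 * q ^ 4 / c ^ 2) * v := by
      field_simp
      ring
    have e2 : δ₂ * (576 * C ^ 4 * q ^ 4 / c ^ 2) ≤
        c ^ 2 / (2304 * C ^ 4 * q ^ 4) * (576 * C ^ 4 * q ^ 4 / c ^ 2) :=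
      mul_le_mul_of_nonneg_right hδ₂2 (by positivity)
    have e3 : c ^ 2 / (2304 * C ^ 4 * q ^ 4) * (576 * C ^ 4 * q ^ 4 / c ^ 2) = 1 / 4 := by
      field_simp
      norm_num
    rw [e1]
    rw [e3] at e2
    calc δ₂ * (576 * C ^ 4 * q ^ 4 / c ^ 2) * v ≤ 1 / 4 * v :=
          mul_le_mul_of_nonneg_right e2 hv0
      _ = v / 4 := by ring
  have k3 : 48 / c ^ 2 * (2 * C ^ 2 * q ^ 4 * (8 * C ^ 4 / δ₂ * E0)) ≤
      48 / c ^ 2 * (16 * C ^ 6 * q ^ 4 / δ₂) * E1 := by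
    have e1 : 48 / c ^ 2 * (2 * C ^ 2 * q ^ 4 * (8 * C ^ 4 / δ₂ * E0)) =
        48 / c ^ 2 * (16 * C ^ 6 * q ^ 4 / δ₂) * E0 := by ring
    rw [e1]
    exact mul_le_mul_of_nonneg_left hE01 (by positivity)
  have k4 : 48 / c ^ 2 * (4 * C ^ 2 * (q + 1) ^ 4 * B4 * gE) ≤
      48 / c ^ 2 * (4 * C ^ 2 * (q + 1) ^ 4) * E1 := by
    have e1 : 48 / c ^ 2 * (4 * C ^ 2 * (q + 1) ^ 4 * B4 * gE) =
        48 / c ^ 2 * (4 * C ^ 2 * (q + 1) ^ 4) * (B4 * gE) := by ring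
    rw [e1]
    exact mul_le_mul_of_nonneg_left hg1 (by positivity)
  have k5 : 48 / c ^ 2 * ((q + 1) ^ 2 * C ^ 2 * bE) ≤
      48 / c ^ 2 * ((q + 1) ^ 2 * C ^ 2) * E1 := by
    have e1 : 48 / c ^ 2 * ((q + 1) ^ 2 * C ^ 2 * bE) =
        48 / c ^ 2 * ((q + 1) ^ 2 * C ^ 2) * bE := by ring
    rw [e1]
    exact mul_le_mul_of_nonneg_left hb1 (by positivity)
  have k6 : 4 * (216 * C ^ 2 * E0) ≤ 864 * C ^ 2 * E1 := by
    have : 4 * (216 * C ^ 2 * E0) = 864 * C ^ 2 * E0 := by ring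
    rw [this]
    exact mul_le_mul_of_nonneg_left hE01 (by positivity)
  have k7 : 48 / c ^ 2 * (2 * C ^ 2 * q ^ 4 * (C₃ * (c ^ 2 / (384 * C ^ 2 * q ^ 4 * C₃)) * v +
        6 * δ₂ * C ^ 2 * v + 8 * C ^ 4 / δ₂ * E0) + 4 * C ^ 2 * (q + 1) ^ 4 * B4 * gE +
        (q + 1) ^ 2 * C ^ 2 * bE) =
      48 / c ^ 2 * (2 * C ^ 2 * q ^ 4 * (C₃ * (c ^ 2 / (384 * C ^ 2 * q ^ 4 * C₃)) * v)) +
      48 / c ^ 2 * (2 * C ^ 2 * q ^ 4 * (6 * δ₂ * C ^ 2 * v)) +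
      48 / c ^ 2 * (2 * C ^ 2 * q ^ 4 * (8 * C ^ 4 / δ₂ * E0)) +
      48 / c ^ 2 * (4 * C ^ 2 * (q + 1) ^ 4 * B4 * gE) +
      48 / c ^ 2 * ((q + 1) ^ 2 * C ^ 2 * bE) := by
    ring
  rw [k7] at hcore
  have k8 : v ≤ 2 * (864 * C ^ 2 * E1 + 48 / c ^ 2 * (16 * C ^ 6 * q ^ 4 / δ₂) * E1 +
      48 / c ^ 2 * (4 * C ^ 2 * (q + 1) ^ 4) * E1 +
      48 / c ^ 2 * ((q + 1) ^ 2 * C ^ 2) * E1) := by linarith
  refine k8.trans ?_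
  have k9 : (1 + 2 * (864 * C ^ 2 + 48 / c ^ 2 * (16 * C ^ 6 * q ^ 4 / δ₂ +
      4 * C ^ 2 * (q + 1) ^ 4 + (q + 1) ^ 2 * C ^ 2))) * E1 =
      E1 + 2 * (864 * C ^ 2 * E1 + 48 / c ^ 2 * (16 * C ^ 6 * q ^ 4 / δ₂) * E1 +
      48 / c ^ 2 * (4 * C ^ 2 * (q + 1) ^ 4) * E1 +
      48 / c ^ 2 * ((q + 1) ^ 2 * C ^ 2) * E1) := by ring
  rw [k9]
  linarith

/-- **Bound of the second moment of the coordinate.** -/
theorem vW_final {q : ℕ} (hq : 2 ≤ q) (hPX : PieceX (q + 1)) {C c C₃ : ℝ} (hC : 1 ≤ C)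
    (hc : 0 < c) (hC₃ : 1 ≤ C₃) :
    ∃ ε₁ > 0, ∃ K₁ : ℝ, 1 ≤ K₁ ∧ ∀ (n : ℕ) (E η Bd b : ℝ) (z' : ℂ)
      (g : Matrix (Fin 2 × Fin (q + 1)) (Fin 2 × Fin (q + 1)) ℂ → Prop)
      (w w' : SimpleGraph (Fin n) → ℝ), Ctx n q E η C c Bd b z' g w w' →
      (∀ G ∈ regularGraphs n (q + 1), w G ≠ 0 → vG (q + 1) (zz E η) G ≤ C₃ * ε₁) →
      vW n (q + 1) w (zz E η) ≤ K₁ * (Bd ^ 4 * gdE n (q + 1) w (zz E η) z' g +
        (bdE n (q + 1) w z' g + b * XW n (q + 1) w' (zz E η))) := by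
  have hq0 : (0 : ℝ) < q := by
    have : 0 < q := by omega
    exact_mod_cast this
  have hC0 : 0 < C := by linarith
  have hC₃0 : 0 < C₃ := by linarith
  obtain ⟨δ₂, hδ₂0, hδ₂1, hδ₂2⟩ : ∃ δ₂ : ℝ, 0 < δ₂ ∧ δ₂ ≤ 1 ∧
      δ₂ ≤ c ^ 2 / (2304 * C ^ 4 * q ^ 4) :=
    ⟨min 1 (c ^ 2 / (2304 * C ^ 4 * q ^ 4)), by positivity, min_le_left _ _, min_le_right _ _⟩
  refine ⟨c ^ 2 / (384 * C ^ 2 * q ^ 4 * C₃), by positivity,
    1 + 2 * (864 * C ^ 2 + 48 / c ^ 2 * (16 * C ^ 6 * q ^ 4 / δ₂ + 4 * C ^ 2 * (q + 1) ^ 4 +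
      (q + 1) ^ 2 * C ^ 2)), ?_, ?_⟩
  · have : 0 ≤ 2 * (864 * C ^ 2 + 48 / c ^ 2 * (16 * C ^ 6 * q ^ 4 / δ₂ + 4 * C ^ 2 * (q + 1) ^ 4 +
      (q + 1) ^ 2 * C ^ 2)) := by positivity
    linarith
  intro n E η Bd b z' g w w' h hsupp
  have hw := h.hW.nonneg
  have hg0 := gdE_nonneg hw (zz E η) z' g
  have hb0 := bdE_nonneg hw z' g
  have hv0 := vW_nonneg (d := q + 1) hw (zz E η)
  have hbX := mul_nonneg h.hb (XW_nonneg (d := q + 1) h.hW.nonneg' (zz E η))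
  have hX := h.X_le (Q4 := C₃ * (c ^ 2 / (384 * C ^ 2 * q ^ 4 * C₃)) *
      vW n (q + 1) w (zz E η) + 6 * δ₂ * C ^ 2 * vW n (q + 1) w (zz E η) +
        8 * C ^ 4 / δ₂ * (gdE n (q + 1) w (zz E η) z' g + bdE n (q + 1) w z' g +
          b * XW n (q + 1) w' (zz E η))) (by positivity)
    (fun k l hkl => h.Q4_le hPX hkl hδ₂0 hδ₂1 hsupp)
  have hcore := os_core hq h.hn hw (zz E η) h.tf.hc h.tf.hc1 h.tf.gap h.tf.msq
    (R := 216 * C ^ 2 * (gdE n (q + 1) w (zz E η) z' g + bdE n (q + 1) w z' g +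
          b * XW n (q + 1) w' (zz E η)))
    (by positivity) (fun k l hkl => h.S_le hPX hkl) hX
  exact arith_final hC hc hC₃ hq0 hδ₂0 hδ₂2 hv0 hg0 hb0 hbX (one_le_pow₀ h.hBd) hcore

end

end Vale.Agent.P156.FE
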