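import Vale.Agent.P156.H894.FE8Y
import Vale.Agent.P156.B.FE8a

/-! # FE8: exchange of a sibling with an independent edge -/

open MeasureTheory Filter Topology Matrix Finset

namespace Vale.Agent.P156.FE

noncomputable section

variable {n d : ℕ}

/-- One difference between the two lead matrices. -/
lemma dif_sq_le (ω : SimpleGraph (Fin n) × StarPos n d 2) (z : ℂ) (j : Fin 2) (k : Fin d) :
    ‖leadMat ω z (j, k) (j, k) - leadMat (sub1 ω j) z (0, k) (0, k)‖ ^ 2 ≤ EE ω z := by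
  have h1 : ‖leadMat ω z (j, k) (j, k) - leadMat (sub1 ω j) z (0, k) (0, k)‖ ^ 2 ≤
      ∑ j : Fin 2, ∑ p : Fin d, ∑ r : Fin d,
        ‖leadMat ω z (j, p) (j, r) - leadMat (sub1 ω j) z (0, p) (0, r)‖ ^ 2 := by
    refine le_trans ?_ (Finset.single_le_sum (f := fun j : Fin 2 => ∑ p : Fin d, ∑ r : Fin d,
      ‖leadMat ω z (j, p) (j, r) - leadMat (sub1 ω j) z (0, p) (0, r)‖ ^ 2)
      (fun i _ => Finset.sum_nonneg fun p _ => Finset.sum_nonneg fun r _ => sq_nonneg _)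
      (Finset.mem_univ j))
    refine le_trans ?_ (Finset.single_le_sum (f := fun p : Fin d => ∑ r : Fin d,
      ‖leadMat ω z (j, p) (j, r) - leadMat (sub1 ω j) z (0, p) (0, r)‖ ^ 2)
      (fun i _ => Finset.sum_nonneg fun r _ => sq_nonneg _) (Finset.mem_univ k))
    exact Finset.single_le_sum (f := fun r : Fin d =>
      ‖leadMat ω z (j, k) (j, r) - leadMat (sub1 ω j) z (0, k) (0, r)‖ ^ 2)
      (fun i _ => sq_nonneg _) (Finset.mem_univ k)
  refine h1.trans ?_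
  unfold EE
  refine le_add_of_nonneg_right (Finset.sum_nonneg fun a _ => Finset.sum_nonneg fun b _ => ?_)
  split_ifs
  · exact le_rfl
  · positivity

/-- Young's inequality for the replacement. -/
lemma young_repl {L δ C s x y A : ℝ} (hL : 0 ≤ L) (hδ : 0 < δ) (hδ1 : δ ≤ 1)
    (hA : A ≤ L * ((C * s) * y + (x + C * s) * (C * s))) :
    A ≤ δ * L / 2 * (x ^ 2 + y ^ 2) + 2 * L * C ^ 2 / δ * s ^ 2 := by
  have h1 : (C * s) * y + (x + C * s) * (C * s) ≤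
      δ / 2 * (x ^ 2 + y ^ 2) + 2 * C ^ 2 / δ * s ^ 2 := by
    have e : δ / 2 * (x ^ 2 + y ^ 2) + 2 * C ^ 2 / δ * s ^ 2 -
        ((C * s) * y + (x + C * s) * (C * s)) =
        (δ * x - C * s) ^ 2 / (2 * δ) + (δ * y - C * s) ^ 2 / (2 * δ) +
          (C * s) ^ 2 * (1 - δ) / δ := by
      field_simp
      ring
    have e1 : 0 ≤ (δ * x - C * s) ^ 2 / (2 * δ) := by positivity
    have e2 : 0 ≤ (δ * y - C * s) ^ 2 / (2 * δ) := by positivity
    have e3 : 0 ≤ (C * s) ^ 2 * (1 - δ) / δ := by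
      have : 0 ≤ 1 - δ := by linarith
      positivity
    linarith
  calc A ≤ L * ((C * s) * y + (x + C * s) * (C * s)) := hA
    _ ≤ L * (δ / 2 * (x ^ 2 + y ^ 2) + 2 * C ^ 2 / δ * s ^ 2) := mul_le_mul_of_nonneg_left h1 hL
    _ = _ := by ring

section

variable {E η C : ℝ} {F : ℂ → ℂ → ℝ} {L : ℝ}

/-- The function of two arguments vanishes at least like the product. -/
lemma F_le (hC : 1 ≤ C) (hF0 : F 0 0 = 0)
    (hF : ∀ x y x' y' : ℂ, ‖x‖ ≤ C → ‖y‖ ≤ C → ‖x'‖ ≤ C → ‖y'‖ ≤ C →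
      |F x y - F x' y'| ≤ L * (‖x - x'‖ * ‖y‖ + ‖x'‖ * ‖y - y'‖)) {x y : ℂ}
    (hx : ‖x‖ ≤ C) (hy : ‖y‖ ≤ C) : |F x y| ≤ L * (‖x‖ * ‖y‖) := by
  have h0 : ‖(0 : ℂ)‖ ≤ C := by
    rw [norm_zero]
    linarith
  have h := hF x y 0 0 hx hy h0 h0
  rw [hF0] at h
  simpa using h

lemma tt_bd (hη : 0 < η) (hC : 1 ≤ C)
    (hle : ∀ h : ℂ, 0 ≤ h.im → ‖TT (mm d (zz E η)) h‖ ≤ C * min 1 ‖h - mm d (zz E η)‖)
    {h : ℂ} (hh : 0 ≤ h.im) : ‖TT (mm d (zz E η)) h‖ ≤ C := by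
  have hC0 : 0 ≤ C := by linarith
  calc ‖TT (mm d (zz E η)) h‖ ≤ C * min 1 ‖h - mm d (zz E η)‖ := hle h hh
    _ ≤ C * 1 := mul_le_mul_of_nonneg_left (min_le_left _ _) hC0
    _ = C := mul_one C

lemma lead_im (ω : SimpleGraph (Fin n) × StarPos n d 2) (E : ℝ) {η : ℝ} (hη : 0 < η)
    (a : Fin 2 × Fin d) : 0 ≤ (leadMat ω (zz E η) a a).im :=
  H801.im_resD_diag_nonneg (adj_isHermitian ω.1) _ E hη _

/-- Pointwise replacement of the coordinates of the single stars by those of the pair. -/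
lemma repl_pt (hη : 0 < η) (hC : 1 ≤ C)
    (hle : ∀ h : ℂ, 0 ≤ h.im → ‖TT (mm d (zz E η)) h‖ ≤ C * min 1 ‖h - mm d (zz E η)‖)
    (hlip : ∀ h h' : ℂ, 0 ≤ h.im → 0 ≤ h'.im →
      ‖TT (mm d (zz E η)) h - TT (mm d (zz E η)) h'‖ ≤ C * ‖h - h'‖)
    (hL : 0 ≤ L) (hF0 : F 0 0 = 0)
    (hF : ∀ x y x' y' : ℂ, ‖x‖ ≤ C → ‖y‖ ≤ C → ‖x'‖ ≤ C → ‖y'‖ ≤ C →
      |F x y - F x' y'| ≤ L * (‖x - x'‖ * ‖y‖ + ‖x'‖ * ‖y - y'‖))
    {δ : ℝ} (hδ : 0 < δ) (hδ1 : δ ≤ 1) (P : Prop) [Decidable P] (j : Fin 2) (k l : Fin d)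
    (ω : SimpleGraph (Fin n) × StarPos n d 2) :
    |F (tt (zz E η) ω 0 k) (tt (zz E η) ω j l) -
      (if P then F (TT (mm d (zz E η)) (leadMat ω (zz E η) (0, k) (0, k)))
        (TT (mm d (zz E η)) (leadMat ω (zz E η) (j, l) (j, l))) else 0)| ≤
      δ * L / 2 * (‖tt (zz E η) ω 0 k‖ ^ 2 + ‖tt (zz E η) ω j l‖ ^ 2) +
        (2 * L * C ^ 2 / δ * (if P then EE ω (zz E η) else 0) +
         L * C ^ 2 * (if P then 0 else 1)) := by
  have hC0 : 0 < C := by linarith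
  set z := zz E η with hz
  set m := mm d z with hm
  have him : ∀ (j : Fin 2) (k : Fin d), 0 ≤ (leadMat (sub1 ω j) z (0, k) (0, k)).im := fun j k =>
    H801.im_resD_diag_nonneg (adj_isHermitian (sub1 ω j).1) _ E hη _
  have htt : ∀ (j : Fin 2) (k : Fin d), tt z ω j k =
      TT m (leadMat (sub1 ω j) z (0, k) (0, k)) := by
    intro j k
    unfold tt
    rw [hc_eq_sub1]
  have htb : ∀ (j : Fin 2) (k : Fin d), ‖tt z ω j k‖ ≤ C := by
    intro j k
    rw [htt]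
    exact tt_bd hη hC hle (him j k)
  have hTb : ∀ a : Fin 2 × Fin d, ‖TT m (leadMat ω z a a)‖ ≤ C := fun a =>
    tt_bd hη hC hle (lead_im ω E hη a)
  by_cases hP : P
  · rw [if_pos hP, if_pos hP, if_pos hP, mul_zero, add_zero]
    have hE0 := EE_nonneg ω z
    set s := Real.sqrt (EE ω z) with hs
    have hs2 : s ^ 2 = EE ω z := Real.sq_sqrt hE0
    have hd1 : ∀ (j : Fin 2) (k : Fin d), ‖tt z ω j k - TT m (leadMat ω z (j, k) (j, k))‖ ≤
        C * s := by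
      intro j k
      rw [htt]
      refine (hlip _ _ (him j k) (lead_im ω E hη (j, k))).trans ?_
      refine mul_le_mul_of_nonneg_left ?_ hC0.le
      rw [norm_sub_rev]
      refine Real.le_sqrt_of_sq_le ?_
      exact dif_sq_le ω z j k
    rw [← hs2]
    refine young_repl hL hδ hδ1 ?_
    refine (hF _ _ _ _ (htb 0 k) (htb j l) (hTb _) (hTb _)).trans ?_
    refine mul_le_mul_of_nonneg_left ?_ hL
    have h1 := hd1 0 k
    have h2 := hd1 j l
    have h3 : ‖TT m (leadMat ω z (0, k) (0, k))‖ ≤ ‖tt z ω 0 k‖ + C * s := by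
      have := norm_sub_le (tt z ω 0 k) (tt z ω 0 k - TT m (leadMat ω z (0, k) (0, k)))
      rw [sub_sub_cancel] at this
      linarith
    have hs0 : 0 ≤ C * s := by positivity
    exact add_le_add (mul_le_mul_of_nonneg_right h1 (norm_nonneg _))
      (mul_le_mul h3 h2 (norm_nonneg _) (by positivity))
  · rw [if_neg hP, if_neg hP, if_neg hP, mul_zero, zero_add, mul_one, sub_zero]
    refine (F_le hC hF0 hF (htb 0 k) (htb j l)).trans ?_
    have h1 : ‖tt z ω 0 k‖ * ‖tt z ω j l‖ ≤ C * C :=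
      mul_le_mul (htb 0 k) (htb j l) (norm_nonneg _) hC0.le
    have h2 : 0 ≤ δ * L / 2 * (‖tt z ω 0 k‖ ^ 2 + ‖tt z ω j l‖ ^ 2) := by positivity
    have h3 : L * (‖tt z ω 0 k‖ * ‖tt z ω j l‖) ≤ L * (C * C) := mul_le_mul_of_nonneg_left h1 hL
    nlinarith

/-- The product of two coordinates of the pair is bounded by the deviation. -/
lemma TT_mul_le_rho (hC : 1 ≤ C)
    (hle : ∀ h : ℂ, 0 ≤ h.im → ‖TT (mm d (zz E η)) h‖ ≤ C * min 1 ‖h - mm d (zz E η)‖)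
    (hη : 0 < η) (ω : SimpleGraph (Fin n) × StarPos n d 2) (a b : Fin 2 × Fin d) :
    ‖TT (mm d (zz E η)) (leadMat ω (zz E η) a a)‖ *
      ‖TT (mm d (zz E η)) (leadMat ω (zz E η) b b)‖ ≤ C ^ 2 * rho ω (zz E η) := by
  have hC0 : 0 < C := by linarith
  have key : ∀ a : Fin 2 × Fin d, (min 1 ‖leadMat ω (zz E η) a a - mm d (zz E η)‖) ^ 2 ≤
      rho ω (zz E η) := by
    intro a
    have h0 : 0 ≤ min 1 ‖leadMat ω (zz E η) a a - mm d (zz E η)‖ :=
      le_min zero_le_one (norm_nonneg _)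
    refine le_min (pow_le_one₀ h0 (min_le_left _ _)) ?_
    have h1 : (min 1 ‖leadMat ω (zz E η) a a - mm d (zz E η)‖) ^ 2 ≤
        ‖leadMat ω (zz E η) a a - (if a = a then mm d (zz E η) else 0)‖ ^ 2 := by
      rw [if_pos rfl]
      have := min_le_right 1 ‖leadMat ω (zz E η) a a - mm d (zz E η)‖
      gcongr
    refine h1.trans ?_
    refine le_trans ?_ (Finset.single_le_sum (f := fun a => ∑ b,
      ‖leadMat ω (zz E η) a b - (if a = b then mm d (zz E η) else 0)‖ ^ 2)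
      (fun i _ => Finset.sum_nonneg fun r _ => sq_nonneg _) (Finset.mem_univ a))
    exact Finset.single_le_sum (f := fun b =>
      ‖leadMat ω (zz E η) a b - (if a = b then mm d (zz E η) else 0)‖ ^ 2)
      (fun r _ => sq_nonneg _) (Finset.mem_univ a)
  have h1 := hle _ (lead_im ω E hη a)
  have h2 := hle _ (lead_im ω E hη b)
  have ha := key a
  have hb := key b
  set x := min 1 ‖leadMat ω (zz E η) a a - mm d (zz E η)‖ with hx
  set y := min 1 ‖leadMat ω (zz E η) b b - mm d (zz E η)‖ with hy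
  have hx0 : 0 ≤ x := le_min zero_le_one (norm_nonneg _)
  have hy0 : 0 ≤ y := le_min zero_le_one (norm_nonneg _)
  calc _ ≤ (C * x) * (C * y) := mul_le_mul h1 h2 (norm_nonneg _) (by positivity)
    _ = C ^ 2 * (x * y) := by ring
    _ ≤ C ^ 2 * rho ω (zz E η) := by
        refine mul_le_mul_of_nonneg_left ?_ (by positivity)
        nlinarith [sq_nonneg (x - y)]

end

open Classical in
/-- The exchange for the pair. -/
lemma exch_pair (hd : 1 ≤ d) {E η C : ℝ} (hη : 0 < η) (hC : 1 ≤ C)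
    (hle : ∀ h : ℂ, 0 ≤ h.im → ‖TT (mm d (zz E η)) h‖ ≤ C * min 1 ‖h - mm d (zz E η)‖)
    {F : ℂ → ℂ → ℝ} {L : ℝ} (hL : 0 ≤ L) (hF0 : F 0 0 = 0)
    (hF : ∀ x y x' y' : ℂ, ‖x‖ ≤ C → ‖y‖ ≤ C → ‖x'‖ ≤ C → ‖y'‖ ≤ C →
      |F x y - F x' y'| ≤ L * (‖x - x'‖ * ‖y‖ + ‖x'‖ * ‖y - y'‖))
    (z' : ℂ) (g : Matrix (Fin 2 × Fin d) (Fin 2 × Fin d) ℂ → Prop)
    (hg : ∀ (σ : Equiv.Perm (Fin 2 × Fin d)) (M : Matrix (Fin 2 × Fin d) (Fin 2 × Fin d) ℂ),
      g (M.submatrix σ σ) ↔ g M)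
    {b : ℝ} (hb : 0 ≤ b) {w w' : SimpleGraph (Fin n) → ℝ} (hw : Wt n d b w w')
    {k l : Fin d} (hkl : k ≠ l) :
    |EW n d w (fun ω => if ω ∈ ZZs n d 2 ∧ g (leadMat ω z') then
        F (TT (mm d (zz E η)) (leadMat ω (zz E η) (0, k) (0, k)))
          (TT (mm d (zz E η)) (leadMat ω (zz E η) (0, l) (0, l))) else 0) -
      EW n d w (fun ω => if ω ∈ ZZs n d 2 ∧ g (leadMat ω z') then
        F (TT (mm d (zz E η)) (leadMat ω (zz E η) (0, k) (0, k)))
          (TT (mm d (zz E η)) (leadMat ω (zz E η) (1, l) (1, l))) else 0)| ≤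
      b * (L * C ^ 2) * XW n d w' (zz E η) := by
  set z := zz E η with hz
  set m := mm d z with hm
  set σ : Equiv.Perm (Fin 2 × Fin d) := Equiv.swap (0, l) (1, l) with hσ
  set Z : Bool → ℂ := fun i => if i then z' else z with hZdef
  set Φ : (Bool → Matrix (Fin 2 × Fin d) (Fin 2 × Fin d) ℂ) → ℝ := fun M =>
    if g (M true) then F (TT m (M false (0, k) (0, k))) (TT m (M false (0, l) (0, l))) else 0
    with hΦ
  have hσk : σ (0, k) = (0, k) := by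
    rw [hσ]
    refine Equiv.swap_apply_of_ne_of_ne ?_ ?_
    · intro h
      exact hkl (Prod.mk.inj h).2
    · intro h
      exact absurd (Prod.mk.inj h).1 (by decide)
  have hσl : σ (0, l) = (1, l) := by
    rw [hσ]
    exact Equiv.swap_apply_left _ _
  have h1 := B.specSW d n 2 (by omega) σ Bool Z b w w' hw Φ
  have e1 : ∀ ω : SimpleGraph (Fin n) × StarPos n d 2, Φ (fun i => leadMat ω (Z i)) =
      if g (leadMat ω z') then F (TT m (leadMat ω z (0, k) (0, k)))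
        (TT m (leadMat ω z (0, l) (0, l))) else 0 := by
    intro ω
    simp [hΦ, hZdef]
  have e2 : ∀ ω : SimpleGraph (Fin n) × StarPos n d 2,
      Φ (fun i => (leadMat ω (Z i)).submatrix σ σ) =
      if g (leadMat ω z') then F (TT m (leadMat ω z (0, k) (0, k)))
        (TT m (leadMat ω z (1, l) (1, l))) else 0 := by
    intro ω
    simp only [hΦ, hZdef, if_true, Bool.false_eq_true, if_false, hg, Matrix.submatrix_apply, hσk,
      hσl]
  simp only [e1, e2] at h1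
  have conv : ∀ f : SimpleGraph (Fin n) × StarPos n d 2 → ℝ,
      EW n d w (fun ω => if ω ∈ ZZs n d 2 ∧ g (leadMat ω z') then f ω else 0) =
      (∑ ω ∈ ZZs n d 2, w ω.1 * (if g (leadMat ω z') then f ω else 0)) /
        (WW n d 2).card := by
    intro f
    rw [← B.avg_ite_ZZs]
    unfold EW
    congr 1
    funext ω
    by_cases hZ : ω ∈ ZZs n d 2
    · by_cases hgω : g (leadMat ω z')
      · simp only [hZ, hgω, true_and, if_true]
      · simp only [hZ, hgω, true_and, if_true, if_false, mul_zero]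
    · simp only [hZ, false_and, if_false, mul_zero]
  rw [conv, conv, ← sub_div, abs_div, abs_of_nonneg (Nat.cast_nonneg (α := ℝ) (WW n d 2).card)]
  have hX : (∑ ω ∈ ZZs n d 2, w' ω.1 * rho ω z) / (WW n d 2).card ≤ XW n d w' z := by
    rw [← B.avg_ite_ZZs]
    refine H490.avg_mono fun ω _ => ?_
    split_ifs
    · exact le_rfl
    · exact mul_nonneg (hw.nonneg' _) (rho_nonneg ω z)
  have h2 : b * ∑ ω ∈ ZZs n d 2, w' ω.1 * |if g (leadMat ω z') then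
      F (TT m (leadMat ω z (0, k) (0, k))) (TT m (leadMat ω z (1, l) (1, l))) else 0| ≤
      b * (L * C ^ 2) * ∑ ω ∈ ZZs n d 2, w' ω.1 * rho ω z := by
    rw [mul_assoc b, Finset.mul_sum (s := ZZs n d 2) (a := L * C ^ 2)]
    refine mul_le_mul_of_nonneg_left (Finset.sum_le_sum fun ω _ => ?_) hb
    have hw0 := hw.nonneg' ω.1
    have hr0 := rho_nonneg ω z
    have h3 : |if g (leadMat ω z') then
        F (TT m (leadMat ω z (0, k) (0, k))) (TT m (leadMat ω z (1, l) (1, l))) else 0| ≤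
        L * C ^ 2 * rho ω z := by
      split_ifs
      · refine (F_le hC hF0 hF (tt_bd hη hC hle (lead_im ω E hη _))
          (tt_bd hη hC hle (lead_im ω E hη _))).trans ?_
        rw [mul_assoc]
        exact mul_le_mul_of_nonneg_left (TT_mul_le_rho hC hle hη ω _ _) hL
      · rw [abs_zero]
        positivity
    calc w' ω.1 * _ ≤ w' ω.1 * (L * C ^ 2 * rho ω z) := mul_le_mul_of_nonneg_left h3 hw0
      _ = _ := by ring
  calc _ ≤ (b * (L * C ^ 2) * ∑ ω ∈ ZZs n d 2, w' ω.1 * rho ω z) / (WW n d 2).card :=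
        div_le_div_of_nonneg_right (h1.trans h2) (Nat.cast_nonneg _)
    _ = b * (L * C ^ 2) * ((∑ ω ∈ ZZs n d 2, w' ω.1 * rho ω z) / (WW n d 2).card) := by
        rw [mul_div_assoc]
    _ ≤ _ := mul_le_mul_of_nonneg_left hX (by positivity)

/-- Arithmetic for Piece X. -/
lemma pieceX_arith {a0 a1 b0 b1 t0k t0l t1l gd bd b X' L C δ : ℝ} (hL : 0 ≤ L) (hC : 1 ≤ C)
    (hδ : 0 < δ) (hδ1 : δ ≤ 1) (_hk0 : 0 ≤ t0k) (hl0 : 0 ≤ t0l) (hl1 : 0 ≤ t1l) (hgd0 : 0 ≤ gd)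
    (hbd0 : 0 ≤ bd) (hbX : 0 ≤ b * X')
    (hr0 : |a0 - b0| ≤ δ * L / 2 * (t0k + t0l) + (2 * L * C ^ 2 / δ * gd + L * C ^ 2 * bd))
    (hr1 : |a1 - b1| ≤ δ * L / 2 * (t0k + t1l) + (2 * L * C ^ 2 / δ * gd + L * C ^ 2 * bd))
    (hX : |b0 - b1| ≤ b * (L * C ^ 2) * X') :
    |a0 - a1| ≤ δ * L * (t0k + t0l + t1l) + 4 * L * C ^ 2 / δ * (gd + bd + b * X') := by
  have tri : |a0 - a1| ≤ |a0 - b0| + |b0 - b1| + |a1 - b1| := by
    have e : a0 - a1 = (a0 - b0) + (b0 - b1) - (a1 - b1) := by ring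
    rw [e]
    exact (abs_sub _ _).trans (add_le_add (abs_add_le _ _) le_rfl)
  have hLC : 0 ≤ L * C ^ 2 := by positivity
  have hdiv : L * C ^ 2 ≤ L * C ^ 2 / δ := by
    rw [le_div_iff₀ hδ]
    nlinarith
  have hLCd : 0 ≤ L * C ^ 2 / δ := by positivity
  have e1 : 4 * L * C ^ 2 / δ * (gd + bd + b * X') =
      4 * (L * C ^ 2 / δ) * gd + 4 * (L * C ^ 2 / δ) * bd + 4 * (L * C ^ 2 / δ) * (b * X') := by
    ring
  have e2 : 2 * L * C ^ 2 / δ * gd = 2 * (L * C ^ 2 / δ) * gd := by ring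
  rw [e2] at hr0 hr1
  rw [e1]
  have f1 : L * C ^ 2 * bd ≤ L * C ^ 2 / δ * bd := mul_le_mul_of_nonneg_right hdiv hbd0
  have f2 : b * (L * C ^ 2) * X' ≤ L * C ^ 2 / δ * (b * X') := by
    have : b * (L * C ^ 2) * X' = L * C ^ 2 * (b * X') := by ring
    rw [this]
    exact mul_le_mul_of_nonneg_right hdiv hbX
  have g0 : 0 ≤ L * C ^ 2 / δ * gd := by positivity
  have g1 : 0 ≤ L * C ^ 2 / δ * bd := by positivity
  have g2 : 0 ≤ L * C ^ 2 / δ * (b * X') := by positivity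
  have g3 : 0 ≤ δ * L * t0l := by positivity
  have g4 : 0 ≤ δ * L * t1l := by positivity
  have h5 : δ * L / 2 * (t0k + t0l) + δ * L / 2 * (t0k + t1l) ≤ δ * L * (t0k + t0l + t1l) := by
    have : δ * L * (t0k + t0l + t1l) - (δ * L / 2 * (t0k + t0l) + δ * L / 2 * (t0k + t1l)) =
        δ * L * t0l / 2 + δ * L * t1l / 2 := by ring
    linarith
  linarith

/-- **Piece X.** -/
theorem pieceX (hd : 1 ≤ d) : PieceX d := by
  classical
  intro n hn E η hη C hC hle hlip z' g hg b hb w w' hw F L hL hF0 hF k l hkl δ hδ hδ1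
  have hrep : ∀ j : Fin 2,
      |EW n d w (fun ω => F (tt (zz E η) ω 0 k) (tt (zz E η) ω j l)) -
        EW n d w (fun ω => if ω ∈ ZZs n d 2 ∧ g (leadMat ω z') then
          F (TT (mm d (zz E η)) (leadMat ω (zz E η) (0, k) (0, k)))
            (TT (mm d (zz E η)) (leadMat ω (zz E η) (j, l) (j, l))) else 0)| ≤
      δ * L / 2 * (EW n d w (fun ω => ‖tt (zz E η) ω 0 k‖ ^ 2) +
        EW n d w (fun ω => ‖tt (zz E η) ω j l‖ ^ 2)) +
      (2 * L * C ^ 2 / δ * EW n d w (fun ω =>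
          if ω ∈ ZZs n d 2 ∧ g (leadMat ω z') then EE ω (zz E η) else 0) +
        L * C ^ 2 * EW n d w (fun ω =>
          if ω ∈ ZZs n d 2 ∧ g (leadMat ω z') then 0 else 1)) := by
    intro j
    have h1 := EW_abs_sub_le (w := w) hw.nonneg (fun ω _ =>
      repl_pt hη hC hle hlip hL hF0 hF hδ hδ1 (ω ∈ ZZs n d 2 ∧ g (leadMat ω z')) j k l ω)
    rw [EW_add, EW_smul, EW_add, EW_add, EW_smul, EW_smul] at h1
    exact h1
  have hX := exch_pair hd hη hC hle hL hF0 hF z' g hg hb hw hkl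
  have hk0 : 0 ≤ EW n d w (fun ω => ‖tt (zz E η) ω 0 k‖ ^ 2) :=
    EW_nonneg hw.nonneg fun ω _ => sq_nonneg _
  have hl0 : 0 ≤ EW n d w (fun ω => ‖tt (zz E η) ω 0 l‖ ^ 2) :=
    EW_nonneg hw.nonneg fun ω _ => sq_nonneg _
  have hl1 : 0 ≤ EW n d w (fun ω => ‖tt (zz E η) ω 1 l‖ ^ 2) :=
    EW_nonneg hw.nonneg fun ω _ => sq_nonneg _
  have hgd0 := gdE_nonneg (d := d) hw.nonneg (zz E η) z' g
  have hbd0 := bdE_nonneg (d := d) hw.nonneg z' g
  unfold gdE at hgd0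
  unfold bdE at hbd0
  exact pieceX_arith hL hC hδ hδ1 hk0 hl0 hl1 hgd0 hbd0
    (mul_nonneg hb (XW_nonneg (d := d) hw.nonneg' (zz E η))) (hrep 0) (hrep 1) hX

end

end Vale.Agent.P156.FE
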