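import Vale.Agent.P156.H894.FE8F

/-! # FE8: comparison of the deviation with the coordinates -/

open MeasureTheory Filter Topology Matrix Finset

namespace Vale.Agent.P156.FE

noncomputable section

lemma min_one_sum_le {ι : Type*} (s : Finset ι) (f : ι → ℝ) (hf : ∀ i ∈ s, 0 ≤ f i) :
    min 1 (∑ i ∈ s, f i) ≤ ∑ i ∈ s, min 1 (f i) := by
  classical
  by_cases h : ∃ i ∈ s, 1 ≤ f i
  · obtain ⟨i, hi, h1⟩ := h
    refine (min_le_left _ _).trans ?_
    have h2 := Finset.single_le_sum (f := fun i => min 1 (f i))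
      (fun j hj => le_min zero_le_one (hf j hj)) hi
    simp only [min_eq_left h1] at h2
    exact h2
  · push Not at h
    refine (min_le_right _ _).trans (Finset.sum_le_sum fun i hi => ?_)
    rw [min_eq_right (h i hi).le]

variable {n d : ℕ}

/-- Pointwise comparison. -/
lemma rho_le_tt {E η C : ℝ} (hη : 0 < η) (hC : 1 ≤ C)
    (hlow : ∀ h : ℂ, 0 ≤ h.im → C⁻¹ * min 1 ‖h - mm d (zz E η)‖ ≤ ‖TT (mm d (zz E η)) h‖)
    (hlip : ∀ h h' : ℂ, 0 ≤ h.im → 0 ≤ h'.im →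
      ‖TT (mm d (zz E η)) h - TT (mm d (zz E η)) h'‖ ≤ C * ‖h - h'‖)
    (ω : SimpleGraph (Fin n) × StarPos n d 2) :
    rho ω (zz E η) ≤ 2 * C ^ 2 * ∑ j : Fin 2, ∑ k : Fin d, ‖tt (zz E η) ω j k‖ ^ 2 +
      (2 * C ^ 4 + 1) * EE ω (zz E η) := by
  have hC0 : 0 < C := by linarith
  set z := zz E η with hz
  set m := mm d z with hm
  -- the diagonal entries
  have hdiag : ∀ (j : Fin 2) (k : Fin d), min 1 (‖leadMat ω z (j, k) (j, k) - m‖ ^ 2) ≤
      2 * C ^ 2 * ‖tt z ω j k‖ ^ 2 +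
      2 * C ^ 4 * ‖leadMat ω z (j, k) (j, k) - leadMat (sub1 ω j) z (0, k) (0, k)‖ ^ 2 := by
    intro j k
    have i1 : 0 ≤ (leadMat ω z (j, k) (j, k)).im :=
      H801.im_resD_diag_nonneg (adj_isHermitian ω.1) _ E hη _
    have i2 : 0 ≤ (leadMat (sub1 ω j) z (0, k) (0, k)).im :=
      H801.im_resD_diag_nonneg (adj_isHermitian (sub1 ω j).1) _ E hη _
    have h1 := hlow _ i1
    have h2 := hlip _ _ i1 i2
    have h3 : tt z ω j k = TT m (leadMat (sub1 ω j) z (0, k) (0, k)) := by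
      unfold tt
      rw [hc_eq_sub1]
    rw [← h3] at h2
    set x := leadMat ω z (j, k) (j, k)
    set y := leadMat (sub1 ω j) z (0, k) (0, k)
    have h4 : ‖TT m x‖ ≤ ‖tt z ω j k‖ + C * ‖x - y‖ := by
      have := norm_add_le (tt z ω j k) (TT m x - tt z ω j k)
      rw [add_sub_cancel] at this
      linarith
    have h5 : min 1 ‖x - m‖ ≤ C * (‖tt z ω j k‖ + C * ‖x - y‖) := by
      have h6 : min 1 ‖x - m‖ ≤ C * ‖TT m x‖ := by
        rw [inv_mul_le_iff₀ hC0] at h1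
        exact h1
      exact h6.trans (mul_le_mul_of_nonneg_left h4 hC0.le)
    have h7 : min 1 (‖x - m‖ ^ 2) ≤ (min 1 ‖x - m‖) ^ 2 := by
      rcases le_total 1 ‖x - m‖ with h | h
      · rw [min_eq_left h]
        simp
      · rw [min_eq_right h]
        exact min_le_right _ _
    have h8 : (min 1 ‖x - m‖) ^ 2 ≤ (C * (‖tt z ω j k‖ + C * ‖x - y‖)) ^ 2 := by
      have : 0 ≤ min 1 ‖x - m‖ := le_min zero_le_one (norm_nonneg _)
      gcongr
    refine (h7.trans h8).trans ?_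
    have h9 : (‖tt z ω j k‖ + C * ‖x - y‖) ^ 2 ≤ 2 * ‖tt z ω j k‖ ^ 2 + 2 * (C * ‖x - y‖) ^ 2 := by
      nlinarith [sq_nonneg (‖tt z ω j k‖ - C * ‖x - y‖)]
    calc (C * (‖tt z ω j k‖ + C * ‖x - y‖)) ^ 2 = C ^ 2 * (‖tt z ω j k‖ + C * ‖x - y‖) ^ 2 := by
          ring
      _ ≤ C ^ 2 * (2 * ‖tt z ω j k‖ ^ 2 + 2 * (C * ‖x - y‖) ^ 2) :=
          mul_le_mul_of_nonneg_left h9 (by positivity)
      _ = _ := by ring
  -- split the sum
  have h1 : rho ω z ≤ ∑ a, ∑ b, min 1 (‖leadMat ω z a b - (if a = b then m else 0)‖ ^ 2) := by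
    unfold rho
    refine (min_one_sum_le _ _ fun a _ => Finset.sum_nonneg fun b _ => sq_nonneg _).trans ?_
    exact Finset.sum_le_sum fun a _ => min_one_sum_le _ _ fun b _ => sq_nonneg _
  have h2 : ∀ a : Fin 2 × Fin d,
      ∑ b, min 1 (‖leadMat ω z a b - (if a = b then m else 0)‖ ^ 2) ≤
      min 1 (‖leadMat ω z a a - m‖ ^ 2) + ∑ b, if a = b then 0 else ‖leadMat ω z a b‖ ^ 2 := by
    intro a
    have h3 : ∀ b, min 1 (‖leadMat ω z a b - (if a = b then m else 0)‖ ^ 2) ≤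
        (if a = b then min 1 (‖leadMat ω z a a - m‖ ^ 2) else 0) +
        (if a = b then 0 else ‖leadMat ω z a b‖ ^ 2) := by
      intro b
      split_ifs with hab
      · subst hab
        rw [add_zero]
      · rw [sub_zero, zero_add]
        exact min_le_right _ _
    refine (Finset.sum_le_sum fun b _ => h3 b).trans (le_of_eq ?_)
    rw [Finset.sum_add_distrib, Finset.sum_ite_eq, if_pos (Finset.mem_univ a)]
  have h4 : rho ω z ≤ ∑ a : Fin 2 × Fin d, min 1 (‖leadMat ω z a a - m‖ ^ 2) +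
      ∑ a, ∑ b, if a = b then 0 else ‖leadMat ω z a b‖ ^ 2 := by
    refine h1.trans ((Finset.sum_le_sum fun a _ => h2 a).trans (le_of_eq ?_))
    rw [Finset.sum_add_distrib]
  have h5 : ∑ a : Fin 2 × Fin d, min 1 (‖leadMat ω z a a - m‖ ^ 2) ≤
      ∑ j : Fin 2, ∑ k : Fin d, (2 * C ^ 2 * ‖tt z ω j k‖ ^ 2 +
      2 * C ^ 4 * ‖leadMat ω z (j, k) (j, k) - leadMat (sub1 ω j) z (0, k) (0, k)‖ ^ 2) := by
    rw [Fintype.sum_prod_type]
    exact Finset.sum_le_sum fun j _ => Finset.sum_le_sum fun k _ => hdiag j k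
  have h6 : ∑ j : Fin 2, ∑ k : Fin d,
      ‖leadMat ω z (j, k) (j, k) - leadMat (sub1 ω j) z (0, k) (0, k)‖ ^ 2 ≤
      ∑ j : Fin 2, ∑ p : Fin d, ∑ r : Fin d,
        ‖leadMat ω z (j, p) (j, r) - leadMat (sub1 ω j) z (0, p) (0, r)‖ ^ 2 := by
    refine Finset.sum_le_sum fun j _ => Finset.sum_le_sum fun k _ => ?_
    exact Finset.single_le_sum (f := fun r : Fin d =>
      ‖leadMat ω z (j, k) (j, r) - leadMat (sub1 ω j) z (0, k) (0, r)‖ ^ 2)
      (fun r _ => sq_nonneg _) (Finset.mem_univ k)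
  set OFF := ∑ a, ∑ b, (if a = b then 0 else ‖leadMat ω z a b‖ ^ 2) with hOFF
  set DIF := ∑ j : Fin 2, ∑ p : Fin d, ∑ r : Fin d,
        ‖leadMat ω z (j, p) (j, r) - leadMat (sub1 ω j) z (0, p) (0, r)‖ ^ 2 with hDIF
  have hEE : EE ω z = DIF + OFF := rfl
  have hOFF0 : 0 ≤ OFF := by
    refine Finset.sum_nonneg fun a _ => Finset.sum_nonneg fun b _ => ?_
    split_ifs
    · exact le_rfl
    · positivity
  have hDIF0 : 0 ≤ DIF := Finset.sum_nonneg fun j _ => Finset.sum_nonneg fun p _ =>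
    Finset.sum_nonneg fun r _ => sq_nonneg _
  have h7 : ∑ j : Fin 2, ∑ k : Fin d, (2 * C ^ 2 * ‖tt z ω j k‖ ^ 2 +
      2 * C ^ 4 * ‖leadMat ω z (j, k) (j, k) - leadMat (sub1 ω j) z (0, k) (0, k)‖ ^ 2) =
      2 * C ^ 2 * ∑ j : Fin 2, ∑ k : Fin d, ‖tt z ω j k‖ ^ 2 +
      2 * C ^ 4 * ∑ j : Fin 2, ∑ k : Fin d,
        ‖leadMat ω z (j, k) (j, k) - leadMat (sub1 ω j) z (0, k) (0, k)‖ ^ 2 := by
    simp only [Finset.sum_add_distrib, Finset.mul_sum]
  rw [h7] at h5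
  have h8 : 2 * C ^ 4 * ∑ j : Fin 2, ∑ k : Fin d,
        ‖leadMat ω z (j, k) (j, k) - leadMat (sub1 ω j) z (0, k) (0, k)‖ ^ 2 ≤ 2 * C ^ 4 * DIF :=
    mul_le_mul_of_nonneg_left h6 (by positivity)
  have h9 : 0 ≤ 2 * C ^ 4 * OFF := by positivity
  rw [hEE]
  linarith

/-- The comparison of the averaged deviation with the second moment of the coordinate. -/
theorem pieceY (d : ℕ) : PieceY d := by
  classical
  intro n hn w hw E η hη C hC hlow hlip z' g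
  have hC0 : 0 < C := by linarith
  have h1 : XW n d w (zz E η) ≤ EW n d w (fun ω =>
      (2 * C ^ 2 * ∑ j : Fin 2, ∑ k : Fin d, ‖tt (zz E η) ω j k‖ ^ 2 +
      (2 * C ^ 4 + 1) * (if ω ∈ ZZs n d 2 ∧ g (leadMat ω z') then EE ω (zz E η) else 0)) +
      (if ω ∈ ZZs n d 2 ∧ g (leadMat ω z') then 0 else 1)) := by
    refine EW_mono hw fun ω _ => ?_
    have h0 : 0 ≤ 2 * C ^ 2 * ∑ j : Fin 2, ∑ k : Fin d, ‖tt (zz E η) ω j k‖ ^ 2 := by
      have : 0 ≤ ∑ j : Fin 2, ∑ k : Fin d, ‖tt (zz E η) ω j k‖ ^ 2 :=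
        Finset.sum_nonneg fun j _ => Finset.sum_nonneg fun k _ => sq_nonneg _
      positivity
    by_cases hg : ω ∈ ZZs n d 2 ∧ g (leadMat ω z')
    · rw [if_pos hg, if_pos hg, add_zero]
      exact rho_le_tt hη hC hlow hlip ω
    · rw [if_neg hg, if_neg hg, mul_zero, add_zero]
      have : rho ω (zz E η) ≤ 1 := min_le_left _ _
      linarith
  rw [EW_add, EW_add, EW_smul, EW_smul, EW_sum] at h1
  have h2 : ∑ j : Fin 2, EW n d w (fun ω => ∑ k : Fin d, ‖tt (zz E η) ω j k‖ ^ 2) =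
      2 * d * vW n d w (zz E η) := by
    have h3 : ∀ j : Fin 2, EW n d w (fun ω => ∑ k : Fin d, ‖tt (zz E η) ω j k‖ ^ 2) =
        d * vW n d w (zz E η) := by
      intro j
      rw [EW_sum, Finset.sum_congr rfl fun k _ => EW_tt_sq hn (zz E η) j k, Finset.sum_const,
        Finset.card_univ, Fintype.card_fin, nsmul_eq_mul]
    rw [Finset.sum_congr rfl fun j _ => h3 j, Finset.sum_const, Finset.card_univ,
      Fintype.card_fin, nsmul_eq_mul]
    push_cast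
    ring
  rw [h2] at h1
  unfold gdE bdE
  calc XW n d w (zz E η) ≤ _ := h1
    _ = _ := by ring

end

end Vale.Agent.P156.FE
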