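import Vale.Agent.P156.H894.Ident

/-!
# P156, block D6: from the equality relations for the smoothed star law to the wave
-/

namespace Vale.Agent.P156.H894

open MeasureTheory ProbabilityTheory
open Vale.Agent.P156.H849 Vale.Agent.P156.H653
open scoped RealInnerProductSpace BigOperators ENNReal

noncomputable section

variable {d q k : ℕ}

/-! ### Geometry -/

/-- The direction `w_o ⊗ e`. -/
def woL (q k : ℕ) (lam : ℝ) : Ek k →L[ℝ] StarSp q k :=
  (ContinuousLinearMap.id ℝ (Ek k)).prod
    (ContinuousLinearMap.pi fun _ => cc q lam • ContinuousLinearMap.id ℝ (Ek k))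

theorem woL_apply (lam : ℝ) (e : Ek k) : woL q k lam e = (e, fun _ => cc q lam • e) := rfl

/-- The direction `u_l ⊗ e`. -/
def ulL (q k : ℕ) (l : Fin (q + 1)) : Ek k →L[ℝ] StarSp q k :=
  (0 : Ek k →L[ℝ] Ek k).prod
    (ContinuousLinearMap.pi fun j : Fin q => (if j.castSucc = l then ((q : ℝ) + 1) else 0) •
      ContinuousLinearMap.id ℝ (Ek k) - ContinuousLinearMap.id ℝ (Ek k))

theorem ulL_apply (l : Fin (q + 1)) (e : Ek k) : ulL q k l e =
    (0, fun j => (if j.castSucc = l then ((q : ℝ) + 1) else 0) • e - e) := rfl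

/-- The leaf value. -/
def plL (q k : ℕ) (lam : ℝ) (l : Fin (q + 1)) : StarSp q k →L[ℝ] Ek k :=
  (ContinuousLinearMap.proj l).comp
    ((ContinuousLinearMap.snd ℝ (Ek k) (Fin (q + 1) → Ek k)).comp (extL q k lam))

theorem plL_apply (lam : ℝ) (l : Fin (q + 1)) (z : StarSp q k) :
    plL q k lam l z = (extL q k lam z).2 l := rfl

theorem sum_plL (lam : ℝ) (z : StarSp q k) : ∑ l, plL q k lam l z = lam • z.1 := by
  simp only [plL_apply]
  rw [Fin.sum_univ_castSucc, extL_last]
  simp only [extL_castSucc]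
  abel

/-- The concrete star geometry on `StarSp q k` (nodes `o, 1, ..., q`, `d = q + 1`). -/
def geom (q k : ℕ) (lam : ℝ) : StarGeom (Ek k) (StarSp q k) (q + 1) lam where
  po := ContinuousLinearMap.fst ℝ (Ek k) (Fin q → Ek k)
  pl := plL q k lam
  wo := woL q k lam
  ul := ulL q k
  sum_ul := by
    intro e
    simp only [ulL_apply]
    refine Prod.ext ?_ ?_
    · rw [Prod.fst_sum]; simp
    · funext j
      rw [Prod.snd_sum, Finset.sum_apply]
      simp only [Finset.sum_sub_distrib, ite_smul, zero_smul, Finset.sum_ite_eq, Finset.mem_univ,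
        if_true, Finset.sum_const, Finset.card_univ, Fintype.card_fin]
      rw [← Nat.cast_smul_eq_nsmul ℝ]
      push_cast
      exact sub_self _
  decomp := by
    intro z
    have hd : ((q + 1 : ℕ) : ℝ) = (q : ℝ) + 1 := by push_cast; ring
    have hne : (q : ℝ) + 1 ≠ 0 := by positivity
    simp only [ulL_apply, woL_apply, hd]
    refine Prod.ext ?_ ?_
    · rw [Prod.fst_add, Prod.smul_fst, Prod.fst_sum]; simp
    · funext j
      rw [Prod.snd_add, Pi.add_apply, Prod.smul_snd, Pi.smul_apply, Prod.snd_sum,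
        Finset.sum_apply]
      simp only [Finset.sum_sub_distrib, ite_smul, zero_smul, Finset.sum_ite_eq, Finset.mem_univ,
        if_true, sum_plL, Finset.sum_const, Finset.card_univ, Fintype.card_fin]
      rw [plL_apply, extL_castSucc, ← Nat.cast_smul_eq_nsmul ℝ, hd, cc]
      simp only [ContinuousLinearMap.coe_fst']
      have e1 : ((q : ℝ) + 1) • (lam / ((q : ℝ) + 1)) • z.1 = lam • z.1 := by
        rw [smul_smul, mul_div_cancel₀ _ hne]
      rw [e1, sub_self, sub_zero, smul_smul, one_div, inv_mul_cancel₀ hne, one_smul]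
      abel
  surj := by
    intro x y hxy
    refine ⟨(x, fun j => y j.castSucc), rfl, fun l => ?_⟩
    rw [plL_apply]
    refine Fin.lastCases ?_ (fun i => ?_) l
    · rw [extL_last]
      simp only
      rw [← hxy, Fin.sum_univ_castSucc]
      abel
    · rw [extL_castSucc]

/-! ### Permutations of the leaves -/

/-- Permutation of the leaves. -/
def permL (σ : Equiv.Perm (Fin d)) : StarSp d k →L[ℝ] StarSp d k :=
  (ContinuousLinearMap.fst ℝ (Ek k) (Fin d → Ek k)).prod
    (ContinuousLinearMap.pi fun j => (ContinuousLinearMap.proj (σ j)).comp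
      (ContinuousLinearMap.snd ℝ (Ek k) (Fin d → Ek k)))

theorem permL_apply (σ : Equiv.Perm (Fin d)) (z : StarSp d k) :
    permL σ z = (z.1, fun j => z.2 (σ j)) := rfl

theorem map_permL_volume (σ : Equiv.Perm (Fin d)) :
    (volume : Measure (StarSp d k)).map (permL σ) = volume := by
  have h1 := volume_measurePreserving_piCongrLeft (fun _ : Fin d => Ek k) σ.symm
  have h2 : MeasurePreserving (Prod.map (id : Ek k → Ek k)
      (MeasurableEquiv.piCongrLeft (fun _ : Fin d => Ek k) σ.symm))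
      (volume : Measure (StarSp d k)) volume := (MeasurePreserving.id volume).prod h1
  have h3 : Prod.map (id : Ek k → Ek k)
      (MeasurableEquiv.piCongrLeft (fun _ : Fin d => Ek k) σ.symm) = permL σ := by
    funext z
    refine Prod.ext rfl ?_
    funext j
    rw [permL_apply]
    have := Equiv.piCongrLeft_apply_apply (fun _ : Fin d => Ek k) σ.symm z.2 (σ j)
    simp only [Equiv.symm_apply_apply] at this
    exact this
  rw [← h3]
  exact h2.map_eq

theorem map_withDensity_of_inv {E : Type*} [MeasurableSpace E] (ν : Measure E) (f : E → E)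
    (hf : Measurable f) (hν : ν.map f = ν) (ρ : E → ℝ≥0∞) (hρ : Measurable ρ)
    (hinv : ∀ x, ρ (f x) = ρ x) : (ν.withDensity ρ).map f = ν.withDensity ρ := by
  refine Measure.ext fun s hs => ?_
  rw [Measure.map_apply hf hs, withDensity_apply _ (hf hs), withDensity_apply _ hs]
  conv_rhs => rw [← hν]
  rw [setLIntegral_map hs hρ hf]
  exact setLIntegral_congr_fun (hf hs) fun p _ => (hinv p).symm

theorem dualSt_comp_permL (σ : Equiv.Perm (Fin d)) (l0 : Ek k) (l : Fin d → Ek k) :
    (dualSt l0 l).comp (permL σ) = dualSt l0 (fun j => l (σ.symm j)) := by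
  refine ContinuousLinearMap.ext fun x => ?_
  rw [ContinuousLinearMap.comp_apply, dualSt_apply, dualSt_apply, permL_apply]
  simp only
  congr 1
  rw [← Equiv.sum_comp σ (fun j => ⟪l (σ.symm j), x.2 j⟫)]
  simp

/-! ### The quadratic form -/

/-- The quadratic form of the log density. -/
def QF (q : ℕ) (lam : ℝ) (B : Ek k →L[ℝ] (Ek k →L[ℝ] ℝ)) (c : ℝ) (z : StarSp q k) : ℝ :=
  (1 / 2) * (B z.1 z.1 + c * ∑ l, B (plL q k lam l z - (lam / ((q + 1 : ℕ) : ℝ)) • z.1)
    (plL q k lam l z - (lam / ((q + 1 : ℕ) : ℝ)) • z.1))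

theorem par {T V : Type*} [NormedAddCommGroup T] [NormedSpace ℝ T] [NormedAddCommGroup V]
    [NormedSpace ℝ V] (B : V →L[ℝ] (V →L[ℝ] ℝ)) (u : T →L[ℝ] V) (p : T × T) :
    B (u (rot T p).1) (u (rot T p).1) + B (u (rot T p).2) (u (rot T p).2) =
      B (u p.1) (u p.1) + B (u p.2) (u p.2) := by
  have h2 : ((√2)⁻¹ * (√2)⁻¹ : ℝ) = 1 / 2 := by
    rw [← mul_inv, Real.mul_self_sqrt (by norm_num)]; norm_num
  rw [rot_apply]
  simp only [map_smul, map_add, map_sub, _root_.smul_apply, _root_.add_apply, _root_.sub_apply,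
    smul_eq_mul]
  linear_combination (2 * (B (u p.1) (u p.1) + B (u p.2) (u p.2))) * h2

theorem QF_rot (lam : ℝ) (B : Ek k →L[ℝ] (Ek k →L[ℝ] ℝ)) (c : ℝ) (p : StarSp q k × StarSp q k) :
    QF q lam B c (rot _ p).1 + QF q lam B c (rot _ p).2 = QF q lam B c p.1 + QF q lam B c p.2 := by
  have h1 := par B (ContinuousLinearMap.fst ℝ (Ek k) (Fin q → Ek k)) p
  have h2 : ∀ l, _ := fun l => par B (plL q k lam l - (lam / ((q + 1 : ℕ) : ℝ)) •
    ContinuousLinearMap.fst ℝ (Ek k) (Fin q → Ek k)) p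
  simp only [ContinuousLinearMap.coe_fst'] at h1
  simp only [_root_.sub_apply, _root_.smul_apply, ContinuousLinearMap.coe_fst'] at h2
  have h3 := Finset.sum_congr rfl (fun l (_ : l ∈ (Finset.univ : Finset (Fin (q + 1)))) => h2 l)
  rw [Finset.sum_add_distrib, Finset.sum_add_distrib] at h3
  unfold QF
  linear_combination (1 / 2) * h1 + (c / 2) * h3

theorem QF_perm (lam : ℝ) (B : Ek k →L[ℝ] (Ek k →L[ℝ] ℝ)) (c : ℝ) (σ : Equiv.Perm (Fin q))
    (z : StarSp q k) : QF q lam B c (permL σ z) = QF q lam B c z := by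
  have h1 : (permL σ z).1 = z.1 := rfl
  have h2 : plL q k lam (Fin.last q) (permL σ z) = plL q k lam (Fin.last q) z := by
    rw [plL_apply, plL_apply, extL_last, extL_last, h1]
    congr 1
    exact Equiv.sum_comp σ z.2
  have h3 : ∀ j : Fin q, plL q k lam j.castSucc (permL σ z) = plL q k lam (σ j).castSucc z := by
    intro j
    rw [plL_apply, plL_apply, extL_castSucc, extL_castSucc, permL_apply]
  unfold QF
  rw [Fin.sum_univ_castSucc, Fin.sum_univ_castSucc]
  simp only [h1, h2, h3]
  rw [Equiv.sum_comp σ (fun j : Fin q => B (plL q k lam j.castSucc z -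
    (lam / ((q + 1 : ℕ) : ℝ)) • z.1) (plL q k lam j.castSucc z - (lam / ((q + 1 : ℕ) : ℝ)) • z.1))]

/-! ### The noise -/

/-- The reduced noise `√t Ψ`. -/
def noise (q k : ℕ) (lam t : ℝ) : Measure (StarSp q k) :=
  (waveM q k lam).map ((√t) • redL q k)

instance (lam t : ℝ) : IsGaussian (noise q k lam t) := by
  unfold noise; infer_instance

/-- The variance of the wave at `(a0, a)`. -/
def NE (q : ℕ) (κ : ℝ) (a0 : Ek k) (a : Fin q → Ek k) : ℝ :=
  ‖a0‖ ^ 2 + 2 * ∑ j, κ * ⟪a0, a j⟫ +
      ∑ i, ∑ j, (if i = j then ⟪a i, a j⟫ else ((((q : ℝ) + 1) * κ ^ 2 - 1) / q) * ⟪a i, a j⟫)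

theorem NE_perm (κ : ℝ) (a0 : Ek k) (a : Fin q → Ek k) (τ : Equiv.Perm (Fin q)) :
    NE q κ a0 (fun j => a (τ j)) = NE q κ a0 a := by
  unfold NE
  rw [Equiv.sum_comp τ (fun j => κ * ⟪a0, a j⟫)]
  congr 1
  rw [← Equiv.sum_comp τ (fun i => ∑ j, (if i = j then ⟪a i, a j⟫ else
        ((((q : ℝ) + 1) * κ ^ 2 - 1) / q) * ⟪a i, a j⟫))]
  refine Finset.sum_congr rfl fun i _ => ?_
  rw [← Equiv.sum_comp τ (fun j => (if τ i = j then ⟪a (τ i), a j⟫ else
        ((((q : ℝ) + 1) * κ ^ 2 - 1) / q) * ⟪a (τ i), a j⟫))]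
  refine Finset.sum_congr rfl fun j _ => ?_
  simp only [EmbeddingLike.apply_eq_iff_eq]

theorem charFun_noise (hq : 0 < q) {lam : ℝ} (hlam : lam ^ 2 < 4 * q) (t : ℝ) (l0 : Ek k)
    (l : Fin q → Ek k) :
    charFunDual (noise q k lam t) (dualSt l0 l) =
      Complex.exp (-((NE q (cc q lam) (√t • l0) (fun j => √t • l j) : ℝ) : ℂ) / 2) := by
  have h1 : (dualSt l0 l).comp ((√t) • redL q k) =
      (dualSt (√t • l0) (fun j => √t • l j)).comp (redL q k) := by
    refine ContinuousLinearMap.ext fun x => ?_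
    simp only [ContinuousLinearMap.comp_apply, _root_.smul_apply, dualSt_apply, Prod.smul_fst,
      Prod.smul_snd, Pi.smul_apply, inner_smul_left, inner_smul_right, RCLike.conj_to_real]
  rw [noise, charFunDual_map, h1, dualSt_comp_redL, charFun_waveM,
    wave_quad hq (cc q lam) (sp q lam) (sp_sq hlam)]
  rfl

theorem noise_perm (hq : 0 < q) {lam : ℝ} (hlam : lam ^ 2 < 4 * q) (t : ℝ)
    (σ : Equiv.Perm (Fin q)) (L : StrongDual ℝ (StarSp q k)) :
    charFunDual (noise q k lam t) (L.comp (permL σ)) = charFunDual (noise q k lam t) L := by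
  obtain ⟨l0, l, rfl⟩ := exists_dualSt L
  rw [dualSt_comp_permL, charFun_noise hq hlam, charFun_noise hq hlam,
    NE_perm (cc q lam) (√t • l0) (fun j => √t • l j) σ.symm]

theorem smooth_red (lam t : ℝ) (mu : Measure (StarSp (q + 1) k)) [IsProbabilityMeasure mu] :
    (smoothLaw lam mu t).map redStar = (mu.map (redL q k)) ∗ (noise q k lam t) := by
  have hred : Measurable (redStar (q := q) (k := k)) := by
    rw [← coe_redL]; exact (redL q k).continuous.measurable
  have h1 : Measurable fun p : StarSp (q + 1) k × StarSp (q + 1) k => p.1 + √t • p.2 := by fun_prop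
  rw [smoothLaw, Measure.map_map hred h1, Measure.conv, noise,
    Measure.map_prod_map _ _ (redL q k).continuous.measurable
      ((√t) • redL q k).continuous.measurable,
    Measure.map_map (by fun_prop) (by fun_prop)]
  congr 1

/-! ### Main theorems -/

theorem memLp_dual (mu : Measure (StarSp (q + 1) k)) [IsProbabilityMeasure mu]
    (mue : Measure (Ek k × Ek k)) (he : ∀ l, mu.map (edgeP l) = mue)
    (hs : mue.map Prod.swap = mue) (h2 : Integrable (fun x => ‖x.1‖ ^ 2) mu)
    (L : StrongDual ℝ (StarSp (q + 1) k)) : MemLp L 2 mu := by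
  have hmE : ∀ l : Fin (q + 1), Measurable (edgeP (q := q) (k := k) l) := by
    intro l
    unfold edgeP
    fun_prop
  have h0 : MemLp (fun x : StarSp (q + 1) k => x.1) 2 mu :=
    (memLp_two_iff_integrable_sq_norm (measurable_fst.aestronglyMeasurable)).2 h2
  have hfst : MemLp (Prod.fst : Ek k × Ek k → Ek k) 2 mue := by
    rw [← he 0]
    exact (memLp_map_measure_iff (measurable_fst.aestronglyMeasurable) (hmE 0).aemeasurable).2 h0
  have hsnd : MemLp (Prod.snd : Ek k × Ek k → Ek k) 2 mue := by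
    rw [← hs] at hfst
    exact (memLp_map_measure_iff (measurable_fst.aestronglyMeasurable)
      measurable_swap.aemeasurable).1 hfst
  have hj : ∀ j : Fin (q + 1), MemLp (fun x : StarSp (q + 1) k => x.2 j) 2 mu := by
    intro j
    have h3 := hsnd
    rw [← he j] at h3
    exact (memLp_map_measure_iff (measurable_snd.aestronglyMeasurable) (hmE j).aemeasurable).1 h3
  obtain ⟨l0, l, rfl⟩ := exists_dualSt L
  have e1 : (dualSt l0 l : StarSp (q + 1) k → ℝ) = fun x => ⟪l0, x.1⟫ + ∑ j, ⟪l j, x.2 j⟫ := by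
    funext x
    exact dualSt_apply l0 l x
  rw [e1]
  have h4 : ∀ j, MemLp (fun x : StarSp (q + 1) k => ⟪l j, x.2 j⟫) 2 mu :=
    fun j => (hj j).const_inner (l j)
  have h5 : MemLp (fun x : StarSp (q + 1) k => ∑ j, ⟪l j, x.2 j⟫) 2 mu :=
    memLp_finsetSum _ fun j _ => h4 j
  have h6 : MemLp (fun x : StarSp (q + 1) k => ⟪l0, x.1⟫) 2 mu := h0.const_inner l0
  exact h6.add h5

/-- If the reduced smoothed star law has density `exp W`, with `W` constant plus a quadratic form
of the special shape, then the law is a wave. -/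
theorem wave_of_density (hq : 2 ≤ q) {lam : ℝ} (hlam : lam ^ 2 < 4 * q)
    (mu : Measure (StarSp (q + 1) k)) [IsProbabilityMeasure mu]
    (mue : Measure (Ek k × Ek k)) (he : ∀ l, mu.map (edgeP l) = mue)
    (hs : mue.map Prod.swap = mue) (h2 : Integrable (fun x => ‖x.1‖ ^ 2) mu)
    (hsupp : ∀ᵐ x ∂mu, ∑ j, x.2 j = lam • x.1) (t : ℝ)
    (B : Ek k →L[ℝ] (Ek k →L[ℝ] ℝ)) (c w : ℝ)
    (hdens : (smoothLaw lam mu t).map redStar =
      volume.withDensity (fun z => ENNReal.ofReal (Real.exp (w + QF q lam B c z)))) :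
    ∃ A : Ek k →L[ℝ] Ek k, mu = (waveM q k lam).map (siteMap A) := by
  have hq0 : 0 < q := by omega
  set X := mu.map (redL q k) with hX
  set N := noise q k lam t with hN
  have : IsProbabilityMeasure X := Measure.isProbabilityMeasure_map (by fun_prop)
  set ρ : StarSp q k → ℝ≥0∞ := fun z => ENNReal.ofReal (Real.exp (w + QF q lam B c z)) with hρ
  have hQc : Continuous (QF q lam B c) := by
    unfold QF
    fun_prop
  have hρm : Measurable ρ := by
    have : Continuous fun z => Real.exp (w + QF q lam B c z) := by fun_prop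
    exact this.measurable.ennreal_ofReal
  have hconv : X ∗ N = volume.withDensity ρ := by rw [← hdens, smooth_red]
  have hZp : IsProbabilityMeasure (volume.withDensity ρ) := by
    rw [← hconv]; infer_instance
  -- centered noise
  have hN0 : ∀ L : StrongDual ℝ (StarSp q k), ∫ x, L x ∂N = 0 := by
    have := isGaussian_of_rescale N (fun L => IsGaussian.memLp_dual N L 2 (by simp)) (fun L => by
      obtain ⟨l0, l, rfl⟩ := exists_dualSt L
      have e1 : (√2 : ℝ) • dualSt l0 l = dualSt ((√2 : ℝ) • l0) (fun j => (√2 : ℝ) • l j) := by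
        refine ContinuousLinearMap.ext fun x => ?_
        rw [_root_.smul_apply, dualSt_apply, dualSt_apply]
        simp only [inner_smul_left, RCLike.conj_to_real, smul_eq_mul, mul_add, Finset.mul_sum]
      rw [e1, hN, charFun_noise hq0 hlam, charFun_noise hq0 hlam, ← Complex.exp_nat_mul]
      congr 1
      have e2 : NE q (cc q lam) (√t • (√2 : ℝ) • l0) (fun j => √t • (√2 : ℝ) • l j) =
          2 * NE q (cc q lam) (√t • l0) (fun j => √t • l j) := by
        have hs2 : (√2 : ℝ) * √2 = 2 := Real.mul_self_sqrt (by norm_num)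
        have hs3 : (√2 : ℝ) ^ 2 = 2 := Real.sq_sqrt (by norm_num)
        have e3 : ∀ e f : Ek k, ⟪√t • (√2 : ℝ) • e, √t • (√2 : ℝ) • f⟫ = 2 * ⟪√t • e, √t • f⟫ := by
          intro e f
          simp only [inner_smul_left, inner_smul_right, RCLike.conj_to_real]
          linear_combination (√t * (√t * ⟪e, f⟫)) * hs2
        unfold NE
        simp only [e3]
        rw [← real_inner_self_eq_norm_sq, e3, real_inner_self_eq_norm_sq, mul_add, mul_add]
        congr 1
        · congr 1
          rw [Finset.mul_sum, Finset.mul_sum, Finset.mul_sum]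
          exact Finset.sum_congr rfl fun j _ => by ring
        · rw [Finset.mul_sum]
          refine Finset.sum_congr rfl fun i _ => ?_
          rw [Finset.mul_sum]
          refine Finset.sum_congr rfl fun j _ => ?_
          split_ifs <;> ring
      rw [e2]
      push_cast
      ring)
    exact this.2
  -- X is Gaussian
  have hXmem : ∀ L : StrongDual ℝ (StarSp q k), MemLp L 2 X := by
    intro L
    rw [hX, memLp_map_measure_iff (by fun_prop) (by fun_prop)]
    exact memLp_dual mu mue he hs h2 (L.comp (redL q k))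
  have hvol : (volume : Measure (StarSp q k)).IsAddHaarMeasure := by
    have h1 : (volume : Measure (Fin q → Ek k)).IsAddHaarMeasure := inferInstance
    have h2 : (volume : Measure (Ek k)).IsAddHaarMeasure := inferInstance
    exact Measure.prod.instIsAddHaarMeasure _ _
  obtain ⟨hXg, hX0⟩ := isGaussian_of_conv X N hN0 hXmem (fun L => by
    rw [hconv]
    refine rescale_of_density volume ρ hρm (fun p => ?_) L
    simp only [hρ]
    rw [← ENNReal.ofReal_mul (Real.exp_nonneg _), ← ENNReal.ofReal_mul (Real.exp_nonneg _),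
      ← Real.exp_add, ← Real.exp_add]
    congr 2
    linear_combination QF_rot lam B c p)
  -- X is exchangeable
  have hNne : ∀ L : StrongDual ℝ (StarSp q k), charFunDual N L ≠ 0 := by
    intro L
    rw [IsGaussian.charFunDual_eq]
    exact Complex.exp_ne_zero _
  have hcv : ∀ L : StrongDual ℝ (StarSp q k),
      charFunDual (X ∗ N) L = charFunDual X L * charFunDual N L := by
    intro L
    rw [Measure.conv, charFunDual_map_add_prod_eq_mul, Pi.mul_apply]
  have hXperm : ∀ σ : Equiv.Perm (Fin q), X.map (permL σ) = X := by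
    intro σ
    refine Measure.ext_of_charFunDual (funext fun L => ?_)
    rw [charFunDual_map]
    have e1 : charFunDual (X ∗ N) (L.comp (permL σ)) = charFunDual (X ∗ N) L := by
      rw [hconv, ← charFunDual_map, map_withDensity_of_inv volume (permL σ)
        (permL σ).continuous.measurable (map_permL_volume σ) ρ hρm (fun z => ?_)]
      simp only [hρ, QF_perm]
    rw [hcv, hcv, hN, noise_perm hq0 hlam, ← hN] at e1
    exact mul_right_cancel₀ (hNne L) e1
  -- mu is Gaussian
  have hmu : mu = X.map (extL q k lam) := by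
    rw [hX, Measure.map_map (extL q k lam).continuous.measurable (redL q k).continuous.measurable]
    conv_lhs => rw [← Measure.map_id (μ := mu)]
    refine Measure.map_congr ?_
    filter_upwards [hsupp] with x hx
    exact (extL_red lam x hx).symm
  have hmug : IsGaussian mu := by rw [hmu]; infer_instance
  have hmu0 : ∀ L : StrongDual ℝ (StarSp (q + 1) k), ∫ x, L x ∂mu = 0 := by
    intro L
    rw [hmu, integral_map (by fun_prop) (by fun_prop)]
    exact hX0 (L.comp (extL q k lam))
  have hmom : ∀ (i j : Fin q) (e f : Ek k), ∫ x, ⟪e, x.2 i.castSucc⟫ * ⟪f, x.2 j.castSucc⟫ ∂mu =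
      ∫ z : StarSp q k, ⟪e, z.2 i⟫ * ⟪f, z.2 j⟫ ∂X := by
    intro i j e f
    rw [hX, integral_map (by fun_prop) (by fun_prop), coe_redL]
    rfl
  let a0 : Fin q := ⟨0, by omega⟩
  let a1 : Fin q := ⟨1, by omega⟩
  have ha01 : a1 ≠ a0 := by simp [a0, a1]
  refine wave_of_gaussian hq hlam mu hmu0 mue he hs hsupp
    (fun e f => ∫ z : StarSp q k, ⟪e, z.2 a0⟫ * ⟪f, z.2 a1⟫ ∂X) (fun i j hij e f => ?_)
  rw [hmom]
  -- a permutation with `a0 ↦ i`, `a1 ↦ j`
  let σ : Equiv.Perm (Fin q) := Equiv.swap (Equiv.swap a0 i a1) j * Equiv.swap a0 i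
  have hne : Equiv.swap a0 i a1 ≠ i := by
    intro h
    have : Equiv.swap a0 i a1 = Equiv.swap a0 i a0 := by rw [h, Equiv.swap_apply_left]
    exact ha01 ((Equiv.swap a0 i).injective this)
  have hσ0 : σ a0 = i := by
    change Equiv.swap (Equiv.swap a0 i a1) j (Equiv.swap a0 i a0) = i
    rw [Equiv.swap_apply_left]
    exact Equiv.swap_apply_of_ne_of_ne hne.symm hij
  have hσ1 : σ a1 = j := by
    change Equiv.swap (Equiv.swap a0 i a1) j (Equiv.swap a0 i a1) = j
    exact Equiv.swap_apply_left _ _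
  have e7 : ∫ z : StarSp q k, ⟪e, z.2 a0⟫ * ⟪f, z.2 a1⟫ ∂X =
      ∫ z : StarSp q k, ⟪e, z.2 a0⟫ * ⟪f, z.2 a1⟫ ∂(X.map (permL σ)) := by rw [hXperm σ]
  have e8 : ∫ z : StarSp q k, ⟪e, z.2 a0⟫ * ⟪f, z.2 a1⟫ ∂(X.map (permL σ)) =
      ∫ z : StarSp q k, ⟪e, (permL σ z).2 a0⟫ * ⟪f, (permL σ z).2 a1⟫ ∂X :=
    integral_map (permL σ).continuous.aemeasurable (by fun_prop)
  rw [e7, e8]
  simp only [permL_apply, hσ0, hσ1]

/-- **Output for block D6.** The equality relations for the log density `W` of the reduced smoothed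
star law imply that the law is a wave. -/
theorem wave_of_relations (hq : 2 ≤ q) {lam : ℝ} (hlam : lam ^ 2 < 4 * q)
    (mu : Measure (StarSp (q + 1) k)) [IsProbabilityMeasure mu]
    (mue : Measure (Ek k × Ek k)) (he : ∀ l, mu.map (edgeP l) = mue)
    (hs : mue.map Prod.swap = mue) (h2 : Integrable (fun x => ‖x.1‖ ^ 2) mu)
    (hsupp : ∀ᵐ x ∂mu, ∑ j, x.2 j = lam • x.1) (t : ℝ)
    (W : StarSp q k → ℝ) (D : StarSp q k → (StarSp q k →L[ℝ] ℝ))
    (hW : ∀ z, HasFDerivAt W (D z) z)
    (hdens : (smoothLaw lam mu t).map redStar =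
      volume.withDensity (fun z => ENNReal.ofReal (Real.exp (W z))))
    (G1 G2 : Ek k → Ek k → (Ek k →L[ℝ] ℝ)) (hc1 : Continuous fun x => G1 x 0)
    (hc2 : Continuous fun x => G2 x 0) (hsymm : ∀ x y, G1 x y = G2 y x)
    (h1 : ∀ (z : StarSp q k) (l : Fin (q + 1)) (e : Ek k),
      D z (0, fun j : Fin q => (if j.castSucc = l then ((q : ℝ) + 1) else 0) • e - e) =
        q * G2 z.1 ((extL q k lam z).2 l) e)
    (h2' : ∀ (z : StarSp q k) (l : Fin (q + 1)) (e : Ek k),
      D z (e, fun _ => cc q lam • e) =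
        G1 z.1 ((extL q k lam z).2 l) e + cc q lam * G2 z.1 ((extL q k lam z).2 l) e) :
    ∃ A : Ek k →L[ℝ] Ek k, mu = (waveM q k lam).map (siteMap A) := by
  have hd : ((q + 1 : ℕ) : ℝ) = (q : ℝ) + 1 := by push_cast; ring
  have hlam' : |lam| < ((q + 1 : ℕ) : ℝ) := by
    rw [hd]
    refine abs_lt_of_sq_lt_sq ?_ (by positivity)
    nlinarith [sq_nonneg ((q : ℝ) - 1)]
  obtain ⟨B, hB⟩ := eq_quadratic (by omega : 3 ≤ q + 1) hlam' (geom q k lam) G1 G2 hc1 hc2 hsymm
    W D hW (fun z l e => by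
      rw [hd]
      have := h1 z l e
      simp only [add_sub_cancel_right]
      exact this) (fun z l e => by
      rw [hd]
      exact h2' z l e)
  refine wave_of_density hq hlam mu mue he hs h2 hsupp t B
    ((((q + 1 : ℕ) : ℝ) - 1) / (((q + 1 : ℕ) : ℝ) * (1 - (lam / ((q + 1 : ℕ) : ℝ)) ^ 2))) (W 0) ?_
  rw [hdens]
  congr 1
  funext z
  rw [hB z]
  rfl

end

end Vale.Agent.P156.H894
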