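import Vale.Agent.P156.H894.Wave

/-!
# P156, block D6: a centered Gaussian law with the star symmetries is a wave
-/

namespace Vale.Agent.P156.H894

open MeasureTheory ProbabilityTheory
open Vale.Agent.P156.H849 Vale.Agent.P156.H653
open scoped RealInnerProductSpace BigOperators Matrix MatrixOrder

noncomputable section

variable {d q k : ℕ}

theorem charFun_centered {E : Type*} [NormedAddCommGroup E] [NormedSpace ℝ E] [CompleteSpace E]
    [SecondCountableTopology E]
    [MeasurableSpace E] [BorelSpace E] (X : Measure E) [IsGaussian X]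
    (h0 : ∀ L : StrongDual ℝ E, ∫ x, L x ∂X = 0) (L : StrongDual ℝ E) :
    charFunDual X L = Complex.exp (-((covarianceBilinDual X L L : ℝ) : ℂ) / 2) := by
  rw [IsGaussian.charFunDual_eq, covarianceBilinDual_self_eq_variance IsGaussian.memLp_two_id,
    integral_complex_ofReal, h0]
  congr 1
  simp only [Complex.ofReal_zero, zero_mul, zero_sub, neg_div]

theorem cov_centered {E : Type*} [NormedAddCommGroup E] [NormedSpace ℝ E] [CompleteSpace E]
    [SecondCountableTopology E]
    [MeasurableSpace E] [BorelSpace E] (X : Measure E) [IsGaussian X]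
    (h0 : ∀ L : StrongDual ℝ E, ∫ x, L x ∂X = 0) (L M : StrongDual ℝ E) :
    covarianceBilinDual X L M = ∫ x, L x * M x ∂X := by
  rw [covarianceBilinDual_apply IsGaussian.memLp_two_id, h0, h0]
  simp

/-- Evaluation at the centre. -/
def nd0 (d : ℕ) (e : Ek k) : StrongDual ℝ (StarSp d k) :=
  (innerSL ℝ e).comp (ContinuousLinearMap.fst ℝ (Ek k) (Fin d → Ek k))

/-- Evaluation at a leaf. -/
def nd (j : Fin d) (e : Ek k) : StrongDual ℝ (StarSp d k) :=
  (innerSL ℝ e).comp ((ContinuousLinearMap.proj j).comp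
      (ContinuousLinearMap.snd ℝ (Ek k) (Fin d → Ek k)))

theorem nd0_apply (e : Ek k) (x : StarSp d k) : nd0 d e x = ⟪e, x.1⟫ := by simp [nd0]

theorem nd_apply (j : Fin d) (e : Ek k) (x : StarSp d k) : nd j e x = ⟪e, x.2 j⟫ := by simp [nd]

theorem dualSt_eq (l0 : Ek k) (l : Fin d → Ek k) : dualSt l0 l = nd0 d l0 + ∑ j, nd j (l j) := rfl

theorem nd0_sum {ι : Type*} (s : Finset ι) (c : ι → ℝ) (e : ι → Ek k) :
    nd0 d (∑ i ∈ s, c i • e i) = ∑ i ∈ s, c i • nd0 d (e i) := by
  refine ContinuousLinearMap.ext fun x => ?_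
  rw [nd0_apply, sum_inner, _root_.sum_apply]
  refine Finset.sum_congr rfl fun i _ => ?_
  rw [inner_smul_left, _root_.smul_apply, nd0_apply]
  rfl

/-- A positive semidefinite bilinear form on `Ek k` is `⟪B e, B f⟫`. -/
theorem exists_factor (K : StrongDual ℝ (StarSp d k) →L[ℝ] StrongDual ℝ (StarSp d k) →L[ℝ] ℝ)
    (hsymm : ∀ L M, K L M = K M L) (hpos : ∀ L, 0 ≤ K L L) :
    ∃ B : Ek k →L[ℝ] Ek k, ∀ e f, K (nd0 d e) (nd0 d f) = ⟪B e, B f⟫ := by
  classical
  let b : Fin k → Ek k := fun a => EuclideanSpace.single a 1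
  have hb : ∀ e : Ek k, e = ∑ a, e a • b a := by
    intro e
    ext i
    simp [b, Pi.single_apply]
  let S : Matrix (Fin k) (Fin k) ℝ := fun a c => K (nd0 d (b a)) (nd0 d (b c))
  have hexp : ∀ e f : Ek k, K (nd0 d e) (nd0 d f) = ∑ a, ∑ c, e a * (f c * S a c) := by
    intro e f
    have e1 : nd0 d e = ∑ a, e a • nd0 d (b a) := by
      conv_lhs => rw [hb e]
      exact nd0_sum _ _ _
    have e2 : nd0 d f = ∑ a, f a • nd0 d (b a) := by
      conv_lhs => rw [hb f]
      exact nd0_sum _ _ _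
    have e3 : ∀ L, K L (nd0 d f) = ∑ c, f c * K L (nd0 d (b c)) := by
      intro L
      rw [e2, map_sum]
      refine Finset.sum_congr rfl fun c _ => ?_
      rw [map_smul, smul_eq_mul]
    have e4 : ∀ L, K (nd0 d e) L = ∑ a, e a * K (nd0 d (b a)) L := by
      intro L
      rw [hsymm, e1, map_sum]
      refine Finset.sum_congr rfl fun c _ => ?_
      rw [map_smul, smul_eq_mul, hsymm]
    rw [e4]
    refine Finset.sum_congr rfl fun a _ => ?_
    rw [e3, Finset.mul_sum]
  have hS : S.PosSemidef := by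
    refine Matrix.PosSemidef.of_dotProduct_mulVec_nonneg ?_ fun x => ?_
    · ext a c
      exact hsymm _ _
    · have := hpos (nd0 d (WithLp.toLp 2 x))
      rw [hexp] at this
      simp only [star_trivial, dotProduct, Matrix.mulVec, Finset.mul_sum]
      refine this.trans_eq ?_
      refine Finset.sum_congr rfl fun a _ => Finset.sum_congr rfl fun c _ => ?_
      simp only
      ring
  obtain ⟨Bm, hBm⟩ := CStarAlgebra.nonneg_iff_eq_star_mul_self.mp hS.nonneg
  refine ⟨Matrix.toEuclideanCLM (𝕜 := ℝ) Bm, fun e f => ?_⟩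
  rw [hexp]
  have h1 : ∀ e : Ek k, ∀ i, (Matrix.toEuclideanCLM (𝕜 := ℝ) Bm e) i = ∑ a, Bm i a * e a := by
    intro e i
    simp [Matrix.mulVec, dotProduct]
  rw [EuclideanSpace.inner_eq_star_dotProduct]
  simp only [dotProduct, star_trivial, Pi.star_apply]
  simp only [h1]
  have h2 : ∀ a c, S a c = ∑ i, Bm i a * Bm i c := by
    intro a c
    rw [hBm]
    simp [Matrix.mul_apply, Matrix.star_apply]
  simp only [h2, Finset.mul_sum, Finset.sum_mul]
  have h3 : ∀ a : Fin k, ∑ c : Fin k, ∑ i : Fin k, e a * (f c * (Bm i a * Bm i c)) =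
      ∑ i : Fin k, ∑ c : Fin k, e a * (f c * (Bm i a * Bm i c)) := fun a => Finset.sum_comm
  simp only [h3]
  rw [Finset.sum_comm]
  refine Finset.sum_congr rfl fun i _ => Finset.sum_congr rfl fun a _ =>
    Finset.sum_congr rfl fun c _ => ?_
  ring

/-- Expansion of a bilinear form on `dualSt`. -/
theorem expand (K : StrongDual ℝ (StarSp d k) →L[ℝ] StrongDual ℝ (StarSp d k) →L[ℝ] ℝ)
    (hsymm : ∀ L M, K L M = K M L) (l0 : Ek k) (l : Fin d → Ek k) :
    K (dualSt l0 l) (dualSt l0 l) = K (nd0 d l0) (nd0 d l0) + 2 * ∑ j, K (nd0 d l0) (nd j (l j)) +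
      ∑ i, ∑ j, K (nd i (l i)) (nd j (l j)) := by
  rw [dualSt_eq]
  have e1 : ∀ L, K L (nd0 d l0 + ∑ j, nd j (l j)) = K L (nd0 d l0) + ∑ j, K L (nd j (l j)) := by
    intro L
    rw [map_add, map_sum]
  rw [e1, hsymm _ (nd0 d l0), e1]
  have e2 : ∀ j, K (nd0 d l0 + ∑ i, nd i (l i)) (nd j (l j)) =
      K (nd0 d l0) (nd j (l j)) + ∑ i, K (nd i (l i)) (nd j (l j)) := by
    intro j
    rw [hsymm, e1, hsymm (nd j (l j)) (nd0 d l0)]
    congr 1
    exact Finset.sum_congr rfl fun i _ => hsymm _ _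
  simp only [e2, Finset.sum_add_distrib]
  rw [Finset.sum_comm]
  ring

/-- Off-diagonal sum. -/
theorem offdiag {E : Type*} [NormedAddCommGroup E] [InnerProductSpace ℝ E] {n : ℕ} (b : Fin n → E)
    (δ : ℝ) :
    ∑ i, ∑ j, (if i = j then ⟪b i, b j⟫ else δ * ⟪b i, b j⟫) =
      (1 - δ) * ∑ i, ‖b i‖ ^ 2 + δ * ‖∑ i, b i‖ ^ 2 := by
  have h1 : ‖∑ i, b i‖ ^ 2 = ∑ i, ∑ j, ⟪b i, b j⟫ := by
    rw [← real_inner_self_eq_norm_sq, sum_inner]
    exact Finset.sum_congr rfl fun i _ => inner_sum _ _ _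
  rw [h1, Finset.mul_sum, Finset.mul_sum, ← Finset.sum_add_distrib]
  refine Finset.sum_congr rfl fun i _ => ?_
  have h2 : ∀ j, (if i = j then ⟪b i, b j⟫ else δ * ⟪b i, b j⟫) =
      δ * ⟪b i, b j⟫ + (if i = j then (1 - δ) * ‖b i‖ ^ 2 else 0) := by
    intro j
    split_ifs with h
    · rw [← h, real_inner_self_eq_norm_sq]; ring
    · ring
  simp only [h2, Finset.sum_add_distrib, Finset.sum_ite_eq, Finset.mem_univ, if_true,
    ← Finset.mul_sum]
  ring

/-- The quadratic form of the wave, reduced to `q` leaves. -/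
theorem wave_quad {E : Type*} [NormedAddCommGroup E] [InnerProductSpace ℝ E] {q : ℕ} (hq : 0 < q)
    (κ s : ℝ) (hs : s ^ 2 = (1 - κ ^ 2) * ((q + 1) / q)) (b0 : E) (b : Fin q → E) :
    ‖b0 + κ • ∑ j : Fin (q + 1), Fin.snoc (α := fun _ => E) b 0 j‖ ^ 2 +
      ∑ j : Fin (q + 1), ‖s • (Fin.snoc (α := fun _ => E) b 0 j -
        ((1 : ℝ) / ((q : ℝ) + 1)) • ∑ i : Fin (q + 1), Fin.snoc (α := fun _ => E) b 0 i)‖ ^ 2 =
    ‖b0‖ ^ 2 + 2 * ∑ j, κ * ⟪b0, b j⟫ +
      ∑ i, ∑ j, (if i = j then ⟪b i, b j⟫ else ((((q : ℝ) + 1) * κ ^ 2 - 1) / q) * ⟪b i, b j⟫) := by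
  have hq' : (0 : ℝ) < q := by exact_mod_cast hq
  have hsum : ∑ j : Fin (q + 1), Fin.snoc (α := fun _ => E) b 0 j = ∑ j, b j := by
    rw [Fin.sum_univ_castSucc]; simp
  rw [hsum, offdiag]
  set S := ∑ j, b j with hS
  have h1 : ∀ j : Fin (q + 1), ‖s • (Fin.snoc (α := fun _ => E) b 0 j - ((1 : ℝ) / ((q : ℝ) + 1)) • S)‖ ^ 2
      = s ^ 2 * (‖Fin.snoc (α := fun _ => E) b 0 j‖ ^ 2 -
        2 * (1 / ((q : ℝ) + 1)) * ⟪Fin.snoc (α := fun _ => E) b 0 j, S⟫ +
        (1 / ((q : ℝ) + 1)) ^ 2 * ‖S‖ ^ 2) := by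
    intro j
    rw [norm_smul, mul_pow, Real.norm_eq_abs, sq_abs, norm_sub_sq_real, inner_smul_right,
      norm_smul, mul_pow, Real.norm_eq_abs, sq_abs]
    ring
  simp only [h1]
  rw [← Finset.mul_sum, Finset.sum_add_distrib, Finset.sum_sub_distrib, ← Finset.mul_sum,
    ← sum_inner, hsum]
  have h2 : ∑ j : Fin (q + 1), ‖Fin.snoc (α := fun _ => E) b 0 j‖ ^ 2 = ∑ j, ‖b j‖ ^ 2 := by
    rw [Fin.sum_univ_castSucc]; simp
  rw [h2, Finset.sum_const, Finset.card_univ, Fintype.card_fin, nsmul_eq_mul,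
    real_inner_self_eq_norm_sq, norm_add_sq_real, inner_smul_right, norm_smul, mul_pow,
    Real.norm_eq_abs, sq_abs, hs, ← Finset.mul_sum, hS, inner_sum, ← hS]
  push_cast
  field_simp
  ring

theorem cc_sq_lt {q : ℕ} {lam : ℝ} (hlam : lam ^ 2 < 4 * q) : cc q lam ^ 2 < 1 := by
  rw [cc, div_pow, div_lt_one (by positivity)]
  nlinarith [sq_nonneg ((q : ℝ) - 1)]

theorem sp_sq {q : ℕ} {lam : ℝ} (hlam : lam ^ 2 < 4 * q) :
    sp q lam ^ 2 = (1 - cc q lam ^ 2) * (((q : ℝ) + 1) / q) := by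
  have := cc_sq_lt hlam
  rw [sp, mul_pow, sg, Real.sq_sqrt (by linarith), Real.sq_sqrt (by positivity)]

/-- **Identification.** A centered Gaussian law on the star, with symmetric edge laws and equal
off-diagonal correlations of the first `q` leaves, is a wave. -/
theorem wave_of_gaussian (hq : 2 ≤ q) {lam : ℝ} (hlam : lam ^ 2 < 4 * q)
    (mu : Measure (StarSp (q + 1) k)) [IsGaussian mu]
    (h0 : ∀ L : StrongDual ℝ (StarSp (q + 1) k), ∫ x, L x ∂mu = 0)
    (mue : Measure (Ek k × Ek k)) (he : ∀ l, mu.map (edgeP l) = mue)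
    (hs : mue.map Prod.swap = mue) (hsupp : ∀ᵐ x ∂mu, ∑ j, x.2 j = lam • x.1)
    (D2 : Ek k → Ek k → ℝ)
    (hex : ∀ i j : Fin q, i ≠ j → ∀ e f : Ek k,
      ∫ x, ⟪e, x.2 i.castSucc⟫ * ⟪f, x.2 j.castSucc⟫ ∂mu = D2 e f) :
    ∃ A : Ek k →L[ℝ] Ek k, mu = (waveM q k lam).map (siteMap A) := by
  have hq0 : (0 : ℝ) < q := by exact_mod_cast (by omega : 0 < q)
  have hq1 : (1 : ℝ) < q := by exact_mod_cast (by omega : 1 < q)
  have hint : ∀ L M : StrongDual ℝ (StarSp (q + 1) k), Integrable (fun x => L x * M x) mu :=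
    fun L M => (IsGaussian.memLp_dual mu L 2 (by simp)).integrable_mul
      (IsGaussian.memLp_dual mu M 2 (by simp))
  set Km := covarianceBilinDual mu with hKm
  have hKmi : ∀ L M, Km L M = ∫ x, L x * M x ∂mu := cov_centered mu h0
  have hKms : ∀ L M, Km L M = Km M L := fun L M => covarianceBilinDual_comm L M
  let C : Ek k → Ek k → ℝ := fun e f => ∫ x, ⟪e, x.1⟫ * ⟪f, x.1⟫ ∂mu
  have hCK : ∀ e f, Km (nd0 (q + 1) e) (nd0 (q + 1) f) = C e f := by
    intro e f
    rw [hKmi]
    simp only [nd0_apply, C]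
  have hmE : ∀ l : Fin (q + 1), Measurable (edgeP (q := q) (k := k) l) := by
    intro l
    unfold edgeP
    fun_prop
  -- edges
  have hA : ∀ (j : Fin (q + 1)) (e f : Ek k), Km (nd j e) (nd j f) = C e f := by
    intro j e f
    rw [hKmi]
    simp only [nd_apply, C]
    have e1 : ∫ x : StarSp (q + 1) k, ⟪e, x.1⟫ * ⟪f, x.1⟫ ∂mu =
        ∫ p : Ek k × Ek k, ⟪e, p.1⟫ * ⟪f, p.1⟫ ∂mue := by
      rw [← he j, integral_map (hmE j).aemeasurable (by fun_prop)]
      rfl
    have e2 : ∫ x : StarSp (q + 1) k, ⟪e, x.2 j⟫ * ⟪f, x.2 j⟫ ∂mu =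
        ∫ p : Ek k × Ek k, ⟪e, p.2⟫ * ⟪f, p.2⟫ ∂mue := by
      rw [← he j, integral_map (hmE j).aemeasurable (by fun_prop)]
      rfl
    rw [e1, e2]
    conv_rhs => rw [← hs]
    rw [integral_map measurable_swap.aemeasurable (by fun_prop)]
    rfl
  have hB : ∀ (j : Fin (q + 1)) (e f : Ek k), Km (nd0 (q + 1) e) (nd j f) = cc q lam * C e f := by
    intro j e f
    have e1 : ∀ i, Km (nd0 (q + 1) e) (nd i f) = ∫ p : Ek k × Ek k, ⟪e, p.1⟫ * ⟪f, p.2⟫ ∂mue := by
      intro i
      rw [hKmi]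
      simp only [nd0_apply, nd_apply]
      rw [← he i, integral_map (hmE i).aemeasurable (by fun_prop)]
      rfl
    have e2 : ∑ i : Fin (q + 1), Km (nd0 (q + 1) e) (nd i f) = lam * C e f := by
      rw [← map_sum, hKmi]
      simp only [C]
      rw [← integral_const_mul]
      refine integral_congr_ae ?_
      filter_upwards [hsupp] with x hx
      rw [_root_.sum_apply]
      simp only [nd0_apply, nd_apply]
      rw [← inner_sum, hx, inner_smul_right]
      ring
    simp only [e1, Finset.sum_const, Finset.card_univ, Fintype.card_fin, nsmul_eq_mul] at e2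
    rw [e1]
    push_cast at e2
    rw [cc, div_mul_eq_mul_div, eq_div_iff (by positivity), ← e2]
    ring
  have hB' : ∀ (j : Fin (q + 1)) (e f : Ek k), Km (nd j e) (nd0 (q + 1) f) = cc q lam * C e f := by
    intro j e f
    rw [hKms, hB]
    simp only [C]
    congr 1
    exact integral_congr_ae (by filter_upwards with x; ring)
  have hD0 : ∀ (i j : Fin q), i ≠ j → ∀ (e f : Ek k),
      Km (nd i.castSucc e) (nd j.castSucc f) = D2 e f := by
    intro i j hij e f
    rw [hKmi]
    simp only [nd_apply]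
    exact hex i j hij e f
  set δ : ℝ := (((q : ℝ) + 1) * cc q lam ^ 2 - 1) / q with hδ
  have hD2 : ∀ e f, D2 e f = δ * C e f := by
    intro e f
    have e1 : Km (nd (Fin.last q) e) (nd (Fin.last q) f) =
        Km (lam • nd0 (q + 1) e - ∑ i : Fin q, nd i.castSucc e)
          (lam • nd0 (q + 1) f - ∑ i : Fin q, nd i.castSucc f) := by
      rw [hKmi, hKmi]
      refine integral_congr_ae ?_
      filter_upwards [hsupp] with x hx
      have e2 : x.2 (Fin.last q) = lam • x.1 - ∑ i : Fin q, x.2 i.castSucc := by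
        rw [← hx, Fin.sum_univ_castSucc]; abel
      simp only [_root_.sub_apply, _root_.smul_apply, _root_.sum_apply, nd0_apply, nd_apply, e2,
        inner_sub_right, inner_smul_right, inner_sum, smul_eq_mul]
    have f1 : ∀ L M N : StrongDual ℝ (StarSp (q + 1) k), Km (L - M) N = Km L N - Km M N := by
      intro L M N
      rw [map_sub, _root_.sub_apply]
    have f2 : ∀ (a : ℝ) (L N : StrongDual ℝ (StarSp (q + 1) k)), Km (a • L) N = a * Km L N := by
      intro a L N
      rw [map_smul, _root_.smul_apply, smul_eq_mul]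
    have f3 : ∀ (g : Fin q → StrongDual ℝ (StarSp (q + 1) k)) (N : StrongDual ℝ (StarSp (q + 1) k)),
        Km (∑ i, g i) N = ∑ i, Km (g i) N := by
      intro g N
      rw [map_sum, _root_.sum_apply]
    rw [hA, f1, f2, f3, map_sub, map_smul, map_sum, hCK] at e1
    simp only [map_sub, map_smul, map_sum, hB, hB', smul_eq_mul] at e1
    rw [Finset.sum_sub_distrib] at e1
    have e3 : ∑ i : Fin q, ∑ j : Fin q, Km (nd i.castSucc e) (nd j.castSucc f) =
        q * C e f + q * ((q : ℝ) - 1) * D2 e f := by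
      have e4 : ∀ i : Fin q, ∑ j : Fin q, Km (nd i.castSucc e) (nd j.castSucc f) =
          C e f + ((q : ℝ) - 1) * D2 e f := by
        intro i
        rw [← Finset.add_sum_erase _ _ (Finset.mem_univ i), hA]
        congr 1
        rw [Finset.sum_congr rfl (fun j hj => hD0 i j (Finset.ne_of_mem_erase hj).symm e f),
          Finset.sum_const, Finset.card_erase_of_mem (Finset.mem_univ i), Finset.card_univ,
          Fintype.card_fin, nsmul_eq_mul, Nat.cast_sub (by omega), Nat.cast_one]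
      simp only [e4, Finset.sum_const, Finset.card_univ, Fintype.card_fin, nsmul_eq_mul]
      ring
    rw [e3] at e1
    simp only [Finset.sum_const, Finset.card_univ, Fintype.card_fin, nsmul_eq_mul] at e1
    have hl : lam = ((q : ℝ) + 1) * cc q lam := by
      rw [cc]; field_simp
    have hq2 : (q : ℝ) * ((q : ℝ) - 1) ≠ 0 := by
      have : (q : ℝ) - 1 > 0 := by linarith
      positivity
    have e5 : (q : ℝ) * ((q : ℝ) - 1) * D2 e f = (1 - lam ^ 2 + 2 * lam * q * cc q lam - q) * C e f := by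
      linear_combination -e1
    have e6 : (1 - lam ^ 2 + 2 * lam * q * cc q lam - q) * C e f =
        (q : ℝ) * ((q : ℝ) - 1) * (δ * C e f) := by
      rw [hδ]
      have : (1 - lam ^ 2 + 2 * lam * q * cc q lam - q) =
          ((q : ℝ) - 1) * (((q : ℝ) + 1) * cc q lam ^ 2 - 1) := by
        have e7 : lam ^ 2 = (((q : ℝ) + 1) * cc q lam) ^ 2 := by rw [← hl]
        have e8 : 2 * lam * q * cc q lam = 2 * (((q : ℝ) + 1) * cc q lam) * q * cc q lam := by
          rw [← hl]
        rw [e7, e8]; ring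
      rw [this]
      field_simp
    exact mul_left_cancel₀ hq2 (e5.trans e6)
  -- factorisation
  obtain ⟨B, hBB⟩ := exists_factor Km hKms (fun L => covarianceBilinDual_self_nonneg L)
  have hCB : ∀ e f, C e f = ⟪B e, B f⟫ := by
    intro e f
    rw [← hCK, hBB]
  set A : Ek k →L[ℝ] Ek k := ContinuousLinearMap.adjoint B with hAdef
  refine ⟨A, ?_⟩
  -- reduce to `q` leaves
  have hwsupp : ∀ᵐ x ∂((waveM q k lam).map (siteMap A)), ∑ j, x.2 j = lam • x.1 := by
    have hm : Measurable (siteMap (d := q + 1) A) := by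
      rw [← coe_siteL]; exact (siteL (q + 1) A).continuous.measurable
    have hm2 : Measurable (waveMap q k lam) := by
      rw [← coe_waveL]; exact (waveL q k lam).continuous.measurable
    have hclosed : MeasurableSet {x : StarSp (q + 1) k | ∑ j, x.2 j = lam • x.1} := by
      refine measurableSet_eq_fun ?_ ?_ <;> fun_prop
    rw [ae_map_iff hm.aemeasurable hclosed, waveM]
    exact (ae_map_iff hm2.aemeasurable (hm hclosed)).2
      (Filter.Eventually.of_forall fun g => sum_site A lam _ (sum_wave lam g))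
  have hrec : ∀ (ν : Measure (StarSp (q + 1) k)), (∀ᵐ x ∂ν, ∑ j, x.2 j = lam • x.1) →
      (ν.map (redL q k)).map (extL q k lam) = ν := by
    intro ν hν
    rw [Measure.map_map (extL q k lam).continuous.measurable (redL q k).continuous.measurable]
    conv_rhs => rw [← Measure.map_id (μ := ν)]
    refine Measure.map_congr ?_
    filter_upwards [hν] with x hx
    exact extL_red lam x hx
  rw [← hrec mu hsupp, ← hrec _ hwsupp]
  congr 1
  rw [← coe_siteL]
  refine Measure.ext_of_charFunDual (funext fun L => ?_)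
  obtain ⟨l0, l, rfl⟩ := exists_dualSt L
  rw [charFunDual_map, charFunDual_map, charFunDual_map, charFun_centered mu h0,
    dualSt_comp_redL, dualSt_comp_siteL, charFun_waveM]
  have hadj : ∀ e, ContinuousLinearMap.adjoint A e = B e := by
    intro e
    rw [hAdef, ContinuousLinearMap.adjoint_adjoint]
  simp only [hadj]
  have hsn : (fun j : Fin (q + 1) => B (Fin.snoc (α := fun _ => Ek k) l 0 j)) =
      Fin.snoc (α := fun _ => Ek k) (fun j => B (l j)) 0 := by
    funext j
    refine Fin.lastCases ?_ (fun i => ?_) j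
    · simp
    · simp
  have hw := wave_quad (by omega : 0 < q) (cc q lam) (sp q lam) (sp_sq hlam) (B l0)
    (fun j => B (l j))
  rw [← hsn] at hw
  have hreal : Km (dualSt l0 (Fin.snoc (α := fun _ => Ek k) l 0))
      (dualSt l0 (Fin.snoc (α := fun _ => Ek k) l 0)) =
      ‖B l0 + cc q lam • ∑ j : Fin (q + 1), B (Fin.snoc (α := fun _ => Ek k) l 0 j)‖ ^ 2 +
        ∑ j : Fin (q + 1), ‖sp q lam • (B (Fin.snoc (α := fun _ => Ek k) l 0 j) -
          ((1 : ℝ) / ((q : ℝ) + 1)) •
            ∑ i : Fin (q + 1), B (Fin.snoc (α := fun _ => Ek k) l 0 i))‖ ^ 2 := by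
    refine Eq.trans ?_ hw.symm
    have hnd : ∀ j : Fin (q + 1), nd (d := q + 1) (k := k) j 0 = 0 := by
      intro j
      refine ContinuousLinearMap.ext fun x => ?_
      rw [nd_apply]; simp
    rw [expand Km hKms, hCK, hCB, real_inner_self_eq_norm_sq]
    simp only [Fin.sum_univ_castSucc, Fin.snoc_castSucc, Fin.snoc_last, hnd, map_zero,
      _root_.zero_apply, add_zero, Finset.sum_const_zero]
    congr 1
    · simp only [hB, hCB]
    · refine Finset.sum_congr rfl fun i _ => Finset.sum_congr rfl fun j _ => ?_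
      split_ifs with hij
      · rw [hij, hA, hCB]
      · rw [hD0 i j hij, hD2, hCB]
  rw [hreal]

end

end Vale.Agent.P156.H894
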